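import Vale.Agent.P263.TJ.HopfDef
import Vale.Agent.P263.G2.SingIso

/-!
# P263, block EB: maps of Hopf invariant one have Adams filtration one

`not_hopfOne_comp` : a composite `S^m → T → S^r` of two maps which are zero in mod 2 cohomology
(in the degrees `m` and `r`) does not have Hopf invariant one. `HopfOne.not_comp` : the same up to
a based homotopy.
-/

open Finset OnePoint Topology

namespace Vale.Agent.P263.TJ

open Vale.Agent.P263.S Vale.Agent.P263.E Vale.Agent.P263.H83 Vale.Agent.P263.G2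
  Vale.Agent.P263.T0

/-- `f` is zero on `Hᵏ(-; 𝔽₂)` (singular cochains) -/
def ZeroOn {X Y : Type} [TopologicalSpace X] [TopologicalSpace Y] (f : C(X, Y)) (k : ℕ) : Prop :=
  ∀ z : Cc (sing Y), Cc.IsDeg k z → Cc.d z = 0 → ∃ a, Cc.pull (singMap f) z = Cc.d a

section Homology

variable {X Y : Type} [TopologicalSpace X] [TopologicalSpace Y]

theorem zeroOn_iff_mapH (f : C(X, Y)) (k : ℕ) :
    ZeroOn f k ↔ ((singMap f).pull (R := ZMod 2)).mapH k = 0 := by
  constructor
  · intro h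
    refine LinearMap.ext fun x => ?_
    obtain ⟨⟨z, hz⟩, rfl⟩ := (SS.F (ZMod 2) (sing Y)).cls_surjective k x
    rw [Hom.mapH_cls, LinearMap.zero_apply, CosMod.cls_eq_zero_iff]
    have hu : Cc.IsDeg k (Cc.ofF k z) := Cc.isDeg_ofF k z
    obtain ⟨a, ha⟩ := h (Cc.ofF k z) hu ((Cc.d_eq_zero_iff hu).2 (by rw [Cc.toF_ofF]; exact hz))
    have h1 := (Cc.coh_zero_iff (hu.pull (singMap f))).1 (coh_of_d ha)
    rwa [Cc.toF_pull, Cc.toF_ofF] at h1
  · intro h u hu hd
    have hz := (Cc.d_eq_zero_iff hu).1 hd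
    have h1 := LinearMap.congr_fun h ((SS.F (ZMod 2) (sing Y)).cls k ⟨Cc.toF k u, hz⟩)
    rw [Hom.mapH_cls, LinearMap.zero_apply, CosMod.cls_eq_zero_iff] at h1
    exact exists_of_coh ((Cc.coh_zero_iff (hu.pull (singMap f))).2 h1)

/-- **`f` is zero on cochain cohomology iff it is zero on the singular homology of Mathlib.** -/
theorem zeroOn_iff (f : C(X, Y)) (k : ℕ) :
    ZeroOn f k ↔ (T0.H k).map (TopCat.ofHom f) = 0 := by
  rw [zeroOn_iff_mapH, G.H_map_eq_zero_iff_mapH]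
  have e1 : ((toSing X).pull (R := ZMod 2)).comp ((G.singMap (TopCat.ofHom f)).pull) =
      ((singMap f).pull (R := ZMod 2)).comp ((toSing Y).pull) := by
    rw [← SS.Map.pull_comp, ← SS.Map.pull_comp, toSing_nat]
  have e2 : ((ofSing X).pull (R := ZMod 2)).comp ((singMap f).pull) =
      ((G.singMap (TopCat.ofHom f)).pull (R := ZMod 2)).comp ((ofSing Y).pull) := by
    rw [← SS.Map.pull_comp, ← SS.Map.pull_comp, ofSing_nat]
  have key : ∀ (Z : Type) [TopologicalSpace Z] (x : (SS.F (ZMod 2) (sing Z)).H k),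
      ((toSing Z).pull (R := ZMod 2)).mapH k (((ofSing Z).pull (R := ZMod 2)).mapH k x) = x := by
    intro Z _ x
    rw [← Hom.mapH_comp, ← SS.Map.pull_comp, ofSing_toSing, SS.Map.pull_id, Hom.mapH_id]
  have key' : ∀ (Z : Type) [TopologicalSpace Z]
      (x : (SS.F (ZMod 2) (G.sing (TopCat.of Z))).H k),
      ((ofSing Z).pull (R := ZMod 2)).mapH k (((toSing Z).pull (R := ZMod 2)).mapH k x) = x := by
    intro Z _ x
    rw [← Hom.mapH_comp, ← SS.Map.pull_comp, toSing_ofSing, SS.Map.pull_id, Hom.mapH_id]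
  constructor
  · intro h
    refine LinearMap.ext fun x => ?_
    have h1 : ((toSing X).pull (R := ZMod 2)).mapH k
        (((G.singMap (TopCat.ofHom f)).pull (R := ZMod 2)).mapH k x) = 0 := by
      rw [← Hom.mapH_comp, e1, Hom.mapH_comp, h, LinearMap.zero_apply]
    rw [← key' X (((G.singMap (TopCat.ofHom f)).pull (R := ZMod 2)).mapH k x), h1, map_zero,
      LinearMap.zero_apply]
  · intro h
    refine LinearMap.ext fun x => ?_
    have h1 : ((ofSing X).pull (R := ZMod 2)).mapH k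
        (((singMap f).pull (R := ZMod 2)).mapH k x) = 0 := by
      rw [← Hom.mapH_comp, e2, Hom.mapH_comp, h, LinearMap.zero_apply]
    rw [← key X (((singMap f).pull (R := ZMod 2)).mapH k x), h1, map_zero,
      LinearMap.zero_apply]

end Homology

theorem exists_deg_of_d {X : SS} {n : ℕ} {u : Cc X} (hu : Cc.IsDeg (n + 1) u) {w : Cc X}
    (h : u = Cc.d w) : ∃ w', Cc.IsDeg n w' ∧ u = Cc.d w' :=
  ⟨Cc.comp n w, Cc.isDeg_comp n w, by rw [← Cc.comp_d, ← h, Cc.comp_eq hu]⟩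

/-- **A composite of two maps which are zero in cohomology is not of Hopf invariant one.** -/
theorem not_hopfOne_comp {m n i : ℕ} (hi : 2 * n + 1 = m + i) (hm : n + 1 < m) {T : Type}
    [TopologicalSpace T] (f₁ : C(Sph m, T)) (f₂ : C(T, Sph (n + 1))) (h₁ : ZeroOn f₁ m)
    (h₂ : ZeroOn f₂ (n + 1)) : ¬ HopfOne (f₂.comp f₁) := by
  intro h
  rw [hopfOne_iff _ hi] at h
  obtain ⟨D, hD, hDb, hDv⟩ := h
  obtain ⟨e₀, he₀⟩ := h₂ D.b hD.b_mem D.d_b
  obtain ⟨e, he, hde⟩ := exists_deg_of_d (Cc.IsDeg.pull (u := (D.b : Cc _)) hD.b_mem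
    (singMap f₂)) he₀
  -- the functional square of `f₂`
  let E : CupC.FSqD (Cc.pullHom (singMap f₂)) i := ⟨D.b, e, D.c, D.d_b, hde.symm, D.d_c⟩
  have hE : E.Homog (Cc.gr _) (Cc.gr _) n m := ⟨hD.b_mem, he, hD.c_mem, hD.deg_eq⟩
  have hEv : Cc.IsDeg m (E.val : Cc (sing T)) :=
    CupC.FSqD.val_mem hE fun x hx => Cc.IsDeg.pull (u := (x : Cc _)) hx _
  obtain ⟨a, ha⟩ := h₁ E.val hEv E.d_val
  -- its pull-back is the functional square of the composite
  let E' : CupC.FSqD (Cc.pullHom (singMap (f₂.comp f₁))) i :=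
    (E.post (Cc.pullHom (singMap f₁))).congr fun _ => rfl
  have hE'v : E'.val = (Cc.pullHom (singMap f₁)).f E.val :=
    ((E.post (Cc.pullHom (singMap f₁))).val_congr _).trans (E.val_post _)
  refine CupC.Hopf1.forall ⟨D, hD, hDb, hDv⟩ (unamb hi hm) E'
    ⟨hD.b_mem, Cc.IsDeg.pull (u := e) he _, hD.c_mem, hD.deg_eq⟩ hDb ?_
  rw [hE'v]
  exact coh_of_d (z := Cc.pull (singMap f₁) E.val) ha

/-- homotopy invariance of `HopfOne`, homotopies relative to the base point -/
theorem hopfOne_of_homotopicRel {m n i : ℕ} (hi : 2 * n + 1 = m + i) (hm : n + 1 < m)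
    {F F' : C(Sph m, Sph (n + 1))} (hF : F ∞ = ∞) (h : F.HomotopicRel F' {∞})
    (h' : HopfOne F) : HopfOne F' := by
  obtain ⟨G⟩ := h
  refine hopfOne_of_htpy hi hm (F := F) (F' := F')
    ((⟨G, G.continuous⟩ : C(unitInterval × Sph m, Sph (n + 1))).comp
      ⟨Prod.swap, continuous_swap⟩) (fun t => ?_) (fun x => ?_) (fun x => ?_) h'
  · change G (t, ∞) = ∞
    rw [G.eq_fst t rfl, hF]
  · exact G.apply_zero x
  · exact G.apply_one x

/-- **Maps of Hopf invariant one have Adams filtration one**: they are not homotopic to a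
composite of two maps which are zero in mod 2 homology. -/
theorem HopfOne.not_comp {m n i : ℕ} (hi : 2 * n + 1 = m + i) (hm : n + 1 < m)
    {F : C(Sph m, Sph (n + 1))} (hF₀ : F ∞ = ∞) (hF : HopfOne F) {T : Type} [TopologicalSpace T]
    (f₁ : C(Sph m, T)) (f₂ : C(T, Sph (n + 1))) (h₁ : (T0.H m).map (TopCat.ofHom f₁) = 0)
    (h₂ : (T0.H (n + 1)).map (TopCat.ofHom f₂) = 0) (h : F.HomotopicRel (f₂.comp f₁) {∞}) :
    False :=
  not_hopfOne_comp hi hm f₁ f₂ ((zeroOn_iff f₁ m).2 h₁) ((zeroOn_iff f₂ (n + 1)).2 h₂)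
    (hopfOne_of_homotopicRel hi hm hF₀ h hF)

end Vale.Agent.P263.TJ
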