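import Vale.Agent.P263.TJ.SphCc
import Vale.Agent.P263.TJ.FHtp
import Vale.Agent.P263.TJ.Dstar

/-!
# P263, block EB: maps of spheres of Hopf invariant one

`HopfOne F`, for `F : S^m → S^r`, `r < m < 2 r`: Steenrod's functional square of `F` on singular
cochains is not zero.  `hopfOne_iff_exists`, `hopfOne_iff_forall` : reduced cochains, independence
of the choices.  `hopfOne_of_htpy` : homotopy invariance.  `hopfOne_adjS` : the criterion for
adjoints of maps `Sᵈ → Ωʳ Sʳ`.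
-/

open Finset OnePoint

namespace Vale.Agent.P263.TJ

open Vale.Agent.P263.S Vale.Agent.P263.E Vale.Agent.P263.H83 Vale.Agent.P263.G2
  Vale.Agent.P263.T0

/-- **Hopf invariant one** for a map `F : S^m → S^r` with `r < m < 2 r`: there are cochains
`b, c` of `S^r` and `e` of `S^m` of degrees `r, m, r - 1` such that `b` is a cocycle and not a
coboundary, `b ∪_{j-1} b = d c` with `j = 2 r - m`, `F^* b = d e`, and the cocycle
`F^* c + e ∪_{j-2} e + e ∪_{j-1} d e` of degree `m` is not a coboundary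
(`Cc.cup j` is Steenrod's product `∪_{j-1}`, and `∪_{-1} = 0`). -/
def HopfOne {m r : ℕ} (F : C(Sph m, Sph r)) : Prop :=
  ∃ (b c : Cc (sing (Sph r))) (e : Cc (sing (Sph m))),
    Cc.IsDeg r b ∧ Cc.IsDeg m c ∧ Cc.IsDeg (r - 1) e ∧ Cc.d b = 0 ∧ (∀ a, b ≠ Cc.d a) ∧
    Cc.cup (2 * r - m) b b = Cc.d c ∧ Cc.pull (singMap F) b = Cc.d e ∧
    ∀ a, Cc.pull (singMap F) c + Cc.cup (2 * r - m - 1) e e + Cc.cup (2 * r - m) e (Cc.d e) ≠
      Cc.d a

namespace CupC

variable {U V : CupC}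

/-- Hopf invariant one for a morphism of graded cochain objects -/
def Hopf1 (g : Hom V U) (GV : Gr V) (GU : Gr U) (i n k : ℕ) : Prop :=
  ∃ D : FSqD g i, D.Homog GV GU n k ∧ ¬ V.Coh D.b 0 ∧ ¬ U.Coh D.val 0

theorem Coh.of_coh_left {x y : U.C} (h : U.Coh x y) (hx : U.Coh x 0) : U.Coh y 0 :=
  h.symm.trans hx

/-- the conditions under which the functional square is well defined -/
structure Unamb (g : Hom V U) (GV : Gr V) (GU : Gr U) (n k : ℕ) : Prop where
  van : GU.Van n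
  deg : ∀ x ∈ GV.deg n, g.f x ∈ GU.deg n
  zero : ∀ y ∈ GV.deg k, V.d y = 0 → U.Coh (g.f y) 0
  uniq : ∀ b ∈ GV.deg (n + 1), ∀ b' ∈ GV.deg (n + 1), V.d b = 0 → V.d b' = 0 →
    ¬ V.Coh b 0 → ¬ V.Coh b' 0 → V.Coh b b'

theorem Hopf1.forall {g : Hom V U} {GV : Gr V} {GU : Gr U} {i n k : ℕ}
    (h : Hopf1 g GV GU i n k) (hu : Unamb g GV GU n k) (D : FSqD g i) (hD : D.Homog GV GU n k)
    (hb : ¬ V.Coh D.b 0) : ¬ U.Coh D.val 0 := by
  obtain ⟨D', hD', hb', hv'⟩ := h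
  intro hv
  exact hv' ((FSqD.coh_of_van hD hD' hu.van hu.deg hu.zero
    (hu.uniq _ hD.b_mem _ hD'.b_mem D.d_b D'.d_b hb hb')).of_coh_left hv)

end CupC

/-- two nonzero classes in the top degree of a sphere agree -/
theorem coh_of_ne {d : ℕ} (hd : 0 < d) {z z' : Cc (sing (Sph d))} (hz : Cc.IsDeg d z)
    (hdz : Cc.d z = 0) (hz' : Cc.IsDeg d z') (hdz' : Cc.d z' = 0)
    (h : ¬ (Cc.cupC (sing (Sph d))).Coh z 0) (h' : ¬ (Cc.cupC (sing (Sph d))).Coh z' 0) :
    (Cc.cupC (sing (Sph d))).Coh z z' := by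
  rw [SphCc.coh_iff hd hz hdz] at h
  rw [SphCc.coh_iff hd hz' hdz'] at h'
  refine CupC.coh_iff_add.2 ((SphCc.coh_iff hd (z := z + z') (hz.add hz')
    (by rw [d_add, hdz, hdz', add_zero])).2 ?_)
  have h4 : ∀ a b c e : ZMod 2, a + b ≠ 0 → c + e ≠ 0 → (a + c) + (b + e) = 0 := by decide
  exact h4 _ _ _ _ h h'

section Sphere

variable {m n i : ℕ} (F : C(Sph m, Sph (n + 1)))

theorem coh_zero_iff {X : SS} {z : Cc X} :
    (Cc.cupC X).Coh z 0 ↔ ∃ w : Cc X, z = Cc.d w :=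
  ⟨exists_of_coh, fun ⟨_, h⟩ => coh_of_d h⟩

/-- the definition in the language of functional squares -/
theorem hopfOne_iff (hi : 2 * n + 1 = m + i) :
    HopfOne F ↔ CupC.Hopf1 (Cc.pullHom (singMap F)) (Cc.gr _) (Cc.gr _) i n m := by
  have h1 : 2 * (n + 1) - m = i + 1 := by omega
  have h2 : n + 1 - 1 = n := rfl
  constructor
  · rintro ⟨b, c, e, hb, hc, he, hdb, hnb, hcup, hF, hv⟩
    rw [h1] at hcup hv
    refine ⟨⟨b, e, c, hdb, hF.symm, hcup⟩, ⟨hb, he, hc, hi⟩, fun h => ?_, fun h => ?_⟩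
    · obtain ⟨a, ha⟩ := exists_of_coh h
      exact hnb a ha
    · obtain ⟨a, ha⟩ := exists_of_coh h
      refine hv a (Eq.trans ?_ ha)
      change Cc.pull (singMap F) c + Cc.cup i e e + Cc.cup (i + 1) e (Cc.d e) =
        Cc.cup i e e + Cc.cup (i + 1) e (Cc.d e) + Cc.pull (singMap F) c
      abel
  · rintro ⟨D, hD, hb, hv⟩
    refine ⟨D.b, D.c, D.e, hD.b_mem, hD.c_mem, hD.e_mem, D.d_b, fun a ha => hb (coh_of_d ha),
      ?_, ?_, fun a ha => hv (coh_of_d (Eq.trans ?_ ha))⟩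
    · rw [h1]; exact D.d_c
    · exact D.d_e.symm
    · rw [h1]
      change Cc.cup i (D.e : Cc _) D.e + Cc.cup (i + 1) (D.e : Cc _) (Cc.d D.e) +
        Cc.pull (singMap F) D.c = Cc.pull (singMap F) D.c + Cc.cup i (D.e : Cc _) D.e +
        Cc.cup (i + 1) (D.e : Cc _) (Cc.d D.e)
      abel

variable {F}

theorem unamb (hi : 2 * n + 1 = m + i) (hm : n + 1 < m) :
    CupC.Unamb (Cc.pullHom (singMap F)) (Cc.gr _) (Cc.gr _) n m where
  van := SphCc.van (by omega) (by omega)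
  deg _ hx := Cc.IsDeg.pull hx _
  zero y hy hdy := (SphCc.van (by omega) (by omega) y hy hdy).map _
  uniq b hb b' hb' hd hd' h h' :=
    coh_of_ne (Nat.succ_pos n) (z := b) (z' := b') hb hd hb' hd' h h'

variable (F) in
/-- the reduced cochains and a based map -/
noncomputable def relF {m r : ℕ} (F : C(Sph m, Sph r)) (hF : F ∞ = ∞) :
    CupC.Hom (Cc.rel (bs r)) (Cc.rel (bs m)) :=
  Cc.relHom (singMap F) (bs m) (bs r) fun {p} σ h (t : Dl p) => by
    change F (toC σ t) = ∞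
    rw [h t, hF]

theorem unambR (hF : F ∞ = ∞) (hi : 2 * n + 1 = m + i) (hm : n + 1 < m) :
    CupC.Unamb (relF F hF) (Cc.relGr _) (Cc.relGr _) n m where
  van := SphCc.rel_van (by omega) (by omega)
  deg x hx := Cc.IsDeg.pull (u := Cc.val x) hx _
  zero y hy hdy := (SphCc.rel_van (Nat.succ_pos n) (by omega) y hy hdy).map (relF F hF)
  uniq b hb b' hb' hd hd' h h' := SphCc.rel_coh_of_ne (Nat.succ_pos n) hb hd hb' hd' h h'

/-- existence of reduced data -/
theorem exists_dataR (hF : F ∞ = ∞) (hi : 2 * n + 1 = m + i) (hm : n + 1 < m)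
    {b : (Cc.rel (bs (n + 1))).C} (hb : Cc.IsDeg (n + 1) (Cc.val b))
    (hdb : (Cc.rel (bs (n + 1))).d b = 0) :
    ∃ D : CupC.FSqD (relF F hF) i, D.b = b ∧ D.Homog (Cc.relGr _) (Cc.relGr _) n m := by
  obtain ⟨e₀, he₀⟩ := CupC.Gr.Van.exists (G := Cc.relGr (bs m)) (z := (relF F hF).f b)
    (SphCc.rel_van (by omega) (by omega)) (Cc.IsDeg.pull (u := Cc.val b) hb (singMap F))
    (by rw [← (relF F hF).f_d, hdb, map_zero])
  obtain ⟨e, he, hde⟩ := (Cc.relGr (bs m)).exists_of_d (n := n)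
    (Cc.IsDeg.pull (u := Cc.val b) hb (singMap F)) he₀
  have hc1 : (Cc.rel (bs (n + 1))).cup (i + 1) b b ∈ (Cc.relGr (bs (n + 1))).deg (m + 1) :=
    (Cc.relGr (bs (n + 1))).cup_mem (n + 1) (n + 1) i (m + 1) b b hb hb (by omega)
  have hc2 : (Cc.rel (bs (n + 1))).d ((Cc.rel (bs (n + 1))).cup (i + 1) b b) = 0 := by
    rw [CupC.d_cup_self, hdb, map_zero, map_zero, AddMonoidHom.zero_apply, add_zero]
  obtain ⟨c₀, hc₀⟩ := CupC.Gr.Van.exists (G := Cc.relGr (bs (n + 1)))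
    (SphCc.rel_van (Nat.succ_pos n) (by omega)) hc1 hc2
  obtain ⟨c, hc, hdc⟩ := (Cc.relGr (bs (n + 1))).exists_of_d hc1 hc₀
  exact ⟨⟨b, e, c, hdb, hde.symm, hdc⟩, rfl, ⟨hb, he, hc, hi⟩⟩

/-- reduced data as absolute data -/
noncomputable def absD (hF : F ∞ = ∞) (D : CupC.FSqD (relF F hF) i) :
    CupC.FSqD (Cc.pullHom (singMap F)) i :=
  D.map (Cc.relIncl _) (Cc.relIncl _) fun _ => rfl

theorem absD_val (hF : F ∞ = ∞) (D : CupC.FSqD (relF F hF) i) :
    (absD hF D).val = Cc.val D.val := D.val_map _ _ _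

theorem absD_b (hF : F ∞ = ∞) (D : CupC.FSqD (relF F hF) i) :
    (absD hF D).b = Cc.val D.b := rfl

theorem absD_homog {hF : F ∞ = ∞} {D : CupC.FSqD (relF F hF) i}
    (hD : D.Homog (Cc.relGr _) (Cc.relGr _) n m) :
    (absD hF D).Homog (Cc.gr _) (Cc.gr _) n m := ⟨hD.b_mem, hD.e_mem, hD.c_mem, hD.deg_eq⟩

theorem val_isDeg {hF : F ∞ = ∞} {D : CupC.FSqD (relF F hF) i}
    (hD : D.Homog (Cc.relGr _) (Cc.relGr _) n m) : Cc.IsDeg m (Cc.val D.val) :=
  CupC.FSqD.val_mem hD fun x hx => Cc.IsDeg.pull (u := Cc.val x) hx _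

/-- reduced data with non-zero functional square give Hopf invariant one -/
theorem hopfOne_of_rel (hi : 2 * n + 1 = m + i) (hF : F ∞ = ∞)
    (h : CupC.Hopf1 (relF F hF) (Cc.relGr _) (Cc.relGr _) i n m) : HopfOne F := by
  obtain ⟨D, hD, hb, hv⟩ := h
  rw [hopfOne_iff F hi]
  refine ⟨absD hF D, absD_homog hD, fun h => hb ?_, fun h => hv ?_⟩
  · exact SphCc.rel_coh_of_coh hD.b_mem h
  · rw [absD_val] at h
    exact SphCc.rel_coh_of_coh (val_isDeg hD) h

/-- **Independence of the choices** (reduced cochains). -/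
theorem hopfOne_iff_forall (hi : 2 * n + 1 = m + i) (hm : n + 1 < m) (hF : F ∞ = ∞) :
    HopfOne F ↔ ∀ D : CupC.FSqD (relF F hF) i, D.Homog (Cc.relGr _) (Cc.relGr _) n m →
      ¬ (Cc.rel (bs (n + 1))).Coh D.b 0 → ¬ (Cc.rel (bs m)).Coh D.val 0 := by
  constructor
  · intro h D hD hb hv
    rw [hopfOne_iff F hi] at h
    refine h.forall (unamb hi hm) (absD hF D) (absD_homog hD)
      (fun h => hb (SphCc.rel_coh_of_coh hD.b_mem h)) ?_
    rw [absD_val]
    exact hv.map (Cc.relIncl _)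
  · intro h
    obtain ⟨b, hb, hdb, h1⟩ := SphCc.rel_exists_fund (Nat.succ_pos n)
    obtain ⟨D, rfl, hD⟩ := exists_dataR hF hi hm hb hdb
    have hnb : ¬ (Cc.rel (bs (n + 1))).Coh D.b 0 := by
      rw [SphCc.rel_coh_iff (Nat.succ_pos n) hb hdb, h1]
      decide
    exact hopfOne_of_rel hi hF ⟨D, hD, hnb, h D hD hnb⟩

/-- **Hopf invariant one by reduced cochains.** -/
theorem hopfOne_iff_exists (hi : 2 * n + 1 = m + i) (hm : n + 1 < m) (hF : F ∞ = ∞) :
    HopfOne F ↔ CupC.Hopf1 (relF F hF) (Cc.relGr _) (Cc.relGr _) i n m := by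
  constructor
  · intro h
    obtain ⟨b, hb, hdb, h1⟩ := SphCc.rel_exists_fund (Nat.succ_pos n)
    obtain ⟨D, rfl, hD⟩ := exists_dataR hF hi hm hb hdb
    have hnb : ¬ (Cc.rel (bs (n + 1))).Coh D.b 0 := by
      rw [SphCc.rel_coh_iff (Nat.succ_pos n) hb hdb, h1]
      decide
    exact ⟨D, hD, hnb, (hopfOne_iff_forall hi hm hF).1 h D hD hnb⟩
  · exact hopfOne_of_rel hi hF

end Sphere

/-! ### homotopy invariance -/

namespace CupC.FSqD

variable {U V : CupC} {g g' : Hom V U} {i : ℕ}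

/-- the same data for an equal morphism -/
def congr (D : FSqD g i) (h : ∀ x, g'.f x = g.f x) : FSqD g' i :=
  ⟨D.b, D.e, D.c, D.d_b, D.d_e.trans (h _).symm, D.d_c⟩

theorem val_congr (D : FSqD g i) (h : ∀ x, g'.f x = g.f x) : (D.congr h).val = D.val := by
  rw [FSqD.val, FSqD.val, ← h]
  rfl

/-- the zero data -/
def zeroD (g : Hom V U) (i : ℕ) : FSqD g i :=
  ⟨0, 0, 0, map_zero _, by rw [map_zero, map_zero], by
    rw [map_zero, map_zero]⟩

theorem zeroD_val : (zeroD g i).val = 0 := by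
  change U.q i 0 + g.f 0 = 0
  rw [q_zero, map_zero, add_zero]

/-- the functional square of a null class is null -/
theorem val_null {GV : Gr V} {GU : Gr U} {n k : ℕ} (hu : Unamb g GV GU n k) {D : FSqD g i}
    (hD : D.Homog GV GU n k) (hb : V.Coh D.b 0) : U.Coh D.val 0 := by
  have h := coh_of_van hD (D' := zeroD g i) ⟨(GV.deg _).zero_mem, (GU.deg _).zero_mem,
    (GV.deg _).zero_mem, hD.deg_eq⟩ hu.van hu.deg hu.zero hb
  rwa [zeroD_val] at h

end CupC.FSqD

/-- a simplicial homotopy as a map of the cylinder -/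
def htpMap {X Y : SS} (K : SS.Htp X Y) : SS.Map (cylS X) Y :=
  ⟨fun {p} z => K.h p z.2 z.1, fun {p _} f z => K.nat (p := p) f z.2 z.1⟩

theorem htpMap_end0 {X Y : SS} (K : SS.Htp X Y) : (htpMap K).comp (end0 X) = K.e0 := rfl

theorem htpMap_end1 {X Y : SS} (K : SS.Htp X Y) : (htpMap K).comp (end1 X) = K.e1 := rfl

/-- **Homotopy invariance** of `HopfOne`, based homotopies. -/
theorem hopfOne_of_htpy {m n i : ℕ} {F F' : C(Sph m, Sph (n + 1))} (hi : 2 * n + 1 = m + i)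
    (hm : n + 1 < m) (H : C(Sph m × unitInterval, Sph (n + 1))) (hb : ∀ t, H (∞, t) = ∞)
    (h0 : ∀ x, H (x, 0) = F x) (h1 : ∀ x, H (x, 1) = F' x) (h : HopfOne F) : HopfOne F' := by
  have hF : F ∞ = ∞ := by rw [← h0, hb]
  have hF' : F' ∞ = ∞ := by rw [← h1, hb]
  rw [hopfOne_iff_exists hi hm hF] at h
  obtain ⟨D, hD, hDb, hDv⟩ := h
  have hH : ∀ {p : ℕ} (x : (cylS (sing (Sph m))).obj p), (bs m).cyl.mem x →
      (bs (n + 1)).mem ((htpMap (singHtp H)).app x) := by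
    intro p x hx t
    have hx' : toC x.1 t = ∞ := hx t
    change H (toC x.1 t, chiI (p := p) x.2 t) = ∞
    rw [hx', hb]
  have e0 : (htpMap (singHtp H)).comp (end0 (sing (Sph m))) = singMap F := singHtp_e0 H F h0
  have e1 : (htpMap (singHtp H)).comp (end1 (sing (Sph m))) = singMap F' := singHtp_e1 H F' h1
  let D₀ := D.congr (g' := Cc.relHom ((htpMap (singHtp H)).comp (end0 (sing (Sph m))))
    (bs m) (bs (n + 1)) fun _ hx => hH _ hx)
    (fun x => Cc.rel_ext (congrArg (fun f => Cc.pull f (Cc.val x)) e0))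
  have hv0 : D₀.val = D.val := D.val_congr _
  obtain ⟨D₁, hD₁, hb₁, -, hv₁⟩ := CupC.FSqD.htpy_homog (htpMap (singHtp H)) hH D₀
    ⟨hD.b_mem, hD.e_mem, hD.c_mem, hD.deg_eq⟩
  refine hopfOne_of_rel hi hF' ⟨D₁.congr (fun x => Cc.rel_ext
    (congrArg (fun f => Cc.pull f (Cc.val x)) e1.symm)),
    ⟨hD₁.b_mem, hD₁.e_mem, hD₁.c_mem, hD₁.deg_eq⟩, ?_, ?_⟩
  · change ¬ (Cc.rel (bs (n + 1))).Coh D₁.b 0
    rw [hb₁]
    exact hDb
  · rw [CupC.FSqD.val_congr]
    intro hc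
    rw [hv0] at hv₁
    exact hDv (hv₁.trans hc)

/-! ### adjoints -/

section Adjoint

variable {d n i : ℕ} (A : C(Sph d, Om (n + 1))) (hA : A ∞ = Om.const (n + 1))

/-- the evaluation on the family `A` -/
noncomputable def evA : SS.Map ((sing (Sph d)).prod (SN (n + 1))) (sing (Sph (n + 1))) :=
  (ev (n + 1)).comp (timesN (singMap A) (n + 1))

/-- the cochains of the evaluation on the family `A` -/
noncomputable def gE : CupC.Hom (Cc.rel (bs (n + 1))) (Cc.rel (ends (sing (Sph d)) (n + 1))) :=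
  Cc.relHom (evA A) (ends (sing (Sph d)) (n + 1)) (bs (n + 1)) fun _ h =>
    ev_base (timesN_ends (singMap A) (n + 1) h)

/-- the cochains of the smash product -/
noncomputable def gMu (d n : ℕ) :
    CupC.Hom (Cc.rel (bs (d + n))) (Cc.rel (ends (sing (Sph d)) n)) :=
  Cc.relHom (mu d n) (ends (sing (Sph d)) n) (bs (d + n)) fun _ h => mu_base h

theorem gE_eq (x : (Cc.rel (bs (n + 1))).C) :
    (gE A).f x = (gMu d (n + 1)).f ((relF (adjS A hA) (adjS_infty A hA)).f x) :=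
  Cc.rel_ext (congrArg (fun f => Cc.pull f (Cc.val x)) (adjS_mu A hA)).symm

/-- relative cocycles of low degree on `X × cube` are relative coboundaries -/
theorem van_ends {X : SS} {n k : ℕ} (hk : k < n) : (Cc.relGr (ends X n)).Van k := by
  intro z hz hdz
  obtain ⟨w, hw, hdw⟩ := rel_low n (Cc.vn_val z) (congrArg Cc.val hdz) fun p hp => by
    funext x
    exact hz p (by omega) x
  exact rel_coh_of_d hw hdw.symm

theorem unambE (hd : 0 < d) :
    CupC.Unamb (gE A) (Cc.relGr _) (Cc.relGr _) n (d + (n + 1)) where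
  van := van_ends (Nat.lt_succ_self n)
  deg x hx := Cc.IsDeg.pull (u := Cc.val x) hx _
  zero y hy hdy := (SphCc.rel_van (Nat.succ_pos n) (by omega) y hy hdy).map (gE A)
  uniq b hb b' hb' hd hd' h h' := SphCc.rel_coh_of_ne (Nat.succ_pos n) hb hd hb' hd' h h'

/-- **The criterion for adjoints.**  `D` : data `(b, e, c)` of the functional square of the
evaluation `Sᵈ × (cube, boundary) → (Sʳ, ∞)`, `r = n + 1`, `i = r - d - 1`.  If the integral over
the cube of the functional square is not a coboundary on `Sᵈ`, then the adjoint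
`S^(d+r) → Sʳ` has Hopf invariant one. -/
theorem hopfOne_adjS (hd : 0 < d) (hi : n = d + i) (D : CupC.FSqD (gE A) i)
    (hD : D.Homog (Cc.relGr _) (Cc.relGr _) n (d + (n + 1)))
    (hv : ∀ a, DstN (n + 1) (Cc.val D.val) ≠ Cc.d a) : HopfOne (adjS A hA) := by
  have hi' : 2 * n + 1 = (d + (n + 1)) + i := by omega
  have hm : n + 1 < d + (n + 1) := by omega
  obtain ⟨D', hb', hD'⟩ := exists_dataR (adjS_infty A hA) hi' hm hD.b_mem D.d_b
  let E : CupC.FSqD (gE A) i := D'.map ⟨AddMonoidHom.id _, fun _ => rfl, fun _ _ _ => rfl⟩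
    (gMu d (n + 1)) (fun x => gE_eq A hA x)
  have hEv : E.val = (gMu d (n + 1)).f D'.val := D'.val_map _ _ _
  have hE : E.Homog (Cc.relGr _) (Cc.relGr _) n (d + (n + 1)) :=
    ⟨hD'.b_mem, Cc.IsDeg.pull (u := Cc.val D'.e) hD'.e_mem _, hD'.c_mem, hD'.deg_eq⟩
  have hu := unambE (n := n) A hd
  have hcoh : (Cc.rel (ends (sing (Sph d)) (n + 1))).Coh D.val E.val :=
    CupC.FSqD.coh_of_van hD hE hu.van hu.deg hu.zero (by
      change (Cc.rel (bs (n + 1))).Coh D.b D'.b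
      rw [hb']
      exact CupC.Coh.refl _)
  have key : ¬ (Cc.rel (ends (sing (Sph d)) (n + 1))).Coh D.val 0 := by
    rintro ⟨w, hw⟩
    rw [add_zero] at hw
    have h1 : Cc.val D.val = Cc.d (Cc.val w) := congrArg Cc.val hw
    refine hv (DstN (n + 1) (Cc.val w)) ?_
    rw [h1, DstN_d (Cc.vn_val w)]
  refine hopfOne_of_rel hi' (adjS_infty A hA) ⟨D', hD', fun h => ?_, fun h => ?_⟩
  · rw [hb'] at h
    exact key (CupC.FSqD.val_null hu hD h)
  · refine key (hcoh.trans ?_)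
    rw [hEv]
    have := h.map (gMu d (n + 1))
    rwa [map_zero] at this

end Adjoint

end Vale.Agent.P263.TJ
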