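import Vale.Agent.P263.TJ.CubeF
import Vale.Agent.P263.TJ.CubeSum

/-!
# P263, block EB: the generator of the sphere on the cube

`cx_class` : a reduced cocycle `b` of degree `r` of `sing (Sph r)` which is not a coboundary
restricts to the cube as `sC r + d β`, `β` relative to the boundary and homogeneous. `cx_null` : the
other case.
-/

open Finset OnePoint

namespace Vale.Agent.P263.TJ

open Vale.Agent.P263.S Vale.Agent.P263.E Vale.Agent.P263.H83 Vale.Agent.P263.G2
  Vale.Agent.P263.T0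

variable {r : ℕ}

theorem Vn_cx {b : Cc (sing (Sph r))} (hv : Vn (bs r) b) :
    Vn (SN.base r) (Cc.pull (cx r) b) := fun p _ h => hv p _ (cx_base h)

/-- **the generator of the sphere on the cube** -/
theorem cx_class (hr : 0 < r) {b : Cc (sing (Sph r))} (hb : Cc.IsDeg r b) (hd : Cc.d b = 0)
    (hv : Vn (bs r) b) (hne : ¬ ∃ a : Cc (sing (Sph r)), Cc.d a = b) :
    ∃ β : Cc (SN r), Vn (SN.base r) β ∧ Cc.IsDeg (r - 1) β ∧
      Cc.pull (cx r) b = sC r + Cc.d β := by
  refine cube_one_homog hr (Vn_cx hv) ?_ (hb.pull _) ((cube_cc_one hr hb hd hv).1 hne)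
  rw [← pull_d, hd, pull_zero]

/-- a reduced coboundary is, on the cube, `d` of a relative cochain -/
theorem cx_null (hr : 0 < r) {b : Cc (sing (Sph r))} (hb : Cc.IsDeg r b) (hd : Cc.d b = 0)
    (hv : Vn (bs r) b) (hex : ∃ a : Cc (sing (Sph r)), Cc.d a = b) :
    ∃ β : Cc (SN r), Vn (SN.base r) β ∧ Cc.pull (cx r) b = Cc.d β := by
  refine cube_zero r (Vn_cx hv) ?_ (hb.pull _) ((cube_cc hr hb hd hv).1 hex)
  rw [← pull_d, hd, pull_zero]

end Vale.Agent.P263.TJ
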