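import Vale.Agent.P263.TJ.Cube
import Vale.Agent.P263.T0.SphH

/-!
# P263, block EB: the cohomology of the spheres in the language `Cc`

`SphCc.van`, `SphCc.coh_iff`, `SphCc.exists_fund`,
`SphCc.zero_const` : absolute form.  `SphCc.rel_van`, `SphCc.rel_coh_iff`, `SphCc.rel_exists_fund` :
cochains which vanish on the constant simplices at infinity.
-/

open Finset OnePoint

namespace Vale.Agent.P263.TJ

open Vale.Agent.P263.S Vale.Agent.P263.E Vale.Agent.P263.H83 Vale.Agent.P263.G2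

theorem coh_of_d {X : SS} {z w : Cc X} (h : z = Cc.d w) : (Cc.cupC X).Coh z 0 :=
  ⟨w, (add_zero (z : (Cc.cupC X).C)).trans h⟩

theorem exists_of_coh {X : SS} {z : Cc X} (h : (Cc.cupC X).Coh z 0) : ∃ w : Cc X, z = Cc.d w := by
  obtain ⟨w, hw⟩ := h
  exact ⟨w, (add_zero (z : (Cc.cupC X).C)).symm.trans hw⟩

theorem rel_coh_of_d {X : SS} {A : Sb X} {z : (Cc.rel A).C} {w : Cc X} (hw : Vn A w)
    (h : Cc.val z = Cc.d w) : (Cc.rel A).Coh z 0 :=
  ⟨Cc.mkRel A w hw, Cc.rel_ext ((add_zero (z : (Cc.rel A).C)).symm ▸ h)⟩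

section Sing

variable {T : Type} [TopologicalSpace T]

theorem dmap_face (n : ℕ) (i : Fin (n + 2)) : dmap (dl n i) = P246.T.face (n + 1) i := by
  apply ContinuousMap.ext
  intro t
  have h : (⇑(dl n i) : Fin (n + 1) → Fin (n + 2)) = i.succAbove := by
    funext j
    apply Fin.ext
    rw [dl_val]
    by_cases h : j.1 < i.1
    · rw [if_pos h, Fin.succAbove_of_castSucc_lt i j (by rwa [Fin.lt_def])]
      rfl
    · rw [if_neg h, Fin.succAbove_of_le_castSucc i j (by rw [Fin.le_def]; exact not_lt.1 h)]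
      rfl
  change stdSimplex.map (⇑(dl n i)) t = stdSimplex.map i.succAbove t
  rw [h]

/-- the function of a cochain on the continuous maps -/
def fnC (u : Cc (sing T)) (n : ℕ) : C(P246.T.Dl (n + 1), T) → ZMod 2 := fun σ => u n (ofC σ)

theorem cob_fnC (u : Cc (sing T)) (n : ℕ) : T0.SphH.cob (fnC u n) = fnC (Cc.d u) (n + 1) := by
  funext σ
  change ∑ i : Fin (n + 2), u n (ofC (σ.comp (P246.T.face (n + 1) i))) =
    Cc.d u (n + 1) (ofC σ)
  rw [d_succ_apply, sum_range]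
  refine sum_congr rfl fun i _ => ?_
  rw [← dmap_face]
  rfl

theorem fnC_ofF (n : ℕ) (g : C(P246.T.Dl (n + 1), T) → ZMod 2) :
    fnC (Cc.ofF n (X := sing T) g) n = g := Cc.toF_ofF (X := sing T) n g

theorem d_eq_of_cob {n : ℕ} {u : Cc (sing T)} (hu : Cc.IsDeg (n + 1) u)
    {g : C(P246.T.Dl (n + 1), T) → ZMod 2} (h : fnC u (n + 1) = T0.SphH.cob g) :
    u = Cc.d (Cc.ofF n (X := sing T) g) := by
  refine Cc.IsDeg.ext hu (Cc.isDeg_ofF n _).d ?_
  have h1 := cob_fnC (Cc.ofF n (X := sing T) g) n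
  rw [fnC_ofF, ← h] at h1
  exact h1

theorem cob_eq_zero {n : ℕ} {u : Cc (sing T)} (h : Cc.d u = 0) :
    T0.SphH.cob (fnC u n) = 0 := by
  rw [cob_fnC, h]; rfl

end Sing

namespace SphCc

open T0.SphH

variable {d : ℕ}

/-- the characteristic simplex -/
noncomputable def sg (d : ℕ) : (sing (T0.Sph d)).obj d := ofC (sig d)

/-- the constant simplex at infinity -/
noncomputable def ct (d n : ℕ) : (sing (T0.Sph d)).obj n := ofC (ContinuousMap.const _ ∞)

/-- `Hⁿ(Sᵈ) = 0` for `0 < n ≠ d` -/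
theorem van {n : ℕ} (hn : 0 < n) (hd : n ≠ d) : (Cc.gr (sing (T0.Sph d))).Van n := by
  intro z hz hdz
  obtain ⟨k, rfl⟩ : ∃ k, n = k + 1 := ⟨n - 1, by omega⟩
  obtain ⟨g, hg⟩ := cob_of_ne (hgen_sph d) sig_bd hd (cob_eq_zero (n := k + 1) hdz)
  exact coh_of_d (d_eq_of_cob hz hg)

/-- cocycles of degree `0` are constant -/
theorem zero_const (hd : 0 < d) {z : Cc (sing (T0.Sph d))} (hz : Cc.d z = 0)
    (x : (sing (T0.Sph d)).obj 0) : z 0 x = z 0 (ct d 0) :=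
  const_of_zero (hgen_sph d) hd.ne (cob_eq_zero (n := 0) hz) x

/-- the cohomology in degree `d` -/
theorem coh_iff (hd : 0 < d) {z : Cc (sing (T0.Sph d))} (hz : Cc.IsDeg d z) (hdz : Cc.d z = 0) :
    (Cc.cupC (sing (T0.Sph d))).Coh z 0 ↔ z d (sg d) + z d (ct d d) = 0 := by
  obtain ⟨k, rfl⟩ : ∃ k, d = k + 1 := ⟨d - 1, by omega⟩
  have h := cob_iff (hgen_sph (k + 1)) sig_bd (cob_eq_zero (n := k + 1) hdz)
  refine Iff.trans ?_ h
  constructor
  · intro hz0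
    obtain ⟨w, rfl⟩ := exists_of_coh hz0
    exact ⟨fnC w k, (cob_fnC w k).symm⟩
  · rintro ⟨g, hg⟩
    exact coh_of_d (d_eq_of_cob hz hg)

/-- coboundaries vanish on the fundamental cycle -/
theorem d_sg (hd : 0 < d) (w : Cc (sing (T0.Sph d))) :
    Cc.d w d (sg d) + Cc.d w d (ct d d) = 0 := by
  have h1 : Cc.comp d (Cc.d w) d = Cc.d w d := funext fun x => Cc.comp_self d (Cc.d w) x
  obtain ⟨k, rfl⟩ : ∃ k, d = k + 1 := ⟨d - 1, by omega⟩
  have h2 : Cc.d (Cc.comp (k + 1) (Cc.d w)) = 0 := by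
    rw [Cc.comp_d, d_d]
  have h := (coh_iff hd (Cc.isDeg_comp (k + 1) (Cc.d w)) h2).1 (coh_of_d (Cc.comp_d k w))
  rwa [h1] at h

/-- the fundamental cocycle -/
theorem exists_fund (d : ℕ) : ∃ z : Cc (sing (T0.Sph d)), Cc.IsDeg d z ∧ Cc.d z = 0 ∧
    z d (sg d) + z d (ct d d) = 1 := by
  obtain ⟨f, h1, h2⟩ := exists_fund_cocycle (hgen_sph d) sig_bd
  refine ⟨Cc.ofF d (X := sing (T0.Sph d)) f, Cc.isDeg_ofF (X := sing (T0.Sph d)) d f, ?_, ?_⟩
  · refine Cc.IsDeg.ext (Cc.isDeg_ofF (X := sing (T0.Sph d)) d f).d (fun _ _ _ => rfl) ?_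
    have h3 := cob_fnC (Cc.ofF d (X := sing (T0.Sph d)) f) d
    rw [fnC_ofF, h1] at h3
    exact h3.symm
  · have h3 : Cc.ofF d (X := sing (T0.Sph d)) f d = f := Cc.toF_ofF _ _
    rw [h3]
    exact h2

/-! ### cochains which vanish at infinity -/

theorem eq_ct {n : ℕ} {σ : (sing (T0.Sph d)).obj n} (h : (bs d).mem σ) : σ = ct d n :=
  ContinuousMap.ext fun t => h t

theorem ct_mem (d n : ℕ) : (bs d).mem (ct d n) := fun _ => rfl

theorem map_ct {p q : ℕ} (f : Op p q) : (sing (T0.Sph d)).map f (ct d q) = ct d p := rfl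

theorem vn_bs {u : Cc (sing (T0.Sph d))} (h : ∀ n, u n (ct d n) = 0) : Vn (bs d) u := by
  intro n σ hσ
  rw [eq_ct hσ]
  exact h n

theorem d_ct (u : Cc (sing (T0.Sph d))) (n : ℕ) :
    Cc.d u (n + 1) (ct d (n + 1)) = (n : ZMod 2) * u n (ct d n) := by
  rw [d_succ_apply]
  simp only [map_ct, sum_const, card_range, nsmul_eq_mul]
  have : ((n + 2 : ℕ) : ZMod 2) = (n : ZMod 2) := by
    rw [Nat.cast_add]
    have : ((2 : ℕ) : ZMod 2) = 0 := rfl
    rw [this, add_zero]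
  rw [this]

theorem cast_even {n : ℕ} (h : Even n) : (n : ZMod 2) = 0 := (ZMod.natCast_eq_zero_iff_even).2 h

theorem cast_odd {n : ℕ} (h : Odd n) : (n : ZMod 2) = 1 := (ZMod.natCast_eq_one_iff_odd).2 h

/-- correction of a cochain by a coboundary -/
theorem exists_corr {n : ℕ} {u : Cc (sing (T0.Sph d))} (hu : Cc.IsDeg (n + 1) u)
    (hdu : Vn (bs d) (Cc.d u)) : ∃ v, Cc.IsDeg n v ∧ Vn (bs d) (u + Cc.d v) := by
  classical
  let v : Cc (sing (T0.Sph d)) := Cc.single n (fun _ => u (n + 1) (ct d (n + 1)))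
  refine ⟨v, Cc.isDeg_single n _, vn_bs fun p => ?_⟩
  change u p (ct d p) + Cc.d v p (ct d p) = 0
  by_cases hp : p = n + 1
  · subst hp
    rw [d_ct]
    have h1 : v n (ct d n) = u (n + 1) (ct d (n + 1)) := Cc.single_self n _ _
    rw [h1]
    rcases Nat.even_or_odd n with h | h
    · rw [cast_even h, zero_mul, add_zero]
      have h2 := hdu _ _ (ct_mem d (n + 2))
      rwa [d_ct, cast_odd (by exact h.add_one), one_mul] at h2
    · rw [cast_odd h, one_mul]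
      exact CharTwo.add_self_eq_zero _
  · rw [hu p hp, (Cc.isDeg_single n _).d p hp, add_zero]

/-- a null cochain which vanishes at infinity -/
theorem exists_rel_null {k : ℕ} {w : Cc (sing (T0.Sph d))} (hw : Cc.IsDeg k w)
    (h : Vn (bs d) (Cc.d w)) :
    ∃ w', Cc.IsDeg k w' ∧ Vn (bs d) w' ∧ Cc.d w' = Cc.d w := by
  classical
  cases k with
  | zero =>
    by_cases h0 : w 0 (ct d 0) = 0
    · refine ⟨w, hw, vn_bs fun p => ?_, rfl⟩
      by_cases hp : p = 0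
      · subst hp; exact h0
      · exact hw p hp _
    · have h1 : ∀ a : ZMod 2, a ≠ 0 → a + 1 = 0 := by decide
      have h2 : Cc.IsDeg 0 (Cc.one (sing (T0.Sph d))) := fun p hp _ => if_neg hp
      refine ⟨w + Cc.one _, hw.add h2, vn_bs fun p => ?_, by rw [d_add, d_one, add_zero]⟩
      change w p (ct d p) + Cc.one (sing (T0.Sph d)) p (ct d p) = 0
      by_cases hp : p = 0
      · subst hp; exact h1 _ h0
      · rw [hw p hp, h2 p hp, add_zero]
  | succ k =>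
    obtain ⟨v, hv, hv'⟩ := exists_corr hw h
    exact ⟨w + Cc.d v, hw.add hv.d, hv', by rw [d_add, d_d, add_zero]⟩

theorem rel_coh_of_coh {n : ℕ} {z : (Cc.rel (bs d)).C} (hz : Cc.IsDeg n (Cc.val z))
    (h : (Cc.cupC (sing (T0.Sph d))).Coh (Cc.val z) 0) : (Cc.rel (bs d)).Coh z 0 := by
  obtain ⟨w, hw⟩ := exists_of_coh h
  cases n with
  | zero =>
    have h1 : Cc.val z = 0 := by
      refine Cc.IsDeg.ext hz (fun _ _ _ => rfl) ?_
      rw [hw]
      funext x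
      exact d_zero_apply w x
    have h2 : z = 0 := Cc.rel_ext h1
    rw [h2]
    exact CupC.Coh.refl _
  | succ k =>
    have h1 : Cc.val z = Cc.d (Cc.comp k w) := by
      rw [← Cc.comp_d, ← hw, Cc.comp_eq hz]
    obtain ⟨w', -, hw', hd'⟩ := exists_rel_null (Cc.isDeg_comp k w) (by
      rw [← h1]; exact Cc.vn_val z)
    exact rel_coh_of_d hw' (by rw [h1, hd'])

/-- **Reduced cohomology of the sphere.** -/
theorem rel_van (hd : 0 < d) {n : ℕ} (h : n ≠ d) : (Cc.relGr (bs d)).Van n := by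
  intro z hz hdz
  have hdz' : Cc.d (Cc.val z) = 0 := congrArg Cc.val hdz
  refine rel_coh_of_coh hz ?_
  rcases Nat.eq_zero_or_pos n with rfl | hn
  · have h1 : Cc.val z = 0 := by
      refine Cc.IsDeg.ext hz (fun _ _ _ => rfl) ?_
      funext x
      rw [zero_const hd hdz' x]
      exact Cc.vn_val z _ _ (ct_mem d 0)
    rw [h1]
    exact CupC.Coh.refl _
  · exact van hn h _ hz hdz'

theorem rel_coh_iff (hd : 0 < d) {z : (Cc.rel (bs d)).C} (hz : Cc.IsDeg d (Cc.val z))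
    (hdz : (Cc.rel (bs d)).d z = 0) :
    (Cc.rel (bs d)).Coh z 0 ↔ Cc.val z d (sg d) = 0 := by
  have hdz' : Cc.d (Cc.val z) = 0 := congrArg Cc.val hdz
  have h0 : Cc.val z d (ct d d) = 0 := Cc.vn_val z _ _ (ct_mem d d)
  have h := coh_iff hd hz hdz'
  rw [h0, add_zero] at h
  rw [← h]
  exact ⟨fun h' => h'.map (Cc.relIncl (bs d)), rel_coh_of_coh hz⟩

theorem rel_exists_fund (hd : 0 < d) : ∃ z : (Cc.rel (bs d)).C, Cc.IsDeg d (Cc.val z) ∧
    (Cc.rel (bs d)).d z = 0 ∧ Cc.val z d (sg d) = 1 := by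
  obtain ⟨z, hz, hdz, h1⟩ := exists_fund d
  obtain ⟨k, rfl⟩ : ∃ k, d = k + 1 := ⟨d - 1, by omega⟩
  obtain ⟨v, hv, hv'⟩ := exists_corr hz (by rw [hdz]; exact Vn.zero)
  refine ⟨Cc.mkRel (bs (k + 1)) (z + Cc.d v) hv', hz.add hv.d, Cc.rel_ext ?_, ?_⟩
  · change Cc.d (z + Cc.d v) = 0
    rw [d_add, hdz, d_d, add_zero]
  · have h2 := d_sg hd v
    have h3 : z (k + 1) (ct (k + 1) (k + 1)) + Cc.d v (k + 1) (ct (k + 1) (k + 1)) = 0 :=
      hv' _ _ (ct_mem _ _)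
    change z (k + 1) (sg (k + 1)) + Cc.d v (k + 1) (sg (k + 1)) = 1
    have h4 : ∀ a b c e : ZMod 2, a + b = 1 → c + e = 0 → b + e = 0 → a + c = 1 := by decide
    exact h4 _ _ _ _ h1 h2 h3

/-- two nonzero classes in the top degree agree -/
theorem rel_coh_of_ne (hd : 0 < d) {z z' : (Cc.rel (bs d)).C} (hz : Cc.IsDeg d (Cc.val z))
    (hdz : (Cc.rel (bs d)).d z = 0) (hz' : Cc.IsDeg d (Cc.val z'))
    (hdz' : (Cc.rel (bs d)).d z' = 0) (h : ¬ (Cc.rel (bs d)).Coh z 0)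
    (h' : ¬ (Cc.rel (bs d)).Coh z' 0) : (Cc.rel (bs d)).Coh z z' := by
  rw [rel_coh_iff hd hz hdz] at h
  rw [rel_coh_iff hd hz' hdz'] at h'
  rw [CupC.coh_iff_add, rel_coh_iff hd (z := z + z') (hz.add hz') (by rw [map_add, hdz, hdz',
    add_zero])]
  have h4 : ∀ a b : ZMod 2, a ≠ 0 → b ≠ 0 → a + b = 0 := by decide
  exact h4 _ _ h h'

end SphCc

end Vale.Agent.P263.TJ
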