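import Mathlib.Order.RelClasses
import Mathlib.SetTheory.Ordinal.Basic
import Vale.Agent.P263.TJ.SmallSq
import Vale.Agent.P263.G2.AlphaSS

/-!
# P263, block EB: labelled little boxes and the sum of the collapses

`boxLab` : the label system of families of boxes.  `BFam r X` : families over `X` of finite sets of
disjoint boxes of stage `r`, labelled by elements of `Om r`.
`BFam.MX : X × Sing Sʳ → Sing Sʳ` : in the box `c` with label `g` apply `g` after the collapse of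
`c`.  `BFam.hX` : the homotopy, with values in the free sum, which lets the boxes grow; `aT 0, aT 1`
its ends.  `BFam.strict` : over small simplices `MX` and `aT 0` agree.
-/

open Finset OnePoint Topology

namespace Vale.Agent.P263.TJ

open Vale.Agent.P263.S Vale.Agent.P263.E Vale.Agent.P263.G2

/-! ### the label system -/

/-- the boxes with a well-ordering -/
def BO : Type := Bx

/-- some linear order of the boxes -/
noncomputable instance : LinearOrder BO := by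
  classical
  exact linearOrderOfSTO (WellOrderingRel : BO → BO → Prop)

/-- the point of the simplex of dimension zero -/
noncomputable def pt0 : G2.Dl 0 := T0.Small.vx 0 0

/-- the families of boxes in `S` are pairwise disjoint -/
def PDisj {p : ℕ} (F : Set (C(G2.Dl p, Bx))) : Prop :=
  ∀ a ∈ F, ∀ b ∈ F, a ≠ b → ∀ t, Bx.Disj (a t) (b t)

/-- the label system of boxes -/
noncomputable def boxLab : LabS where
  L := G2.sing Bx
  O := BO
  ord c := (toC c) pt0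
  Good {p} F := PDisj (p := p) F
  good_map := by
    rintro p q f F h _ ⟨a, ha, rfl⟩ _ ⟨b, hb, rfl⟩ hab t
    exact h a ha b hb (fun hc => hab (by rw [hc])) _
  good_sub h h' a ha b hb := h a (h' ha) b (h' hb)
  good_inj := by
    intro p F h i a ha b hb hab
    by_contra hne
    exact (h a ha b hb hne _).ne hab

/-! ### constant simplices and simplices which miss a point -/

section pts

variable {Y : Type} [TopologicalSpace Y]

/-- the constant simplices at `x` -/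
noncomputable def ptS (x : Y) : Sb (G2.sing Y) where
  mem {p} σ := ∀ t, (toC (p := p) σ) t = x
  map_mem := by
    intro p q f σ h t
    exact h _

/-- the simplices which miss `x` -/
noncomputable def missS (x : Y) : Sb (G2.sing Y) where
  mem {p} σ := ∀ t, (toC (p := p) σ) t ≠ x
  map_mem := by
    intro p q f σ h t
    exact h _

theorem miss_of_ne {x y : Y} (h : x ≠ y) {p : ℕ} {σ : (G2.sing Y).obj p} (hσ : (ptS x).mem σ) :
    (missS y).mem σ := fun t ht => h ((hσ t).symm.trans ht)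

/-- the simplices which miss the set `K` -/
noncomputable def missK (K : Set Y) : Sb (G2.sing Y) where
  mem {p} σ := ∀ t, (toC (p := p) σ) t ∉ K
  map_mem := by
    intro p q f σ h t
    exact h _

theorem miss_of_pt {x : Y} {K : Set Y} (h : x ∉ K) {p : ℕ} {σ : (G2.sing Y).obj p}
    (hσ : (ptS x).mem σ) : (missK K).mem σ := fun t ht => h (by rw [← hσ t]; exact ht)

end pts

/-! ### growing boxes -/

/-- the linear growth of a box to the full cube -/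
noncomputable def growB (u : unitInterval) (c : Bx) : Bx := fun i => Iv.mix u (c i) Iv.full

theorem growB_zero (c : Bx) : growB 0 c = c := funext fun _ => Iv.mix_zero _ _

theorem growB_one (c : Bx) : growB 1 c = fun _ => Iv.full := funext fun _ => Iv.mix_one _ _

theorem continuous_growB : Continuous fun p : unitInterval × Bx => growB p.1 p.2 :=
  continuous_pi fun i => continuous_fst.ivMix ((continuous_apply i).comp continuous_snd)
    continuous_const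

theorem collB_full (r : ℕ) (x : OnePoint (Fin r → ℝ)) :
    collB r (fun _ => Iv.full) x = x :=
  coll_full (ι := Fin r) (fun _ => Iv.full_lo) (fun _ => Iv.full_hi) x

variable {r : ℕ}

/-- the value `g(collapse of the grown box)` -/
noncomputable def yv {T : Type} [TopologicalSpace T] (χ : C(T, unitInterval))
    (s : C(T, Bx) × C(T, T0.Om r)) (τ : C(T, T0.Sph r)) : C(T, T0.Sph r) where
  toFun t := (s.2 t) (collB r (growB (χ t) (s.1 t)) (τ t))
  continuous_toFun := by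
    have h1 : Continuous fun t => collB r (growB (χ t) (s.1 t)) (τ t) :=
      (continuous_collB r).comp ((continuous_growB.comp
        (χ.continuous.prodMk s.1.continuous)).prodMk τ.continuous)
    exact ContinuousEval.continuous_eval.comp
      ((continuous_subtype_val.comp s.2.continuous).prodMk h1)

theorem yv_apply {T : Type} [TopologicalSpace T] (χ : C(T, unitInterval))
    (s : C(T, Bx) × C(T, T0.Om r)) (τ : C(T, T0.Sph r)) (t : T) :
    yv χ s τ t = (s.2 t) (collB r (growB (χ t) (s.1 t)) (τ t)) := rfl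

theorem yv_comp {T T' : Type} [TopologicalSpace T] [TopologicalSpace T'] (χ : C(T, unitInterval))
    (s : C(T, Bx) × C(T, T0.Om r)) (τ : C(T, T0.Sph r)) (f : C(T', T)) :
    (yv χ s τ).comp f = yv (χ.comp f) (s.1.comp f, s.2.comp f) (τ.comp f) := rfl

/-! ### families of labelled boxes -/

/-- Families over `X` of finite sets of disjoint boxes of stage `r` with labels in `Om r`. -/
structure BFam (r : ℕ) (X : TSet) where
  /-- the labelled boxes -/
  sh : ∀ {p : ℕ}, X.obj p → Finset (C(G2.Dl p, Bx) × C(G2.Dl p, T0.Om r))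
  mem_pull : ∀ {p q : ℕ} (f : C(G2.Dl p, G2.Dl q)) (x : X.obj q) s,
    s ∈ sh (X.pull f x) ↔ ∃ s' ∈ sh x, (s'.1.comp f, s'.2.comp f) = s
  st : ∀ {p : ℕ} (x : X.obj p), ∀ s ∈ sh x, ∀ t, Bx.St r (s.1 t)
  disj : ∀ {p : ℕ} (x : X.obj p), ∀ s ∈ sh x, ∀ s' ∈ sh x, s ≠ s' → ∀ t, Bx.Disj (s.1 t) (s'.1 t)

namespace BFam

variable {X : TSet} (𝓕 : BFam r X)

/-- the space of pairs -/
def U (X : TSet) (r : ℕ) : TSet := X.prod (TSet.sing (T0.Sph r))

/-- the possible values -/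
def vals {p : ℕ} (x : X.obj p) (t : G2.Dl p) (z : T0.Sph r) : Set (T0.Sph r) :=
  (fun s : C(G2.Dl p, Bx) × C(G2.Dl p, T0.Om r) => (s.2 t) (collB r (s.1 t) z)) '' (𝓕.sh x : Set _)

theorem coll_or {p : ℕ} (x : X.obj p) {s s' : C(G2.Dl p, Bx) × C(G2.Dl p, T0.Om r)}
    (hs : s ∈ 𝓕.sh x) (hs' : s' ∈ 𝓕.sh x) (hne : s ≠ s') (t : G2.Dl p) (z : T0.Sph r) :
    collB r (s.1 t) z = ∞ ∨ collB r (s'.1 t) z = ∞ :=
  collB_disj (𝓕.st x s hs t) (𝓕.st x s' hs' t) (𝓕.disj x s hs s' hs' hne t) z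

theorem sub_vals {p : ℕ} (x : X.obj p) (t : G2.Dl p) (z : T0.Sph r) : G2.Sub (𝓕.vals x t z) := by
  rintro _ ⟨s, hs, rfl⟩ _ ⟨s', hs', rfl⟩ h1 h2
  by_contra hne
  have hss : s ≠ s' := fun h => hne (by rw [h])
  rcases 𝓕.coll_or x hs hs' hss t z with h | h
  · exact h1 (by simp only [h]; exact (s.2 t).2)
  · exact h2 (by simp only [h]; exact (s'.2 t).2)

/-- the collapse of all labelled boxes -/
noncomputable def mval {p : ℕ} (x : X.obj p) (τ : C(G2.Dl p, T0.Sph r)) :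
    C(G2.Dl p, T0.Sph r) where
  toFun t := join (𝓕.vals x t (τ t))
  continuous_toFun := by
    refine continuous_join (Z := G2.Dl p) (𝓕.sh x)
      (fun s t => (s.2 t) (collB r (s.1 t) (τ t))) (fun s _ => ?_)
      (fun t => 𝓕.sub_vals x t (τ t))
    have h1 : Continuous fun t => collB r (s.1 t) (τ t) :=
      (continuous_collB r).comp (s.1.continuous.prodMk τ.continuous)
    exact ContinuousEval.continuous_eval.comp
      ((continuous_subtype_val.comp s.2.continuous).prodMk h1)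

theorem mval_apply {p : ℕ} (x : X.obj p) (τ : C(G2.Dl p, T0.Sph r)) (t : G2.Dl p) :
    𝓕.mval x τ t = join (𝓕.vals x t (τ t)) := rfl

/-- the value in a box -/
theorem mval_of_mem {p : ℕ} {x : X.obj p} {τ : C(G2.Dl p, T0.Sph r)} {t : G2.Dl p}
    {s : C(G2.Dl p, Bx) × C(G2.Dl p, T0.Om r)} (hs : s ∈ 𝓕.sh x)
    (h : collB r (s.1 t) (τ t) ≠ ∞) : 𝓕.mval x τ t = (s.2 t) (collB r (s.1 t) (τ t)) := by
  by_cases h1 : (s.2 t) (collB r (s.1 t) (τ t)) = ∞
  · rw [h1, mval_apply]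
    refine join_of_forall ?_
    rintro _ ⟨s', hs', rfl⟩
    by_cases hss : s = s'
    · rw [← hss]; exact h1
    · rcases 𝓕.coll_or x hs hs' hss t (τ t) with h2 | h2
      · exact absurd h2 h
      · simp only [h2]; exact (s'.2 t).2
  · exact join_of_mem (𝓕.sub_vals x t (τ t)) ⟨s, hs, rfl⟩ h1

/-- the value is one of the values or `∞` -/
theorem mval_cases {p : ℕ} (x : X.obj p) (τ : C(G2.Dl p, T0.Sph r)) (t : G2.Dl p) :
    𝓕.mval x τ t = ∞ ∨ ∃ s ∈ 𝓕.sh x, 𝓕.mval x τ t = (s.2 t) (collB r (s.1 t) (τ t)) := by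
  by_cases h : ∀ y ∈ 𝓕.vals x t (τ t), y = ∞
  · exact Or.inl (join_of_forall h)
  · push Not at h
    obtain ⟨_, ⟨s, hs, rfl⟩, h⟩ := h
    exact Or.inr ⟨s, hs, join_of_mem (𝓕.sub_vals x t (τ t)) ⟨s, hs, rfl⟩ h⟩

theorem mval_pull {p q : ℕ} (f : C(G2.Dl p, G2.Dl q)) (x : X.obj q) (τ : C(G2.Dl q, T0.Sph r)) :
    𝓕.mval (X.pull f x) (τ.comp f) = (𝓕.mval x τ).comp f := by
  apply ContinuousMap.ext
  intro t
  rw [ContinuousMap.comp_apply, mval_apply, mval_apply]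
  congr 1
  ext z
  constructor
  · rintro ⟨s, hs, rfl⟩
    obtain ⟨s', hs', h⟩ := (𝓕.mem_pull f x s).1 hs
    exact ⟨s', hs', by rw [← h]; rfl⟩
  · rintro ⟨s', hs', rfl⟩
    exact ⟨(s'.1.comp f, s'.2.comp f), (𝓕.mem_pull f x _).2 ⟨s', hs', rfl⟩, rfl⟩

/-- **The map `X × Sing Sʳ → Sing Sʳ`.** -/
noncomputable def MX : SS.Map (U X r).ss (G2.sing (T0.Sph r)) :=
  ⟨fun {_} u => ofC (𝓕.mval u.1 u.2), fun f u => 𝓕.mval_pull (dmap f) u.1 u.2⟩

theorem MX_app {p : ℕ} (u : (U X r).ss.obj p) : 𝓕.MX.app u = 𝓕.mval u.1 u.2 := rfl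

/-! ### the growth homotopy -/

/-- the set of all sheets, also over the base -/
noncomputable def shs {p : ℕ} (x : X.obj p) (τ : C(G2.Dl p, T0.Sph r))
    (χ : C(G2.Dl p, unitInterval)) : Set (C(G2.Dl p, Bx) × C(G2.Dl p, T0.Sph r)) :=
  (fun s => (s.1, yv χ s τ)) '' (𝓕.sh x : Set _)

open Classical in
/-- the finite set of sheets which are not in the base -/
noncomputable def fsh {p : ℕ} (x : X.obj p) (τ : C(G2.Dl p, T0.Sph r))
    (χ : C(G2.Dl p, unitInterval)) :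
    Finset (Sheet boxLab (G2.sing (T0.Sph r)) p) :=
  ((𝓕.sh x).image fun s => ((ofC s.1, ofC (yv χ s τ)) :
    Sheet boxLab (G2.sing (T0.Sph r)) p)).filter fun s => ¬ (ptS ∞).mem s.2

theorem mem_fsh {p : ℕ} {x : X.obj p} {τ : C(G2.Dl p, T0.Sph r)} {χ : C(G2.Dl p, unitInterval)}
    {a : Sheet boxLab (G2.sing (T0.Sph r)) p} :
    a ∈ 𝓕.fsh x τ χ ↔ ∃ s ∈ 𝓕.sh x, (ofC s.1, ofC (yv χ s τ)) = a ∧ ¬ (ptS ∞).mem a.2 := by
  classical
  rw [fsh, mem_filter, mem_image]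
  constructor
  · rintro ⟨⟨s, hs, h⟩, h'⟩
    exact ⟨s, hs, h, h'⟩
  · rintro ⟨s, hs, h, h'⟩
    exact ⟨⟨s, hs, h⟩, h'⟩

theorem fsh_ok {p : ℕ} (x : X.obj p) (τ : C(G2.Dl p, T0.Sph r)) (χ : C(G2.Dl p, unitInterval)) :
    GOk boxLab (ptS (∞ : T0.Sph r)) (𝓕.fsh x τ χ) := by
  have hinj : ∀ s ∈ 𝓕.sh x, ∀ s' ∈ 𝓕.sh x, s.1 = s'.1 → s = s' := by
    intro s hs s' hs' h
    by_contra hne
    obtain ⟨t⟩ : Nonempty (G2.Dl p) := ⟨T0.Small.vx p 0⟩
    exact (𝓕.disj x s hs s' hs' hne t).ne (by rw [h])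
  refine ⟨?_, ?_, fun a ha => ?_⟩
  · rintro _ ⟨a, ha, rfl⟩ _ ⟨b, hb, rfl⟩ hab t
    obtain ⟨s, hs, rfl, -⟩ := 𝓕.mem_fsh.1 (mem_coe.1 ha)
    obtain ⟨s', hs', rfl, -⟩ := 𝓕.mem_fsh.1 (mem_coe.1 hb)
    exact 𝓕.disj x s hs s' hs' (fun h => hab (by rw [h])) t
  · intro a ha b hb hab
    obtain ⟨s, hs, rfl, -⟩ := 𝓕.mem_fsh.1 (mem_coe.1 ha)
    obtain ⟨s', hs', rfl, -⟩ := 𝓕.mem_fsh.1 (mem_coe.1 hb)
    rw [hinj s hs s' hs' hab]
  · obtain ⟨s, -, rfl, h⟩ := 𝓕.mem_fsh.1 ha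
    exact h

theorem fsh_pull {p q : ℕ} (f : Op p q) (x : X.obj q) (τ : C(G2.Dl q, T0.Sph r))
    (χ : C(G2.Dl q, unitInterval)) :
    𝓕.fsh (X.pull (dmap f) x) (τ.comp (dmap f)) (χ.comp (dmap f)) =
      gmap boxLab (ptS (∞ : T0.Sph r)) f (𝓕.fsh x τ χ) := by
  ext a
  rw [mem_fsh, mem_gmap]
  constructor
  · rintro ⟨s, hs, rfl, h⟩
    obtain ⟨s', hs', rfl⟩ := (𝓕.mem_pull _ _ _).1 hs
    refine ⟨⟨(ofC s'.1, ofC (yv χ s' τ)), 𝓕.mem_fsh.2 ⟨s', hs', rfl, fun hc => h ?_⟩, rfl⟩, h⟩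
    exact (ptS (∞ : T0.Sph r)).map_mem f hc
  · rintro ⟨⟨b, hb, rfl⟩, h⟩
    obtain ⟨s', hs', rfl, -⟩ := 𝓕.mem_fsh.1 hb
    exact ⟨(s'.1.comp (dmap f), s'.2.comp (dmap f)), (𝓕.mem_pull _ _ _).2 ⟨s', hs', rfl⟩, rfl, h⟩

theorem fsh_base {p : ℕ} {x : X.obj p} {τ : C(G2.Dl p, T0.Sph r)} (h : ∀ t, τ t = ∞)
    (χ : C(G2.Dl p, unitInterval)) : 𝓕.fsh x τ χ = ∅ := by
  refine eq_empty_iff_forall_notMem.2 fun a ha => ?_
  obtain ⟨s, -, rfl, h'⟩ := 𝓕.mem_fsh.1 ha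
  refine h' fun t => ?_
  show yv χ s τ t = ∞
  rw [yv_apply, h t, collB_infty]
  exact (s.2 t).2

/-- the configuration of the boxes which have grown up to the time `c` -/
noncomputable def aT (c : unitInterval) : SS.Map (U X r).ss (Gam boxLab (ptS (∞ : T0.Sph r))) where
  app {_} u := ⟨𝓕.fsh u.1 u.2 (ContinuousMap.const _ c), 𝓕.fsh_ok _ _ _⟩
  nat f u := Subtype.ext (𝓕.fsh_pull f u.1 u.2 (ContinuousMap.const _ c))

/-- **The growth homotopy**, reparametrised. -/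
noncomputable def hX (ρ : C(unitInterval, unitInterval)) :
    SS.Map (cylS (U X r).ss) (Gam boxLab (ptS (∞ : T0.Sph r))) where
  app {_} u := ⟨𝓕.fsh u.1.1 u.1.2 (ρ.comp (chiI u.2)), 𝓕.fsh_ok _ _ _⟩
  nat {p q} f u := Subtype.ext (by
    have h := 𝓕.fsh_pull f u.1.1 u.1.2 (ρ.comp (chiI u.2))
    rw [ContinuousMap.comp_assoc, ← chiI_comp (u.2 : Op q 1) f] at h
    exact h)

theorem hX_end0 (ρ : C(unitInterval, unitInterval)) : (𝓕.hX ρ).comp (end0 _) = 𝓕.aT (ρ 0) := by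
  apply SS.Map.ext
  intro p u
  apply Subtype.ext
  show 𝓕.fsh u.1 u.2 (ρ.comp (chiI (c0 p))) = 𝓕.fsh u.1 u.2 (ContinuousMap.const _ (ρ 0))
  congr 1
  ext t
  rw [ContinuousMap.comp_apply, chiI_c0]
  rfl

theorem hX_end1 (ρ : C(unitInterval, unitInterval)) : (𝓕.hX ρ).comp (end1 _) = 𝓕.aT (ρ 1) := by
  apply SS.Map.ext
  intro p u
  apply Subtype.ext
  show 𝓕.fsh u.1 u.2 (ρ.comp (chiI (c1 p))) = 𝓕.fsh u.1 u.2 (ContinuousMap.const _ (ρ 1))
  congr 1
  ext t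
  rw [ContinuousMap.comp_apply, chiI_c1]
  rfl

theorem yv_zero {p : ℕ} (s : C(G2.Dl p, Bx) × C(G2.Dl p, T0.Om r)) (τ : C(G2.Dl p, T0.Sph r))
    (t : G2.Dl p) : yv (ContinuousMap.const _ 0) s τ t = (s.2 t) (collB r (s.1 t) (τ t)) := by
  rw [yv_apply, ContinuousMap.const_apply, growB_zero]

theorem yv_one {p : ℕ} (s : C(G2.Dl p, Bx) × C(G2.Dl p, T0.Om r)) (τ : C(G2.Dl p, T0.Sph r))
    (t : G2.Dl p) : yv (ContinuousMap.const _ 1) s τ t = (s.2 t) (τ t) := by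
  rw [yv_apply, ContinuousMap.const_apply, growB_one, collB_full]

theorem mem_aT {c : unitInterval} {p : ℕ} {u : (U X r).ss.obj p}
    {a : Sheet boxLab (G2.sing (T0.Sph r)) p} :
    a ∈ ((𝓕.aT c).app u).1 ↔ ∃ s ∈ 𝓕.sh u.1,
      (ofC s.1, ofC (yv (ContinuousMap.const _ c) s u.2)) = a ∧ ¬ (ptS ∞).mem a.2 := 𝓕.mem_fsh

/-! ### small simplices -/

/-- the condition to be small -/
def SmP (K : Set (T0.Sph r)) {p : ℕ} (x : X.obj p) (τ : C(G2.Dl p, T0.Sph r)) : Prop :=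
  (∃ s ∈ 𝓕.sh x, ∀ t, collB r (s.1 t) (τ t) ≠ ∞) ∨
    ∀ s ∈ 𝓕.sh x, ∀ t, (s.2 t) (collB r (s.1 t) (τ t)) ∉ K

/-- the small simplices -/
def Sm (K : Set (T0.Sph r)) (p : ℕ) : Set ((U X r).obj p) := {u | 𝓕.SmP K u.1 u.2}

theorem smP_pull {K : Set (T0.Sph r)} {p q : ℕ} (f : C(G2.Dl p, G2.Dl q)) {x : X.obj q}
    {τ : C(G2.Dl q, T0.Sph r)} (h : 𝓕.SmP K x τ) : 𝓕.SmP K (X.pull f x) (τ.comp f) := by
  rcases h with ⟨s, hs, h⟩ | h
  · exact Or.inl ⟨(s.1.comp f, s.2.comp f), (𝓕.mem_pull f x _).2 ⟨s, hs, rfl⟩, fun t => h (f t)⟩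
  · refine Or.inr fun s hs t => ?_
    obtain ⟨s', hs', rfl⟩ := (𝓕.mem_pull f x s).1 hs
    exact h s' hs' (f t)

theorem smP_nhd {K : Set (T0.Sph r)} (hK : IsClosed K) (ho : ∞ ∉ K) {n : ℕ} (x : X.obj n)
    (τ : C(G2.Dl n, T0.Sph r)) (t : G2.Dl n) : ∃ V : Set (G2.Dl n), IsOpen V ∧ t ∈ V ∧
      ∀ (k : ℕ) (f : C(G2.Dl k, G2.Dl n)), (∀ t, f t ∈ V) → 𝓕.SmP K (X.pull f x) (τ.comp f) := by
  have hc : ∀ s : C(G2.Dl n, Bx) × C(G2.Dl n, T0.Om r),
      Continuous fun t => collB r (s.1 t) (τ t) := fun s =>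
    (continuous_collB r).comp (s.1.continuous.prodMk τ.continuous)
  have hc' : ∀ s : C(G2.Dl n, Bx) × C(G2.Dl n, T0.Om r),
      Continuous fun t => (s.2 t) (collB r (s.1 t) (τ t)) := fun s =>
    ContinuousEval.continuous_eval.comp
      ((continuous_subtype_val.comp s.2.continuous).prodMk (hc s))
  by_cases h : ∃ s ∈ 𝓕.sh x, collB r (s.1 t) (τ t) ≠ ∞
  · obtain ⟨s, hs, h⟩ := h
    refine ⟨{t | collB r (s.1 t) (τ t) ≠ ∞}, ?_, h, ?_⟩
    · exact isOpen_compl_singleton.preimage (hc s)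
    · intro k f hf
      exact Or.inl ⟨(s.1.comp f, s.2.comp f), (𝓕.mem_pull f x _).2 ⟨s, hs, rfl⟩, fun t => hf t⟩
  · push Not at h
    refine ⟨⋂ s ∈ 𝓕.sh x, {t | (s.2 t) (collB r (s.1 t) (τ t)) ∉ K}, ?_, ?_, ?_⟩
    · exact isOpen_biInter_finset fun s _ => hK.isOpen_compl.preimage (hc' s)
    · rw [Set.mem_iInter₂]
      intro s hs
      show (s.2 t) (collB r (s.1 t) (τ t)) ∉ K
      rw [h s hs]
      intro hc
      exact ho (by rw [← (s.2 t).2]; exact hc)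
    · intro k f hf
      refine Or.inr fun s hs t => ?_
      obtain ⟨s', hs', rfl⟩ := (𝓕.mem_pull f x s).1 hs
      exact Set.mem_iInter₂.1 (hf t) s' hs'

theorem loc {K : Set (T0.Sph r)} (hK : IsClosed K) (ho : ∞ ∉ K) : (U X r).Loc (𝓕.Sm K) where
  pull := fun f _ h => 𝓕.smP_pull f h
  nhd := fun x t => 𝓕.smP_nhd hK ho x.1 x.2 t

/-- the sheets of the beginning of the growth over a small simplex -/
theorem fsh_small {K : Set (T0.Sph r)} (ho : ∞ ∉ K) {p : ℕ} {x : X.obj p}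
    {τ : C(G2.Dl p, T0.Sph r)} (h : 𝓕.SmP K x τ) :
    (∃ c, 𝓕.fsh x τ (ContinuousMap.const _ 0) = {(c, ofC (𝓕.mval x τ))}) ∨
      ((∀ a ∈ 𝓕.fsh x τ (ContinuousMap.const _ 0), (missK K).mem a.2) ∧
        (missK K).mem (ofC (𝓕.mval x τ))) := by
  rcases h with ⟨s, hs, h⟩ | h
  · -- one box contains the simplex
    have h1 : 𝓕.mval x τ = yv (ContinuousMap.const _ 0) s τ :=
      ContinuousMap.ext fun t => by rw [𝓕.mval_of_mem hs (h t), yv_zero]
    have h2 : ∀ s' ∈ 𝓕.sh x, s' ≠ s →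
        (ptS ∞).mem (ofC (yv (ContinuousMap.const _ 0) s' τ)) := by
      intro s' hs' hne t
      show yv (ContinuousMap.const _ 0) s' τ t = ∞
      rw [yv_zero]
      rcases 𝓕.coll_or x hs' hs hne t (τ t) with h3 | h3
      · rw [h3]; exact (s'.2 t).2
      · exact absurd h3 (h t)
    by_cases hb : (ptS (∞ : T0.Sph r)).mem (ofC (𝓕.mval x τ))
    · refine Or.inr ⟨fun a ha => ?_, miss_of_pt ho hb⟩
      obtain ⟨s', hs', rfl, h3⟩ := 𝓕.mem_fsh.1 ha
      refine absurd ?_ h3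
      by_cases hss : s' = s
      · subst hss
        rw [h1] at hb
        exact hb
      · exact h2 s' hs' hss
    · refine Or.inl ⟨ofC s.1, ?_⟩
      ext a
      rw [mem_singleton, 𝓕.mem_fsh]
      constructor
      · rintro ⟨s', hs', rfl, h3⟩
        by_cases hss : s' = s
        · subst hss
          exact Prod.ext rfl h1.symm
        · exact absurd (h2 s' hs' hss) h3
      · rintro rfl
        exact ⟨s, hs, Prod.ext rfl h1.symm, hb⟩
  · -- everything misses `K`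
    refine Or.inr ⟨fun a ha t => ?_, fun t => ?_⟩
    · obtain ⟨s', hs', rfl, -⟩ := 𝓕.mem_fsh.1 ha
      show yv (ContinuousMap.const _ 0) s' τ t ∉ K
      rw [yv_zero]
      exact h s' hs' t
    · show 𝓕.mval x τ t ∉ K
      rcases 𝓕.mval_cases x τ t with h1 | ⟨s, hs, h1⟩
      · rw [h1]; exact ho
      · rw [h1]; exact h s hs t

theorem strict {K : Set (T0.Sph r)} (hK : IsClosed K) (ho : ∞ ∉ K) :
    Strict (missK K) (𝓕.aT 0) 𝓕.MX (𝓕.Sm K) where
  loc := 𝓕.loc hK ho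
  cases := fun _ h => 𝓕.fsh_small ho h

/-! ### the base -/

variable (X r) in
/-- the base of `X × Sing Sʳ` -/
noncomputable def bU : Sb (U X r).ss :=
  show Sb (X.ss.prod (G2.sing (T0.Sph r))) from
    (ptS (∞ : T0.Sph r)).comap (SS.snd X.ss (G2.sing (T0.Sph r)))

theorem sm_of_bU {K : Set (T0.Sph r)} (ho : ∞ ∉ K) {p : ℕ} (u : (U X r).ss.obj p)
    (hu : (bU r X).mem u) : u ∈ 𝓕.Sm K p := by
  refine Or.inr fun s _ t => ?_
  have h : (show C(G2.Dl p, T0.Sph r) from u.2) t = ∞ := hu t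
  intro hc
  refine ho ?_
  have h1 : (s.2 t) (collB r (s.1 t) ((show C(G2.Dl p, T0.Sph r) from u.2) t)) = ∞ := by
    rw [h, collB_infty]
    exact (s.2 t).2
  rw [← h1]
  exact hc

theorem MX_bU {p : ℕ} (u : (U X r).ss.obj p) (hu : (bU r X).mem u) :
    (ptS (∞ : T0.Sph r)).mem (𝓕.MX.app u) := by
  intro t
  have h : (show C(G2.Dl p, T0.Sph r) from u.2) t = ∞ := hu t
  show 𝓕.mval u.1 u.2 t = ∞
  rcases 𝓕.mval_cases u.1 u.2 t with h1 | ⟨s, -, h1⟩
  · exact h1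
  · refine h1.trans ?_
    have h2 : collB r (s.1 t) ((show C(G2.Dl p, T0.Sph r) from u.2) t) = ∞ := by
      rw [h, collB_infty]
    exact (congrArg (s.2 t) h2).trans (s.2 t).2

theorem aT_bU (c : unitInterval) {p : ℕ} (u : (U X r).ss.obj p) (hu : (bU r X).mem u) :
    (Gam.base boxLab (ptS (∞ : T0.Sph r))).mem ((𝓕.aT c).app u) :=
  𝓕.fsh_base (fun t => hu t) _

theorem hX_bU (ρ : C(unitInterval, unitInterval)) {p : ℕ} (u : (cylS (U X r).ss).obj p)
    (hu : (bU r X).cyl.mem u) : (Gam.base boxLab (ptS (∞ : T0.Sph r))).mem ((𝓕.hX ρ).app u) :=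
  𝓕.fsh_base (fun t => hu t) _

end BFam

end Vale.Agent.P263.TJ
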