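import Vale.Agent.P263.TJ.Cube
import Vale.Agent.P263.TJ.Dstar

/-!
# P263, block EB: the universal functional square on the loop space

`Intg r` : the properties of the integration over the cube that are used.
`BC d r` : a reduced cocycle `b` of degree `r` on the literal sphere `Sph r` and a reduced null
cochain `c` of `b ∪_(r-d-1) b`.
`IsW ι D g w` : `w` is in the class of the integral over the cube of the functional square of
`ev ∘ (g × 1) : X × cube → Sph r`, for `g : X → sing (Om r)`.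
`IsW.coh` : uniqueness, `IsW.pull` : naturality, `IsW.exists` : existence.
-/

open Finset OnePoint Topology

namespace Vale.Agent.P263.TJ

open Vale.Agent.P263.S Vale.Agent.P263.E Vale.Agent.P263.H83 Vale.Agent.P263.G2
  Vale.Agent.P263.T0

/-- The properties of the integration over the cube. -/
structure Intg (r : ℕ) where
  /-- the integration -/
  I : ∀ {X : SS}, Cc (X.prod (SN r)) → Cc X
  I_add : ∀ {X : SS} (u v : Cc (X.prod (SN r))), I (u + v) = I u + I v
  I_d : ∀ {X : SS} (w : Cc (X.prod (SN r))), Vn (ends X r) w → I (Cc.d w) = Cc.d (I w)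
  I_nat : ∀ {X Y : SS} (f : SS.Map X Y) (w : Cc (Y.prod (SN r))),
    I (Cc.pull (timesN f r) w) = Cc.pull f (I w)
  I_sn : ∀ {X : SS} (u : Cc X), I (sn r u) = u
  I_deg : ∀ {X : SS} {k : ℕ} {w : Cc (X.prod (SN r))}, Cc.IsDeg (k + r) w → Cc.IsDeg k (I w)
  I_inj : ∀ {X : SS} {w : Cc (X.prod (SN r))}, Vn (ends X r) w → Cc.d w = 0 →
    (∃ a, I w = Cc.d a) → ∃ w', Vn (ends X r) w' ∧ Cc.d w' = w
  I_low : ∀ {X : SS} {k : ℕ} {w : Cc (X.prod (SN r))}, k < r → Cc.IsDeg k w → I w = 0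

namespace Intg

variable {r : ℕ} (ι : Intg r) {X Y : SS}

/-- integration preserves the relation of being cohomologous -/
theorem coh {u v : (Cc.rel (ends X r)).C} (h : (Cc.rel (ends X r)).Coh u v) :
    (Cc.cupC X).Coh (ι.I (Cc.val u)) (ι.I (Cc.val v)) := by
  obtain ⟨c, hc⟩ := h
  refine ⟨ι.I (Cc.val c), ?_⟩
  have h1 : Cc.val u + Cc.val v = Cc.d (Cc.val c) := congrArg Cc.val hc
  show ι.I (Cc.val u) + ι.I (Cc.val v) = Cc.d (ι.I (Cc.val c))
  rw [← ι.I_add, h1, ι.I_d _ (Cc.vn_val c)]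

/-- two relative cocycles with cohomologous integrals are cohomologous -/
theorem coh_of_coh {u v : (Cc.rel (ends X r)).C} (hu : (Cc.rel (ends X r)).d u = 0)
    (hv : (Cc.rel (ends X r)).d v = 0)
    (h : (Cc.cupC X).Coh (ι.I (Cc.val u)) (ι.I (Cc.val v))) : (Cc.rel (ends X r)).Coh u v := by
  obtain ⟨c, hc⟩ := h
  have hu' : Cc.d (Cc.val u) = 0 := congrArg Cc.val hu
  have hv' : Cc.d (Cc.val v) = 0 := congrArg Cc.val hv
  obtain ⟨w, hw, hw'⟩ := ι.I_inj (w := Cc.val u + Cc.val v)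
    (Vn.add (Cc.vn_val u) (Cc.vn_val v)) (by rw [d_add, hu', hv', add_zero])
    ⟨c, by rw [ι.I_add]; exact hc⟩
  exact ⟨Cc.mkRel _ w hw, Cc.rel_ext hw'.symm⟩

include ι in
/-- relative cocycles of degree `< r` are relative coboundaries -/
theorem low {k : ℕ} (hk : k < r) {z : (Cc.rel (ends X r)).C} (hz : (Cc.rel (ends X r)).d z = 0)
    (hd : Cc.IsDeg k (Cc.val z)) : ∃ y, (Cc.rel (ends X r)).d y = z := by
  obtain ⟨w, hw, hw'⟩ := ι.I_inj (w := Cc.val z) (Cc.vn_val z) (congrArg Cc.val hz)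
    ⟨0, by rw [ι.I_low hk hd, d_zero]⟩
  exact ⟨Cc.mkRel _ w hw, Cc.rel_ext hw'⟩

end Intg

/-- The integration over the cube. -/
def intg (r : ℕ) : Intg r where
  I w := DstN r w
  I_add u v := DstN_add r u v
  I_d _ hw := DstN_d hw
  I_nat f w := DstN_pull r f w
  I_sn u := DstN_sn r u
  I_deg {X k w} hw := fun p hp x => congrFun (DstN_degree r (w := w) (p := p)
    (funext fun y => hw (p + r) (by omega) y)) x
  I_inj {X w} hw hd h := by
    obtain ⟨a, ha⟩ := h
    exact DstN_exact r hw hd ha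
  I_low {X k w} hk hw := by
    funext p
    exact DstN_degree r (funext fun y => hw (p + r) (by omega) y)

/-- A reduced cocycle `b` of degree `r` on `Sph r` with a reduced null cochain `c` of degree
`r + d` of `b ∪_i b`, `i + d + 1 = r`. -/
structure BC (d r i : ℕ) where
  /-- the cocycle -/
  b : (Cc.rel (bs r)).C
  /-- the null cochain of its square -/
  c : (Cc.rel (bs r)).C
  deg : i + d + 1 = r
  b_deg : Cc.IsDeg r (Cc.val b)
  c_deg : Cc.IsDeg (d + r) (Cc.val c)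
  d_b : (Cc.rel (bs r)).d b = 0
  d_c : (Cc.rel (bs r)).cup (i + 1) b b = (Cc.rel (bs r)).d c

/-- the map `ev ∘ (g × 1)` -/
noncomputable abbrev evg {r : ℕ} {X : SS} (g : SS.Map X (sing (Om r))) :
    SS.Map (X.prod (SN r)) (sing (Sph r)) := (ev r).comp (timesN g r)

/-- the pull-back of reduced cochains along `ev ∘ (g × 1)` -/
noncomputable def evRel {r : ℕ} {X : SS} (g : SS.Map X (sing (Om r))) :
    CupC.Hom (Cc.rel (bs r)) (Cc.rel (ends X r)) :=
  Cc.relHom (evg g) (ends X r) (bs r) fun _ h => ev_base (timesN_ends g r h)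

theorem val_evRel {r : ℕ} {X : SS} (g : SS.Map X (sing (Om r))) (u : (Cc.rel (bs r)).C) :
    Cc.val ((evRel g).f u) = Cc.pull (evg g) (Cc.val u) := rfl

namespace BC

variable {d r i : ℕ} (D : BC d r i) {X Y : SS}

/-- the functional square data for `e` -/
noncomputable def fsq {g : SS.Map X (sing (Om r))} (e : (Cc.rel (ends X r)).C)
    (he : (Cc.rel (ends X r)).d e = (evRel g).f D.b) : CupC.FSqD (evRel g) i :=
  ⟨D.b, e, D.c, D.d_b, he, D.d_c⟩

/-- the functional square -/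
noncomputable def sqv (g : SS.Map X (sing (Om r))) (e : (Cc.rel (ends X r)).C) :
    (Cc.rel (ends X r)).C := (Cc.rel (ends X r)).q i e + (evRel g).f D.c

theorem val_fsq {g : SS.Map X (sing (Om r))} (e : (Cc.rel (ends X r)).C)
    (he : (Cc.rel (ends X r)).d e = (evRel g).f D.b) : (D.fsq e he).val = D.sqv g e := rfl

theorem d_sqv {g : SS.Map X (sing (Om r))} {e : (Cc.rel (ends X r)).C}
    (he : (Cc.rel (ends X r)).d e = (evRel g).f D.b) : (Cc.rel (ends X r)).d (D.sqv g e) = 0 :=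
  (D.fsq e he).d_val

theorem deg_sqv {g : SS.Map X (sing (Om r))} {e : (Cc.rel (ends X r)).C}
    (he : (Cc.rel (ends X r)).d e = (evRel g).f D.b) (hd : Cc.IsDeg (r - 1) (Cc.val e)) :
    Cc.IsDeg (d + r) (Cc.val (D.sqv g e)) := by
  have h1 := D.deg
  have hg : (D.fsq e he).Homog (Cc.relGr (bs r)) (Cc.relGr (ends X r)) (r - 1) (d + r) := by
    refine ⟨?_, hd, D.c_deg, by omega⟩
    have h2 : r - 1 + 1 = r := by omega
    rw [h2]
    exact D.b_deg
  exact CupC.FSqD.val_mem hg fun x hx => Cc.IsDeg.pull (n := d + r) hx (evg g)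

end BC

/-- `w` is in the class of the integral of the functional square -/
def IsW {r : ℕ} (ι : Intg r) {d i : ℕ} (D : BC d r i) {X : SS} (g : SS.Map X (sing (Om r)))
    (w : Cc X) : Prop :=
  ∃ e : (Cc.rel (ends X r)).C, Cc.IsDeg (r - 1) (Cc.val e) ∧
    (Cc.rel (ends X r)).d e = (evRel g).f D.b ∧
    (Cc.cupC X).Coh w (ι.I (Cc.val (D.sqv g e)))

namespace IsW

variable {r : ℕ} {ι : Intg r} {d i : ℕ} {D : BC d r i} {X Y : SS} {g : SS.Map X (sing (Om r))}

/-- **uniqueness** -/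
theorem coh {w w' : Cc X} (h : IsW ι D g w) (h' : IsW ι D g w') : (Cc.cupC X).Coh w w' := by
  obtain ⟨e, hd, he, hw⟩ := h
  obtain ⟨e', hd', he', hw'⟩ := h'
  have hr := D.deg
  have hz : (Cc.rel (ends X r)).d (e + e') = 0 := by
    rw [map_add, he, he']
    exact (Cc.rel (ends X r)).two _
  obtain ⟨y, hy⟩ := ι.low (k := r - 1) (by omega) hz (Cc.IsDeg.add hd hd')
  have h1 := CupC.FSqD.val_changeE (D.fsq e he) (e + e') hz
  have h2 : ((D.fsq e he).changeE (e + e') hz).val = D.sqv g e' := by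
    have h3 : e + (e + e') = e' := by
      rw [← add_assoc, (Cc.rel (ends X r)).two, zero_add]
    show (Cc.rel (ends X r)).q i (e + (e + e')) + (evRel g).f D.c = _
    rw [h3]
    rfl
  rw [h2, D.val_fsq, ← hy] at h1
  have h3 := h1.trans (((Cc.rel (ends X r)).cup_d_d i y).add_left (D.sqv g e))
  rw [add_zero] at h3
  exact (hw.trans (ι.coh h3).symm).trans hw'.symm

theorem of_coh {w w' : Cc X} (h : IsW ι D g w) (h' : (Cc.cupC X).Coh w' w) : IsW ι D g w' := by
  obtain ⟨e, hd, he, hw⟩ := h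
  exact ⟨e, hd, he, h'.trans hw⟩

theorem iff_coh {w w' : Cc X} (h : IsW ι D g w) : IsW ι D g w' ↔ (Cc.cupC X).Coh w' w :=
  ⟨fun h' => h'.coh h, fun h' => h.of_coh h'⟩

/-- **naturality** -/
theorem pull {w : Cc Y} {g : SS.Map Y (sing (Om r))} (h : IsW ι D g w) (f : SS.Map X Y) :
    IsW ι D (g.comp f) (Cc.pull f w) := by
  obtain ⟨e, hd, he, hw⟩ := h
  let F : CupC.Hom (Cc.rel (ends Y r)) (Cc.rel (ends X r)) :=
    Cc.relHom (timesN f r) (ends X r) (ends Y r) fun _ h => timesN_ends f r h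
  have hF : ∀ x, (evRel (g.comp f)).f x = F.f ((evRel g).f x) := fun _ => rfl
  refine ⟨F.f e, Cc.IsDeg.pull hd (timesN f r), ?_, ?_⟩
  · rw [← F.f_d, he, hF]
  · have h1 : D.sqv (g.comp f) (F.f e) = F.f (D.sqv g e) := by
      show (Cc.rel (ends X r)).q i (F.f e) + (evRel (g.comp f)).f D.c =
        F.f ((Cc.rel (ends Y r)).q i e + (evRel g).f D.c)
      rw [map_add, F.f_q, hF]
    rw [h1]
    have h2 : Cc.val (F.f (D.sqv g e)) = Cc.pull (timesN f r) (Cc.val (D.sqv g e)) := rfl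
    rw [h2, ι.I_nat]
    exact hw.map (Cc.pullHom f)

/-- the universal class can be chosen to be a homogeneous cocycle -/
theorem exists_deg {w : Cc X} (h : IsW ι D g w) :
    ∃ w', IsW ι D g w' ∧ Cc.IsDeg d w' ∧ Cc.d w' = 0 := by
  obtain ⟨e, hd, he, hw⟩ := h
  refine ⟨ι.I (Cc.val (D.sqv g e)), ⟨e, hd, he, CupC.Coh.refl _⟩, ?_, ?_⟩
  · exact ι.I_deg (D.deg_sqv he hd)
  · rw [← ι.I_d _ (Cc.vn_val _)]
    have h1 : Cc.d (Cc.val (D.sqv g e)) = 0 := congrArg Cc.val (D.d_sqv he)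
    rw [h1]
    have h2 := ι.I_add (X := X) 0 0
    rw [add_zero] at h2
    have h3 : ι.I (0 : Cc (X.prod (SN r))) + ι.I (0 : Cc (X.prod (SN r))) = 0 :=
      (Cc.cupC X).two _
    rw [h2]
    exact h3

theorem d_eq {w : Cc X} (h : IsW ι D g w) : Cc.d w = 0 := by
  obtain ⟨w', h1, -, h3⟩ := h.exists_deg
  have := (h.coh h1).d
  exact this.trans h3

/-- **existence**: the degree is even on every vertex -/
theorem exists_of (hdeg : ι.I (Cc.val ((evRel g).f D.b)) = 0) : ∃ w, IsW ι D g w := by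
  have hr := D.deg
  have hb : Cc.d (Cc.val ((evRel g).f D.b)) = 0 := by
    have : (Cc.rel (ends X r)).d ((evRel g).f D.b) = 0 := by rw [← (evRel g).f_d, D.d_b, map_zero]
    exact congrArg Cc.val this
  obtain ⟨e, he, he'⟩ := ι.I_inj (Cc.vn_val ((evRel g).f D.b)) hb ⟨0, by rw [hdeg, d_zero]⟩
  have h1 : Cc.comp r (Cc.val ((evRel g).f D.b)) = Cc.val ((evRel g).f D.b) :=
    Cc.comp_eq (D.b_deg.pull (evg g))
  refine ⟨_, Cc.mkRel _ (Cc.comp (r - 1) e) (Cc.vn_comp he _), Cc.isDeg_comp _ _, ?_,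
    CupC.Coh.refl _⟩
  refine Cc.rel_ext ?_
  show Cc.d (Cc.comp (r - 1) e) = Cc.val ((evRel g).f D.b)
  rw [← Cc.comp_d, he']
  have h2 : r - 1 + 1 = r := by omega
  rw [h2, h1]

end IsW

end Vale.Agent.P263.TJ
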