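import Vale.Agent.P263.TJ.BoxSq
import Vale.Agent.P263.TJ.FHtp
import Vale.Agent.P263.TJ.L1B
import Vale.Agent.P263.TJ.Univ
import Vale.Agent.P263.TJ.CubeSph

/-!
# P263, block EB: the universal class on the little boxes

* `BFam.exists_FSqD` : a functional square of the configuration of full boxes gives one of the
  collapse `MX`, with cohomologous values.
* `FT r n`, `famB r n` : the families of `n` unordered boxes of stage `r`, with labels the identity.
* `isW_box` : **the universal class `w_d` restricts on the families of `n` boxes, `n` even, to the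
  sum over the ordered pairs of boxes of `v^d o`.**
-/

open Finset OnePoint Topology

namespace Vale.Agent.P263.TJ

open Vale.Agent.P263.S Vale.Agent.P263.E Vale.Agent.P263.H83 Vale.Agent.P263.G2

/-! ### homotopies and degrees -/

namespace CupC.FSqD

open Cc

variable {X Y : SS} {i : ℕ}

/-- homotopy invariance, with the degree of `e` -/
theorem htpy_deg (H : SS.Map (cylS X) Y) {A : Sb X} {B : Sb Y}
    (hH : ∀ {p : ℕ} (x : (cylS X).obj p), A.cyl.mem x → B.mem (H.app x)) {n : ℕ}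
    (D : FSqD (relHom (H.comp (end0 X)) A B fun _ hx => hH _ hx) i)
    (hb : IsDeg (n + 1) (Cc.val D.b)) (he : IsDeg n (Cc.val D.e)) :
    ∃ D' : FSqD (relHom (H.comp (end1 X)) A B fun _ hx => hH _ hx) i,
      D'.b = D.b ∧ D'.c = D.c ∧ IsDeg n (Cc.val D'.e) ∧ (rel A).Coh D.val D'.val := by
  have hw : IsDeg (n + 1) (Cc.val ((relHom H A.cyl B hH).f D.b)) :=
    IsDeg.pull (u := Cc.val D.b) hb H
  obtain ⟨e', h1, h2, h3⟩ := exists_ext_deg (w := (relHom H A.cyl B hH).f D.b)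
    (by rw [← (relHom H A.cyl B hH).f_d, D.d_b, map_zero]) hw he D.d_e
  obtain ⟨D', hb', hc', he', hv⟩ := htpy_aux H hH D e' h1 h2
  refine ⟨D', hb', hc', ?_, hv⟩
  rw [he']
  exact IsDeg.pull (u := Cc.val e') h3 (end1 X)

/-- replacing the map by an equal one -/
theorem replace {f g : SS.Map X Y} (h : f = g) {A : Sb X} {B : Sb Y}
    (hf : ∀ {p : ℕ} (x : X.obj p), A.mem x → B.mem (f.app x))
    (hg : ∀ {p : ℕ} (x : X.obj p), A.mem x → B.mem (g.app x)) (D : FSqD (relHom f A B hf) i) :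
    ∃ D' : FSqD (relHom g A B hg) i, D'.b = D.b ∧ D'.c = D.c ∧ D'.e = D.e ∧
      D'.val = D.val := by
  subst h
  exact ⟨D, rfl, rfl, rfl, rfl⟩

end CupC.FSqD

namespace BFam

variable {r : ℕ} {X : TSet} (𝓕 : BFam r X)

/-- the reversal of the interval -/
def rev : C(unitInterval, unitInterval) := ⟨unitInterval.symm, unitInterval.continuous_symm⟩

/-- **From the full boxes to the collapse.** -/
theorem exists_FSqD {K : Set (T0.Sph r)} (hK : IsClosed K) (ho : ∞ ∉ K) {i n : ℕ}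
    {b c : (Cc.rel (ptS (∞ : T0.Sph r))).C} (hb : Vn (missK K) (Cc.val b))
    (hc : Vn (missK K) (Cc.val c)) (db : (Cc.rel (ptS (∞ : T0.Sph r))).d b = 0)
    (dc : (Cc.rel (ptS (∞ : T0.Sph r))).cup (i + 1) b b = (Cc.rel (ptS (∞ : T0.Sph r))).d c)
    (hbn : Cc.IsDeg (n + 1) (Cc.val b))
    (D1 : CupC.FSqD (Cc.relHom (𝓕.aT 1) (bU r X) (Gam.base boxLab (ptS (∞ : T0.Sph r)))
      fun u hu => 𝓕.aT_bU 1 u hu) i)
    (hb' : Cc.val D1.b = hat boxLab (ptS ∞) (Cc.val b))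
    (hc' : Cc.val D1.c = hat boxLab (ptS ∞) (Cc.val c) +
      KK boxLab (ptS ∞) (i + 1) 0 (Cc.val b))
    (hen : Cc.IsDeg n (Cc.val D1.e)) :
    ∃ D : CupC.FSqD (Cc.relHom 𝓕.MX (bU r X) (ptS (∞ : T0.Sph r)) fun u hu => 𝓕.MX_bU u hu) i,
      D.b = b ∧ D.c = c ∧ Cc.IsDeg n (Cc.val D.e) ∧ (Cc.rel (bU r X)).Coh D.val D1.val := by
  have h0 : (𝓕.hX rev).comp (end0 _) = 𝓕.aT 1 := by
    rw [hX_end0]
    congr 1
    exact unitInterval.symm_zero
  have h1 : (𝓕.hX rev).comp (end1 _) = 𝓕.aT 0 := by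
    rw [hX_end1]
    congr 1
    exact unitInterval.symm_one
  obtain ⟨D2, hb2, hc2, he2, hv2⟩ := CupC.FSqD.replace (g := (𝓕.hX rev).comp (end0 _)) h0.symm
    (fun u hu => 𝓕.aT_bU 1 u hu) (fun u hu => 𝓕.hX_bU rev _ hu) D1
  obtain ⟨D3, hb3, hc3, he3, hv3⟩ := CupC.FSqD.htpy_deg (𝓕.hX rev) (A := bU r X)
    (fun u hu => 𝓕.hX_bU rev u hu) (n := n) D2
    (by rw [hb2, hb']; exact isDeg_hat hbn) (by rw [he2]; exact hen)
  obtain ⟨D4, hb4, hc4, he4, hv4⟩ := CupC.FSqD.replace (g := 𝓕.aT 0) h1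
    (fun u hu => 𝓕.hX_bU rev _ hu) (fun u hu => 𝓕.aT_bU 0 u hu) D3
  obtain ⟨D, h5, h6, h7, h8⟩ := (𝓕.strict hK ho).exists_FSqD_rev (bU r X)
    (fun u hu => 𝓕.sm_of_bU ho u hu) (fun u hu => 𝓕.MX_bU u hu) (fun u hu => 𝓕.aT_bU 0 u hu)
    hb hc db dc hbn D4 (by rw [hb4, hb3, hb2, hb']) (by rw [hc4, hc3, hc2, hc'])
    (by rw [he4]; exact he3)
  refine ⟨D, h5, h6, h7, h8.trans ?_⟩
  rw [hv4, ← hv2]
  exact hv3.symm

end BFam

/-! ### naturality of the assembled correction, weak form -/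

section nat

variable {l : LabS} {K K' : SS}

/-- naturality of the assembled correction -/
theorem asm_KK_nat' (g : SS.Map K K') {A : Sb K} {A' : Sb K'}
    (h : ∀ (p : ℕ) (x : K.obj p), A.mem x → A'.mem (g.app x)) (j m : ℕ) {y : Cc K'}
    (hy : Vn A' y) :
    Cc.pull (idp (TJ.GL l) g) (Cc.pull (asm l A') (KK l A' j m y)) =
      Cc.pull (asm l A) (KK l A j m (Cc.pull g y)) := by
  funext p z
  show Tr A' (∑ k ∈ range (p + 1), qt l j m y k) p ((asm l A').app (z.1, g.app z.2)) =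
    Tr A (∑ k ∈ range (p + 1), qt l j m (Cc.pull g y) k) p ((asm l A).app z)
  rw [Tr_apply, Tr_apply]
  show ∑ a ∈ asmF l A' z.1.1 (g.app z.2), ∑ b ∈ asmF l A' z.1.1 (g.app z.2),
      ex (∑ k ∈ range (p + 1), qt l j m y k) a b =
    ∑ a ∈ asmF l A z.1.1 z.2, ∑ b ∈ asmF l A z.1.1 z.2,
      ex (∑ k ∈ range (p + 1), qt l j m (Cc.pull g y) k) a b
  by_cases hx' : A'.mem (g.app z.2)
  · rw [asmF_base hx', sum_empty]
    symm
    refine sum_eq_zero fun s hs => sum_eq_zero fun t _ => ?_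
    unfold ex
    split_ifs with hst
    · have hs2 : s.2 = z.2 := (mem_asmF.1 hs).2.1
      have hv : Vn (A'.comap g) (Cc.pull g y) := fun p x hx => hy p _ hx
      refine Vn.sum (fun k _ => qt_vn (l := l) hv j m k) p _ (Or.inl ?_)
      show A'.mem (g.app s.2)
      rw [hs2]
      exact hx'
    · rfl
  · have hx : ¬ A.mem z.2 := fun hc => hx' (h p z.2 hc)
    refine (sum_asmF hx' _).trans ?_
    rw [sum_asmF hx]
    refine sum_congr rfl fun a _ => ?_
    refine (sum_asmF hx' _).trans ?_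
    rw [sum_asmF hx]
    refine sum_congr rfl fun b _ => ?_
    rw [ex_pull, pull_sum]
    simp only [PrM_qt]

theorem asmn_KK_nat' (n : ℕ) (g : SS.Map K K') {A : Sb K} {A' : Sb K'}
    (h : ∀ (p : ℕ) (x : K.obj p), A.mem x → A'.mem (g.app x)) (j m : ℕ) {y : Cc K'}
    (hy : Vn A' y) :
    Cc.pull (idp (GLn l n) g) (Cc.pull (asmn l A' n) (KK l A' j m y)) =
      Cc.pull (asmn l A n) (KK l A j m (Cc.pull g y)) :=
  congrArg (Cc.pull (pid (GLn.incl l n) K)) (asm_KK_nat' g h j m hy)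

end nat

/-! ### the families of little boxes -/

section boxes

variable (r n : ℕ)

/-- the families of `n` boxes of stage `r` -/
noncomputable def FT : TSet where
  obj p := {S : Conf Unit (G2.Dl p) // S.IsSt r ∧ S.pts.card = n}
  pull f S := ⟨S.1.pull f, S.2.1.pull _, by rw [Conf.card_pull, S.2.2]⟩
  pull_id S := Subtype.ext S.1.pull_id
  pull_comp f g S := Subtype.ext (Conf.pull_pull f g S.1).symm

theorem FT_ss : (FT r n).ss = FNr r n Unit := rfl

/-- the identity as a loop -/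
def idOm : T0.Om r := ⟨ContinuousMap.id _, rfl⟩

open Classical in
/-- the tautological family -/
noncomputable def famB : BFam r (FT r n) where
  sh {p} S := S.1.pts.image fun x => (x.1, ContinuousMap.const _ (idOm r))
  mem_pull := by
    intro p q f S s
    rw [mem_image]
    constructor
    · rintro ⟨x, hx, rfl⟩
      obtain ⟨y, hy, h⟩ := Conf.mem_pull.1 hx
      exact ⟨_, mem_image_of_mem _ hy, Prod.ext h rfl⟩
    · rintro ⟨s', hs', rfl⟩
      obtain ⟨y, hy, rfl⟩ := mem_image.1 hs'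
      exact ⟨(y.1.comp f, y.2), Conf.mem_pull.2 ⟨y.1, hy, rfl⟩, rfl⟩
  st := by
    intro p S s hs t
    obtain ⟨y, hy, rfl⟩ := mem_image.1 hs
    exact S.2.1 y hy t
  disj := by
    intro p S s hs s' hs' hne t
    obtain ⟨y, hy, rfl⟩ := mem_image.1 hs
    obtain ⟨y', hy', rfl⟩ := mem_image.1 hs'
    exact S.1.disj y hy y' hy' (fun h => hne (by rw [h])) t

theorem mem_famB {p : ℕ} {S : (FT r n).obj p} {s : C(G2.Dl p, Bx) × C(G2.Dl p, T0.Om r)} :
    s ∈ (famB r n).sh S ↔ (s.1, ()) ∈ S.1.pts ∧ s.2 = ContinuousMap.const _ (idOm r) := by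
  classical
  constructor
  · intro h
    obtain ⟨y, hy, rfl⟩ := mem_image.1 h
    exact ⟨hy, rfl⟩
  · rintro ⟨h1, h2⟩
    exact mem_image.2 ⟨_, h1, Prod.ext rfl h2.symm⟩

/-- the collapse into the loop space -/
noncomputable def gB : SS.Map (FNr r n Unit) (G2.sing (T0.Om r)) :=
  ⟨fun S => ofC (alphaOm r S.1 S.2.1), fun f S => alphaOm_pull r S.1 S.2.1 (dmap f)⟩

theorem mval_famB {p : ℕ} (S : (FT r n).obj p) (τ : C(G2.Dl p, T0.Sph r)) (t : G2.Dl p) :
    (famB r n).mval S τ t = alphaOm r S.1 S.2.1 t (τ t) := by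
  by_cases h : ∃ c : C(G2.Dl p, Bx), (c, ()) ∈ S.1.pts ∧ collB r (c t) (τ t) ≠ ∞
  · obtain ⟨c, hc, h⟩ := h
    rw [alphaOm_of_mem S.2.1 hc h]
    exact (famB r n).mval_of_mem (s := (c, ContinuousMap.const _ (idOm r)))
      ((mem_famB r n).2 ⟨hc, rfl⟩) h
  · push Not at h
    rw [alphaOm_of_forall S.2.1 fun x hx => h x.1 hx]
    rcases (famB r n).mval_cases S τ t with h1 | ⟨s, hs, h1⟩
    · exact h1
    · rw [h1, h s.1 ((mem_famB r n).1 hs).1]
      exact (s.2 t).2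

theorem MX_famB : (famB r n).MX.comp (idp (FNr r n Unit) (cx r)) = evg (gB r n) := by
  apply SS.Map.ext
  intro p z
  apply ContinuousMap.ext
  intro t
  exact mval_famB r n z.1 (cxC z.2) t

open Classical in
/-- the set of the boxes -/
noncomputable def lbF {p : ℕ} (S : Conf Unit (G2.Dl p)) : Finset (boxLab.L.obj p) :=
  S.pts.image fun x => x.1

variable {r n} in
theorem mem_lbF {p : ℕ} {S : Conf Unit (G2.Dl p)} {a : boxLab.L.obj p} :
    a ∈ lbF S ↔ (toC (p := p) a, ()) ∈ S.pts := by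
  classical
  constructor
  · intro h
    obtain ⟨x, hx, rfl⟩ := mem_image.1 h
    exact hx
  · intro h
    exact mem_image.2 ⟨_, h, rfl⟩

variable {r n} in
theorem lbF_pull {p q : ℕ} (f : Op p q) (S : Conf Unit (G2.Dl q)) :
    lbF (S.pull (dmap f)) = lmap boxLab f (lbF S) := by
  ext a
  refine mem_lbF.trans (Iff.trans ?_ mem_lmap.symm)
  constructor
  · intro h
    obtain ⟨y, hy, h⟩ := Conf.mem_pull.1 h
    exact ⟨ofC y, mem_lbF.2 hy, h⟩
  · rintro ⟨b, hb, rfl⟩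
    exact Conf.mem_pull.2 ⟨toC (p := q) b, mem_lbF.1 hb, rfl⟩

variable {r n} in
theorem card_lbF {p : ℕ} (S : Conf Unit (G2.Dl p)) : (lbF S).card = S.pts.card := by
  classical
  refine card_image_of_injOn ?_
  intro x _ y _ hxy
  exact Prod.ext hxy rfl

/-- the labels of the families of boxes -/
noncomputable def lbB : SS.Map (FNr r n Unit) (GLn boxLab n) where
  app {p} S := ⟨lbF S.1, by
    intro a ha b hb hab t
    exact S.1.disj _ (mem_lbF.1 (mem_coe.1 ha)) _ (mem_lbF.1 (mem_coe.1 hb))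
      (fun h => hab (congrArg Prod.fst h)) t, (card_lbF S.1).trans S.2.2⟩
  nat f S := Subtype.ext (lbF_pull f S.1)

variable {r} in
theorem yv_one_id {p : ℕ} (s : C(G2.Dl p, Bx) × C(G2.Dl p, T0.Om r))
    (hs : s.2 = ContinuousMap.const _ (idOm r)) (τ : C(G2.Dl p, T0.Sph r)) :
    yv (ContinuousMap.const _ 1) s τ = τ := by
  apply ContinuousMap.ext
  intro t
  rw [BFam.yv_one, hs]
  rfl

theorem aT_one : (famB r n).aT 1 =
    (asmn boxLab (ptS (∞ : T0.Sph r)) n).comp (pid (lbB r n) (G2.sing (T0.Sph r))) := by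
  apply SS.Map.ext
  rintro p ⟨S, τ⟩
  refine Subtype.ext ?_
  ext a
  refine (BFam.mem_aT (famB r n)).trans
    (Iff.trans ?_ (mem_asmF (l := boxLab) (A := ptS (∞ : T0.Sph r)) (F := lbF S.1)
      (x := τ)).symm)
  have hy : ∀ s : C(G2.Dl p, Bx) × C(G2.Dl p, T0.Om r), s.2 = ContinuousMap.const _ (idOm r) →
      yv (ContinuousMap.const _ 1) s τ = τ := fun s hs => yv_one_id s hs τ
  constructor
  · rintro ⟨s, hs, rfl, h⟩
    obtain ⟨h1, h2⟩ := (mem_famB r n).1 hs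
    have h3 := hy s h2
    refine ⟨mem_lbF.2 h1, h3, fun hc => h ?_⟩
    intro t
    have h4 := hc t
    rw [← h3] at h4
    exact h4
  · rintro ⟨h1, h2, h3⟩
    have h4 := hy (toC (p := p) a.1, ContinuousMap.const _ (idOm r)) rfl
    refine ⟨(toC (p := p) a.1, ContinuousMap.const _ (idOm r)),
      (mem_famB r n).2 ⟨mem_lbF.1 h1, rfl⟩, Prod.ext rfl (h4.trans h2.symm), ?_⟩
    rw [h2]
    exact h3

/-- **The universal class on the little boxes**: it is the sum of `v^d o` over the ordered pairs of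
boxes. -/
theorem isW_box {d i : ℕ} (ι : Intg r) (D : BC d r i) (hn : Even n) {K : Set (T0.Sph r)}
    (hK : IsClosed K) (ho : ∞ ∉ K) (hb : Vn (missK K) (Cc.val D.b))
    (hc : Vn (missK K) (Cc.val D.c)) (hne : ¬ ∃ a : Cc (G2.sing (T0.Sph r)), Cc.d a = Cc.val D.b) :
    IsW ι D (gB r n) (Cc.pull (lbB r n) (tln boxLab n d)) := by
  have hr := D.deg
  have hr0 : 0 < r := by omega
  have hr1 : r - 1 + 1 = r := by omega
  have hbA : Vn (ptS (∞ : T0.Sph r)) (Cc.val D.b) := Cc.vn_val D.b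
  have hcA : Vn (ptS (∞ : T0.Sph r)) (Cc.val D.c) := Cc.vn_val D.c
  have db : Cc.d (Cc.val D.b) = 0 := congrArg Cc.val D.d_b
  have dc : Cc.cup (i + 1) (Cc.val D.b) (Cc.val D.b) = Cc.d (Cc.val D.c) :=
    congrArg Cc.val D.d_c
  -- the full boxes
  have hz : ∀ {y : Cc (G2.sing (T0.Sph r))}, Vn (ptS ∞) y →
      Cc.pull ((famB r n).aT 1) (hat boxLab (ptS (∞ : T0.Sph r)) y) = 0 := by
    intro y hy
    rw [aT_one]
    exact (congrArg (Cc.pull (pid (lbB r n) (G2.sing (T0.Sph r)))) (asmn_hat hn hy)).trans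
      (pull_zero _)
  let D1 : CupC.FSqD (Cc.relHom ((famB r n).aT 1) (BFam.bU r (FT r n))
      (Gam.base boxLab (ptS (∞ : T0.Sph r))) fun u hu => (famB r n).aT_bU 1 u hu) i :=
    { b := Cc.mkRel _ (hat boxLab (ptS ∞) (Cc.val D.b)) (Gam.hat_vn _)
      e := 0
      c := Cc.mkRel _ (hat boxLab (ptS ∞) (Cc.val D.c) +
        KK boxLab (ptS ∞) (i + 1) 0 (Cc.val D.b)) ((Gam.hat_vn _).add (Gam.KK_vn _ _ _))
      d_b := Cc.rel_ext (by
        show Cc.d (hat boxLab (ptS ∞) (Cc.val D.b)) = 0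
        rw [d_hat hbA, db, hat_zero])
      d_e := Cc.rel_ext ((d_zero).trans (hz hbA).symm)
      d_c := Cc.rel_ext (by
        show Cc.cup (i + 1) (hat boxLab (ptS ∞) (Cc.val D.b))
            (hat boxLab (ptS ∞) (Cc.val D.b)) =
          Cc.d (hat boxLab (ptS ∞) (Cc.val D.c) + KK boxLab (ptS ∞) (i + 1) 0 (Cc.val D.b))
        rw [d_add, d_hat hcA, d_KK_sq hbA db, ← dc, add_comm (Cc.cup _ _ _), ← add_assoc,
          cc_add_self, zero_add]) }
  obtain ⟨D2, h1, h2, h3, h4⟩ := (famB r n).exists_FSqD hK ho (n := r - 1) (b := D.b)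
    (c := D.c) hb hc D.d_b D.d_c (by rw [hr1]; exact D.b_deg) D1 rfl rfl
    (fun _ _ _ => rfl)
  let F : CupC.Hom (Cc.rel (BFam.bU r (FT r n))) (Cc.rel (ends (FNr r n Unit) r)) :=
    Cc.relHom (idp (FNr r n Unit) (cx r)) (ends (FNr r n Unit) r) (BFam.bU r (FT r n))
      fun _ hz => cx_base hz
  have hF : ∀ u : (Cc.rel (bs r)).C,
      F.f ((Cc.relHom (famB r n).MX (BFam.bU r (FT r n)) (ptS (∞ : T0.Sph r))
        fun u hu => (famB r n).MX_bU u hu).f u) = (evRel (gB r n)).f u := by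
    intro u
    refine Cc.rel_ext ?_
    exact congrArg (fun m => Cc.pull m (Cc.val u)) (MX_famB r n)
  refine ⟨F.f D2.e, Cc.IsDeg.pull (u := Cc.val D2.e) h3 _, ?_, ?_⟩
  · rw [← F.f_d, D2.d_e, h1]
    exact hF D.b
  · have hval : D.sqv (gB r n) (F.f D2.e) = F.f D2.val := by
      show (Cc.rel (ends (FNr r n Unit) r)).q i (F.f D2.e) + (evRel (gB r n)).f D.c =
        F.f ((Cc.rel (BFam.bU r (FT r n))).q i D2.e + _)
      rw [map_add, F.f_q, h2]
      congr 1
      exact (hF D.c).symm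
    rw [hval]
    have h5 : (Cc.rel (ends (FNr r n Unit) r)).Coh (F.f D2.val) (F.f D1.val) := h4.map F
    refine CupC.Coh.trans ?_ (ι.coh h5).symm
    obtain ⟨β, hβ, -, hβ'⟩ := cx_class hr0 D.b_deg db (Cc.vn_val D.b) hne
    obtain ⟨γ, hγ, hγ'⟩ := asmn_KK_sphere (l := boxLab) (n := n) hn (r := r) (j := i + 1)
      (by omega) hβ
    have h6 : Cc.val (F.f D1.val) = Cc.pull (timesN (lbB r n) r)
        (Cc.pull (asmn boxLab (SN.base r) n)
          (KK boxLab (SN.base r) (i + 1) 0 (sC r + Cc.d β))) := by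
      rw [← hβ', ← asmn_KK_nat' (l := boxLab) n (cx r) (A := SN.base r)
        (A' := ptS (∞ : T0.Sph r)) (fun _ _ h => cx_base h) (i + 1) 0 hbA]
      have hq : D1.val = (Cc.relHom ((famB r n).aT 1) (BFam.bU r (FT r n))
          (Gam.base boxLab (ptS (∞ : T0.Sph r))) fun u hu => (famB r n).aT_bU 1 u hu).f
            D1.c := by
        show (Cc.rel (BFam.bU r (FT r n))).q i 0 + _ = _
        rw [CupC.q_zero, zero_add]
      rw [hq]
      have hA : Cc.pull ((famB r n).aT 1) (hat boxLab (ptS (∞ : T0.Sph r)) (Cc.val D.c) +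
          KK boxLab (ptS ∞) (i + 1) 0 (Cc.val D.b)) =
          Cc.pull ((asmn boxLab (ptS (∞ : T0.Sph r)) n).comp
            (pid (lbB r n) (G2.sing (T0.Sph r)))) (KK boxLab (ptS ∞) (i + 1) 0 (Cc.val D.b)) := by
        rw [pull_add, hz hcA, zero_add, aT_one]
        rfl
      exact congrArg (Cc.pull (idp (FNr r n Unit) (cx r))) hA
    rw [h6]
    have h7 : Cc.pull (asmn boxLab (SN.base r) n)
        (KK boxLab (SN.base r) (i + 1) 0 (sC r + Cc.d β)) = sn r (tln boxLab n d) + Cc.d γ := by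
      have h8 : r - (i + 1) = d := by omega
      rw [h8] at hγ'
      rw [← hγ', add_comm (sn r _), add_assoc, cc_add_self, add_zero]
    rw [h7, ι.I_nat, ι.I_add, ι.I_sn, ι.I_d _ hγ]
    refine ⟨Cc.pull (lbB r n) (ι.I γ), ?_⟩
    show Cc.pull (lbB r n) (tln boxLab n d) + (Cc.pull (lbB r n) (tln boxLab n d) +
      Cc.pull (lbB r n) (Cc.d (ι.I γ))) = Cc.d (Cc.pull (lbB r n) (ι.I γ))
    rw [← add_assoc, cc_add_self, zero_add, pull_d]

end boxes

end Vale.Agent.P263.TJ
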