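import Vale.Agent.P263.TJ.JoinPlus
import Vale.Agent.P263.TJ.BoxVal

/-!
# P263, block EB: the class `w_d` on the boxes plus a fixed loop

* `famOm r n` : the family of the collapses of `n` boxes of stage `r`; `famOm_ss : = gB r n`.
* `isW_boxR` : `w_d` of `boxes # R` is the universal class of pairs of boxes, `R` of even degree.
* `par_const`, `par_of_joined`, `par_box` : the parity of `R` when `boxes # R` has degree zero.
-/

open Finset OnePoint Topology

namespace Vale.Agent.P263.TJ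

open Vale.Agent.P263.S Vale.Agent.P263.E Vale.Agent.P263.H83 Vale.Agent.P263.G2
  Vale.Agent.P263.T0

/-- the family of the collapses of `n` boxes -/
noncomputable def famOm (r n : ℕ) : (FT r n).Fam (Om r) where
  app {p} S := alphaOm r S.1 S.2.1
  nat f S := alphaOm_pull r S.1 S.2.1 f

theorem famOm_ss (r n : ℕ) : (famOm r n).ss = gB r n := rfl

theorem famOm_app (r n : ℕ) {p : ℕ} (S : (FT r n).obj p) :
    (famOm r n).app S = alphaOm r S.1 S.2.1 := rfl

/-- the boxes, followed by the fixed loop `R` -/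
noncomputable def gBR (r n : ℕ) (c : GB.Cut) (R : Om (r + 1)) :
    SS.Map (FNr (r + 1) n Unit) (G2.sing (Om (r + 1))) :=
  (plusF c (cF (FT (r + 1) n) R) (famOm (r + 1) n)).ss

theorem gBR_app (r n : ℕ) (c : GB.Cut) (R : Om (r + 1)) {p : ℕ}
    (S : (FNr (r + 1) n Unit).obj p) (t : G2.Dl p) :
    toC ((gBR r n c R).app S) t = GB.plus c R (alphaOm (r + 1) S.1 S.2.1 t) := rfl

/-- the fixed loop `R`, followed by the boxes -/
noncomputable def gRB (r n : ℕ) (c : GB.Cut) (R : Om (r + 1)) :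
    SS.Map (FNr (r + 1) n Unit) (G2.sing (Om (r + 1))) :=
  (plusF c (famOm (r + 1) n) (cF (FT (r + 1) n) R)).ss

theorem gRB_app (r n : ℕ) (c : GB.Cut) (R : Om (r + 1)) {p : ℕ}
    (S : (FNr (r + 1) n Unit).obj p) (t : G2.Dl p) :
    toC ((gRB r n c R).app S) t = GB.plus c (alphaOm (r + 1) S.1 S.2.1 t) R := rfl

section

variable {r n d i : ℕ} {ι : Intg (r + 1)} {D : BC d (r + 1) i} {K : Set (Sph (r + 1))}

/-- **The class `w_d` on the boxes plus a fixed loop of even degree.** -/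
theorem isW_boxR (ι : Intg (r + 1)) (D : BC d (r + 1) i) (hd : 0 < d) (hn : Even n)
    (hK : IsClosed K) (ho : ∞ ∉ K) (hb : Vn (missK K) (Cc.val D.b))
    (hc : Vn (missK K) (Cc.val D.c))
    (hne : ¬ ∃ a : Cc (G2.sing (Sph (r + 1))), Cc.d a = Cc.val D.b) (c : GB.Cut)
    {R : Om (r + 1)} (hR : par ι D (cF ptT R).ss = 0) :
    IsW ι D (gBR r n c R) (Cc.pull (lbB (r + 1) n) (tln boxLab n d)) :=
  IsW.plus_const hK ho hb hc hd c hR
    (isW_box (r + 1) n ι D hn hK ho hb hc hne : IsW ι D (famOm (r + 1) n).ss _)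

theorem isW_Rbox (ι : Intg (r + 1)) (D : BC d (r + 1) i) (hd : 0 < d) (hn : Even n)
    (hK : IsClosed K) (ho : ∞ ∉ K) (hb : Vn (missK K) (Cc.val D.b))
    (hc : Vn (missK K) (Cc.val D.c))
    (hne : ¬ ∃ a : Cc (G2.sing (Sph (r + 1))), Cc.d a = Cc.val D.b) (c : GB.Cut)
    {R : Om (r + 1)} (hR : par ι D (cF ptT R).ss = 0) :
    IsW ι D (gRB r n c R) (Cc.pull (lbB (r + 1) n) (tln boxLab n d)) :=
  IsW.const_plus hK ho hb hc hd c hR
    (isW_box (r + 1) n ι D hn hK ho hb hc hne : IsW ι D (famOm (r + 1) n).ss _)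

end

section par

variable {r d i : ℕ}

/-- the constant loop has parity zero -/
theorem par_const (ι : Intg r) (D : BC d r i) : par ι D (cF ptT (Om.const r)).ss = 0 := by
  have h1 : Cc.val ((evRel (cF ptT (Om.const r)).ss).f D.b) = 0 := by
    rw [val_evRel]
    funext p z
    exact Cc.vn_val D.b p _ fun t => rfl
  rw [par, h1]
  have h2 := ι.I_add (X := ptT.ss) 0 0
  rw [add_zero] at h2
  have h3 : ι.I (0 : Cc (ptT.ss.prod (SN r))) + ι.I (0 : Cc (ptT.ss.prod (SN r))) = 0 :=
    (Cc.cupC ptT.ss).two _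
  rw [h2]
  exact h3

/-- a vertex of a set of families -/
noncomputable def vxM {X : TSet} (x : X.obj 0) : SS.Map ptT.ss X.ss :=
  ⟨fun {p} _ => X.pull (ContinuousMap.const _ pt0) x, fun {p q} f _ => by
    show X.pull (ContinuousMap.const _ pt0) x =
      X.pull (dmap f) (X.pull (ContinuousMap.const _ pt0) x)
    rw [← X.pull_comp]
    rfl⟩

theorem vxM_ss {X : TSet} (x : X.obj 0) (f : X.Fam (Om r)) :
    f.ss.comp (vxM x) = (cF ptT (f.app x pt0)).ss := by
  apply SS.Map.ext
  intro p z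
  apply ContinuousMap.ext
  intro t
  exact f.nat_apply _ x t

/-- the parity at a vertex -/
theorem par_vx (ι : Intg r) (D : BC d r i) {X : TSet} (x : X.obj 0) (f : X.Fam (Om r)) :
    par ι D (cF ptT (f.app x pt0)).ss = Cc.pull (vxM x) (par ι D f.ss) := by
  rw [← vxM_ss, par_comp]

/-- if a family has parity zero then so have its loops -/
theorem par_vx_eq_zero {ι : Intg r} {D : BC d r i} {X : TSet} {f : X.Fam (Om r)}
    (h : par ι D f.ss = 0) (x : X.obj 0) : par ι D (cF ptT (f.app x pt0)).ss = 0 := by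
  rw [par_vx, h]
  rfl

/-- the collapse of an even number of boxes has parity zero -/
theorem par_box (ι : Intg r) (D : BC d r i) {n : ℕ} (hn : Even n) {K : Set (Sph r)}
    (hK : IsClosed K) (ho : ∞ ∉ K) (hb : Vn (missK K) (Cc.val D.b))
    (hc : Vn (missK K) (Cc.val D.c)) (hne : ¬ ∃ a : Cc (G2.sing (Sph r)), Cc.d a = Cc.val D.b) :
    par ι D (famOm r n).ss = 0 :=
  (isW_box r n ι D hn hK ho hb hc hne : IsW ι D (famOm r n).ss _).par_eq

end par

section par'

variable {r d i : ℕ} {ι : Intg (r + 1)} {D : BC d (r + 1) i} {O : Set (Sph (r + 1))}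

theorem par_plus_cF (hO : IsClosed O) (ho : ∞ ∉ O) (hb : Vn (missK O) (Cc.val D.b))
    (c : GB.Cut) (q p : Om (r + 1)) :
    par ι D (cF ptT (GB.plus c q p)).ss = par ι D (cF ptT p).ss + par ι D (cF ptT q).ss := by
  have h1 : (cF ptT (GB.plus c q p)).ss = (plusF c (cF ptT q) (cF ptT p)).ss := rfl
  rw [h1, par_plus hO ho hb]

/-- **The parity of `R`** when `q # R` is joined to the constant loop and `q` has parity zero. -/
theorem par_of_joined (hO : IsClosed O) (ho : ∞ ∉ O) (hb : Vn (missK O) (Cc.val D.b))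
    (c : GB.Cut) {q R : Om (r + 1)} (hq : par ι D (cF ptT q).ss = 0)
    (h : Joined (GB.plus c R q) (Om.const (r + 1))) : par ι D (cF ptT R).ss = 0 := by
  have h1 := par_joined ι D h
  rw [par_const, par_plus_cF hO ho hb, hq, zero_add] at h1
  exact h1

theorem par_of_joined' (hO : IsClosed O) (ho : ∞ ∉ O) (hb : Vn (missK O) (Cc.val D.b))
    (c : GB.Cut) {q R : Om (r + 1)} (hq : par ι D (cF ptT q).ss = 0)
    (h : Joined (GB.plus c q R) (Om.const (r + 1))) : par ι D (cF ptT R).ss = 0 := by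
  have h1 := par_joined ι D h
  rw [par_const, par_plus_cF hO ho hb, hq, add_zero] at h1
  exact h1

end par'

end Vale.Agent.P263.TJ
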