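import Vale.Agent.P263.TJ.Univ
import Vale.Agent.P263.TJ.BoxSq
import Vale.Agent.P263.TJ.SphCc
import Vale.Agent.P263.T0.Ball

/-!
# P263, block EB: reduced cochains which vanish on the simplices which miss the origin

The complement of the origin `o` of `Sph r` contracts to `∞`.  Hence a reduced cochain whose
coboundary vanishes on the simplices which miss `o` differs by the coboundary of a reduced cochain
from one which vanishes on them (`exists_miss`).  `exists_BC` : the data `BC d r i` with `b` not a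
coboundary and `b`, `c` vanishing on the simplices which miss `o`.
-/

open Finset OnePoint Topology Filter

namespace Vale.Agent.P263.TJ

open Vale.Agent.P263.S Vale.Agent.P263.E Vale.Agent.P263.H83 Vale.Agent.P263.G2
  Vale.Agent.P263.T0

/-- the origin of the sphere -/
def orig (r : ℕ) : Sph r := ((0 : Fin r → ℝ) : OnePoint (Fin r → ℝ))

theorem orig_ne (r : ℕ) : orig r ≠ ∞ := OnePoint.coe_ne_infty _

namespace Ctr

variable {r : ℕ}

/-- the contraction `(x, s) ↦ x / s` -/
noncomputable def F (z : Sph r × unitInterval) : Sph r :=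
  if (z.2 : ℝ) = 0 then ∞ else z.1.elim ∞ fun v => (((z.2 : ℝ)⁻¹ • v : Fin r → ℝ) : Sph r)

theorem F_zero (x : Sph r) : F (x, 0) = ∞ := if_pos rfl

theorem F_infty (s : unitInterval) : F ((∞ : Sph r), s) = ∞ := by
  unfold F
  split_ifs
  · rfl
  · rfl

theorem F_coe {s : unitInterval} (hs : (s : ℝ) ≠ 0) (v : Fin r → ℝ) :
    F ((v : Sph r), s) = (((s : ℝ)⁻¹ • v : Fin r → ℝ) : Sph r) := if_neg hs

theorem F_one (x : Sph r) : F (x, 1) = x := by
  induction x using OnePoint.rec with
  | infty => exact F_infty 1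
  | coe v =>
    rw [F_coe (by norm_num)]
    congr 1
    rw [show ((1 : unitInterval) : ℝ) = 1 from rfl, inv_one, one_smul]

theorem F_ne {x : Sph r} (hx : x ≠ orig r) (s : unitInterval) : F (x, s) ≠ orig r := by
  induction x using OnePoint.rec with
  | infty => rw [F_infty]; exact (orig_ne r).symm
  | coe v =>
    by_cases hs : (s : ℝ) = 0
    · have : F ((v : Sph r), s) = ∞ := if_pos hs
      rw [this]; exact (orig_ne r).symm
    · rw [F_coe hs]
      intro h
      have h1 : (s : ℝ)⁻¹ • v = 0 := OnePoint.coe_injective h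
      rw [smul_eq_zero] at h1
      rcases h1 with h1 | h1
      · exact hs (inv_eq_zero.1 h1)
      · exact hx (by rw [h1]; rfl)

theorem rho_F (x : Sph r) (s : unitInterval) (hx : x ≠ orig r) :
    Ball.rho (F (x, s)) = Ball.rho x * s / (Ball.rho x * s + (1 - Ball.rho x)) := by
  induction x using OnePoint.rec with
  | infty =>
    rw [F_infty]
    show (0 : ℝ) = 0 * _ / _
    rw [zero_mul, zero_div]
  | coe v =>
    by_cases hs : (s : ℝ) = 0
    · have h : F ((v : Sph r), s) = ∞ := if_pos hs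
      rw [h, hs, mul_zero, zero_div]
      rfl
    · have hv : v ≠ 0 := fun h => hx (by rw [h]; rfl)
      have h1 : 0 < ‖v‖ := norm_pos_iff.2 hv
      have h2 : (0 : ℝ) < s := lt_of_le_of_ne s.2.1 (Ne.symm hs)
      rw [F_coe hs, Ball.rho_coe, Ball.rho_coe, norm_smul, norm_inv, Real.norm_of_nonneg h2.le]
      obtain ⟨a, ha⟩ : ∃ a, a = ‖v‖ := ⟨_, rfl⟩
      obtain ⟨c, hc⟩ : ∃ c : ℝ, c = (s : ℝ) := ⟨_, rfl⟩
      rw [← ha] at h1 ⊢
      rw [← hc] at h2 ⊢
      have e1 : (1 + c⁻¹ * a)⁻¹ = c / (c + a) := by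
        have : 1 + c⁻¹ * a = (c + a) / c := by
          field_simp
        rw [this, inv_div]
      have e2 : 1 - (1 + a)⁻¹ = a / (1 + a) := by
        field_simp
        ring
      have e3 : (1 + a)⁻¹ * c = c / (1 + a) := by
        field_simp
      rw [e1, e2, e3, ← add_div, div_div_div_cancel_right₀ (by positivity)]

theorem rho_lt_one {x : Sph r} (hx : x ≠ orig r) : Ball.rho x < 1 := by
  induction x using OnePoint.rec with
  | infty => exact zero_lt_one
  | coe v =>
    have hv : v ≠ 0 := fun h => hx (by rw [h]; rfl)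
    have h1 : 0 < ‖v‖ := norm_pos_iff.2 hv
    rw [Ball.rho_coe]
    exact inv_lt_one_of_one_lt₀ (by linarith)

theorem continuousAt_F {x : Sph r} (hx : x ≠ orig r) (s : unitInterval) :
    ContinuousAt (F (r := r)) (x, s) := by
  by_cases hF : F (x, s) = ∞
  · rw [ContinuousAt, hF, Ball.tendsto_infty_iff]
    have h0 : Ball.rho (F (x, s)) = 0 := by rw [hF]; rfl
    have h1 : Tendsto (fun z : Sph r × unitInterval => Ball.rho z.1 * (z.2 : ℝ) /
        (Ball.rho z.1 * (z.2 : ℝ) + (1 - Ball.rho z.1))) (𝓝 (x, s)) (𝓝 0) := by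
      rw [← h0, rho_F x s hx]
      have hc : Continuous fun z : Sph r × unitInterval => Ball.rho z.1 :=
        Ball.continuous_rho.comp continuous_fst
      have hc2 : Continuous fun z : Sph r × unitInterval => (z.2 : ℝ) :=
        continuous_subtype_val.comp continuous_snd
      refine ContinuousAt.div (hc.mul hc2).continuousAt
        ((hc.mul hc2).add (continuous_const.sub hc)).continuousAt ?_
      have h2 := rho_lt_one hx
      have h3 := Ball.rho_nonneg x
      have h4 := s.2.1
      have h5 : 0 < Ball.rho x * (s : ℝ) + (1 - Ball.rho x) := by nlinarith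
      exact h5.ne'
    refine h1.congr' ?_
    have h6 : ∀ᶠ z : Sph r × unitInterval in 𝓝 (x, s), z.1 ≠ orig r :=
      (continuous_fst.continuousAt (x := (x, s))).eventually_ne hx
    filter_upwards [h6] with z hz
    exact (rho_F z.1 z.2 hz).symm
  · induction x using OnePoint.rec with
    | infty => exact absurd (F_infty s) hF
    | coe v =>
      have hs : (s : ℝ) ≠ 0 := fun h => hF (if_pos h)
      have he : IsOpenEmbedding (Prod.map ((↑) : (Fin r → ℝ) → Sph r)
          (id : unitInterval → unitInterval)) :=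
        OnePoint.isOpenEmbedding_coe.prodMap (IsOpenEmbedding.id (X := unitInterval))
      have h1 : ContinuousAt (F ∘ Prod.map ((↑) : (Fin r → ℝ) → Sph r)
          (id : unitInterval → unitInterval)) (v, s) := by
        have h2 : ContinuousAt (fun z : (Fin r → ℝ) × unitInterval =>
            (((z.2 : ℝ)⁻¹ • z.1 : Fin r → ℝ) : Sph r)) (v, s) := by
          refine OnePoint.continuous_coe.continuousAt.comp
            (f := fun z : (Fin r → ℝ) × unitInterval => ((z.2 : ℝ)⁻¹ • z.1 : Fin r → ℝ)) ?_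
          have hc1 : Continuous fun z : (Fin r → ℝ) × unitInterval => (z.2 : ℝ) :=
            continuous_subtype_val.comp continuous_snd
          have hc2 : ContinuousAt (fun z : (Fin r → ℝ) × unitInterval => (z.2 : ℝ)⁻¹) (v, s) :=
            hc1.continuousAt.inv₀ hs
          exact hc2.smul (continuous_fst (X := Fin r → ℝ) (Y := unitInterval)).continuousAt
        refine h2.congr ?_
        have h3 : ∀ᶠ z : (Fin r → ℝ) × unitInterval in 𝓝 (v, s), (z.2 : ℝ) ≠ 0 :=
          ((continuous_subtype_val.comp continuous_snd).continuousAt (x := (v, s))).eventually_ne hs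
        filter_upwards [h3] with z hz
        exact (F_coe hz z.1).symm
      exact (he.continuousAt_iff (x := (v, s))).1 h1

/-- the complement of the origin -/
abbrev Y (r : ℕ) : Type := {x : Sph r // x ≠ orig r}

/-- the contraction of the complement of the origin -/
noncomputable def H (r : ℕ) : C(Y r × unitInterval, Y r) where
  toFun z := ⟨F (z.1.1, z.2), F_ne z.1.2 z.2⟩
  continuous_toFun := by
    refine Continuous.subtype_mk ?_ _
    rw [continuous_iff_continuousAt]
    intro z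
    exact (continuousAt_F z.1.2 z.2).comp (f := fun z : Y r × unitInterval => (z.1.1, z.2))
      ((continuous_subtype_val.comp continuous_fst).prodMk continuous_snd).continuousAt

/-- the inclusion -/
noncomputable def inc (r : ℕ) : C(Y r, Sph r) := ⟨Subtype.val, continuous_subtype_val⟩

/-- a simplex which misses the origin as a simplex of the complement -/
noncomputable def lft {p : ℕ} (σ : C(Dl p, Sph r)) (h : ∀ t, σ t ≠ orig r) : C(Dl p, Y r) :=
  ⟨fun t => ⟨σ t, h t⟩, Continuous.subtype_mk σ.continuous _⟩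

end Ctr

open Ctr

/-- extension by zero from the complement of the origin -/
noncomputable def ext0 {r : ℕ} (β : Cc (sing (Y r))) : Cc (sing (Sph r)) := fun p σ => by
  classical
  exact if h : ∀ t, toC (p := p) σ t ≠ orig r then β p (ofC (lft (toC σ) h)) else 0

theorem ext0_of {r : ℕ} (β : Cc (sing (Y r))) {p : ℕ} (σ : (sing (Sph r)).obj p)
    (h : ∀ t, toC (p := p) σ t ≠ orig r) : ext0 β p σ = β p (ofC (lft (toC σ) h)) := dif_pos h

theorem pull_ext0 {r : ℕ} (β : Cc (sing (Y r))) : Cc.pull (singMap (inc r)) (ext0 β) = β := by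
  funext p σ
  have h : ∀ t, toC (p := p) ((singMap (inc r)).app σ) t ≠ orig r := fun t => (toC σ t).2
  exact ext0_of β _ h

/-- **Reduced cochains and the simplices which miss the origin.** -/
theorem exists_miss {r : ℕ} {w : Cc (sing (Sph r))} (hw : Vn (bs r) w)
    (hd : Vn (missS (orig r)) (Cc.d w)) :
    ∃ β : Cc (sing (Sph r)), Vn (bs r) β ∧ Vn (missS (orig r)) (w + Cc.d β) := by
  obtain ⟨u, hu⟩ : ∃ u, u = Cc.pull (singMap (inc r)) w := ⟨_, rfl⟩
  have hdu : Cc.d u = 0 := by
    rw [hu, ← pull_d]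
    funext p σ
    exact hd p _ fun t => (toC σ t).2
  have h1 := htp_d (singHtp (H r)) u
  have e0 : Cc.pull (singHtp (H r)).e0 u = 0 := by
    funext p σ
    rw [hu]
    refine hw p _ fun t => ?_
    show F ((toC σ t).1, chiI (c0 p) t) = ∞
    rw [chiI_c0]
    exact F_zero _
  have e1 : Cc.pull (singHtp (H r)).e1 u = u := by
    have h2 : (singHtp (H r)).e1 = singMap (ContinuousMap.id (Y r)) :=
      singHtp_e1 (H r) _ fun x => Subtype.ext (F_one x.1)
    rw [h2]
    rfl
  rw [hdu, htp_zero, e0, e1, add_zero] at h1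
  have h3 : u = Cc.d (htp (singHtp (H r)) u) := by
    have h4 : Cc.d (htp (singHtp (H r)) u) + u + u = u := by rw [← h1, zero_add]
    have h5 : u + u = 0 := (Cc.cupC _).two u
    rw [add_assoc, h5, add_zero] at h4
    exact h4.symm
  refine ⟨ext0 (htp (singHtp (H r)) u), ?_, ?_⟩
  · intro p σ hσ
    have hm : ∀ t, toC (p := p) σ t ≠ orig r := fun t => by rw [hσ t]; exact (orig_ne r).symm
    rw [ext0_of _ σ hm]
    refine sum_eq_zero fun i _ => ?_
    rw [hu]
    refine hw (p + 1) _ fun t => ?_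
    show F ((toC σ (dmap (sg p i) t)), chiI (th (p + 1) (i + 1)) t) = ∞
    rw [hσ]
    exact F_infty _
  · intro p σ hσ
    have h4 : Cc.pull (singMap (inc r)) (w + Cc.d (ext0 (htp (singHtp (H r)) u))) = 0 := by
      rw [pull_add, pull_d, pull_ext0, ← h3, hu]
      exact (Cc.cupC _).two _
    exact congrFun (congrFun h4 p) (ofC (lft (toC σ) hσ))

/-- the same in a fixed degree -/
theorem exists_miss_deg {r k : ℕ} {w : Cc (sing (Sph r))} (hw : Vn (bs r) w)
    (hd : Vn (missS (orig r)) (Cc.d w)) (hk : Cc.IsDeg (k + 1) w) :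
    ∃ β : Cc (sing (Sph r)), Vn (bs r) β ∧ Cc.IsDeg k β ∧
      Vn (missS (orig r)) (w + Cc.d β) := by
  obtain ⟨β, h1, h2⟩ := exists_miss hw hd
  refine ⟨Cc.comp k β, Cc.vn_comp h1 k, Cc.isDeg_comp k β, ?_⟩
  have h3 : w + Cc.d (Cc.comp k β) = Cc.comp (k + 1) (w + Cc.d β) := by
    rw [Cc.comp_add, Cc.comp_d, Cc.comp_eq hk]
  rw [h3]
  exact Cc.vn_comp h2 (k + 1)

/-- **The data `BC` exist**, with `b` not a coboundary and `b`, `c` vanishing on the simplices
which miss the origin. -/
theorem exists_BC {d r i : ℕ} (h : i + d + 1 = r) :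
    ∃ D : BC d r i, Vn (missS (orig r)) (Cc.val D.b) ∧ Vn (missS (orig r)) (Cc.val D.c) ∧
      ¬ (Cc.rel (bs r)).Coh D.b 0 := by
  have hr : 0 < r := by omega
  obtain ⟨z, hz, hdz, hz1⟩ := SphCc.rel_exists_fund hr
  have hdz' : Cc.d (Cc.val z) = 0 := congrArg Cc.val hdz
  obtain ⟨k, rfl⟩ : ∃ k, r = k + 1 := ⟨r - 1, by omega⟩
  obtain ⟨β, hβ, hβd, hb⟩ := exists_miss_deg (Cc.vn_val z) (by rw [hdz']; exact Vn.zero) hz
  obtain ⟨b, hbdef⟩ : ∃ b : (Cc.rel (bs (k + 1))).C, b = z + (Cc.rel (bs (k + 1))).d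
    (Cc.mkRel _ β hβ) := ⟨_, rfl⟩
  have hbv : Cc.val b = Cc.val z + Cc.d β := by rw [hbdef]; rfl
  have hbm : Vn (missS (orig (k + 1))) (Cc.val b) := by rw [hbv]; exact hb
  have hbd : Cc.IsDeg (k + 1) (Cc.val b) := by rw [hbv]; exact hz.add hβd.d
  have hdb : (Cc.rel (bs (k + 1))).d b = 0 := by
    rw [hbdef, map_add, hdz, (Cc.rel (bs (k + 1))).d_d, add_zero]
  have hbn : ¬ (Cc.rel (bs (k + 1))).Coh b 0 := by
    intro hc
    have h1 : (Cc.rel (bs (k + 1))).Coh z 0 := by
      have h2 : (Cc.rel (bs (k + 1))).Coh z b :=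
        ⟨Cc.mkRel _ β hβ, by rw [hbdef, ← add_assoc, (Cc.rel (bs (k + 1))).two, zero_add]⟩
      exact h2.trans hc
    rw [SphCc.rel_coh_iff hr hz hdz, hz1] at h1
    exact one_ne_zero h1
  have hu0 : Cc.IsDeg (d + (k + 1) + 1) (Cc.cup (i + 1) (Cc.val b) (Cc.val b)) :=
    Cc.IsDeg.cup hbd hbd (by omega)
  have hu : Cc.IsDeg (d + (k + 1) + 1) (Cc.val ((Cc.rel (bs (k + 1))).cup (i + 1) b b)) := hu0
  have hdu : (Cc.rel (bs (k + 1))).d ((Cc.rel (bs (k + 1))).cup (i + 1) b b) = 0 := by
    rw [(Cc.rel (bs (k + 1))).d_cup, hdb]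
    simp only [map_zero, AddMonoidHom.zero_apply, zero_add]
    exact (Cc.rel (bs (k + 1))).two _
  obtain ⟨w0, hw0⟩ := CupC.Gr.Van.exists (Cc.relGr (bs (k + 1)))
    (SphCc.rel_van hr (n := d + (k + 1) + 1) (by omega)) hu hdu
  obtain ⟨c0, hc0, hc0'⟩ := (Cc.relGr (bs (k + 1))).exists_of_d (n := d + (k + 1)) hu hw0
  have hc0d : Cc.d (Cc.val c0) = Cc.cup (i + 1) (Cc.val b) (Cc.val b) :=
    (congrArg Cc.val hc0').symm
  have hdk : d + (k + 1) = (d + k) + 1 := by omega
  have hc0deg : Cc.IsDeg (d + k + 1) (Cc.val c0) := hc0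
  obtain ⟨γ, hγ, hγd, hc⟩ := exists_miss_deg (Cc.vn_val c0)
    (by rw [hc0d]; exact Vn.cup_left (i + 1) hbm _) hc0deg
  refine ⟨⟨b, c0 + (Cc.rel (bs (k + 1))).d (Cc.mkRel _ γ hγ), h, hbd, ?_, hdb, ?_⟩, hbm, hc, hbn⟩
  · exact Cc.IsDeg.add (n := d + k + 1) hc0deg hγd.d
  · rw [map_add, (Cc.rel (bs (k + 1))).d_d, add_zero, hc0']

end Vale.Agent.P263.TJ
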