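import Vale.Agent.P263.TJ.HopfW
import Vale.Agent.P263.TJ.JoinBox
import Vale.Agent.P263.TJ.Miss
import Vale.Agent.P263.GB.ToConn

/-!
# P263, block EB: Hopf invariant one from a chain of loops

* `evc u z` : the value of a cochain on a chain; `evc_d`, `evc_pull`.
* `IsW.hopfOne_of_chain` : let `f : E → sing (Om r)` be a family of loops with universal class `w`
  and let `ξ` be a cycle of `E` such that `f_* ξ` is homologous to the fundamental cycle of the
  family `A : Sᵈ → Ωʳ Sʳ`.  If `w` is not zero on `ξ`, then the adjoint of `A` has Hopf invariant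
  one.
* `hopfOne_of_box_chain` : the same for the families of boxes plus a fixed loop.
-/

open Finset OnePoint Topology

namespace Vale.Agent.P263.TJ

open Vale.Agent.P263.S Vale.Agent.P263.E Vale.Agent.P263.H83 Vale.Agent.P263.G2
  Vale.Agent.P263.T0 Vale.Agent.P263.GB

/-! ### values on chains -/

section evc

variable {X Y : SS}

/-- the value of a cochain on a chain -/
noncomputable def evc (u : Cc X) {p : ℕ} : Chn (ZMod 2) X p →ₗ[ZMod 2] ZMod 2 :=
  G2.ev (show (SS.F (ZMod 2) X).obj p from u p)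

@[simp] theorem evc_single (u : Cc X) {p : ℕ} (x : X.obj p) (a : ZMod 2) :
    evc u (Finsupp.single x a) = a * u p x := G2.ev_single _ x a

theorem evc_add (u v : Cc X) {p : ℕ} (z : Chn (ZMod 2) X p) :
    evc (u + v) z = evc u z + evc v z := G2.ev_add _ _ z

theorem evc_zero {p : ℕ} (z : Chn (ZMod 2) X p) : evc (0 : Cc X) z = 0 := G2.ev_zero z

theorem evc_d (u : Cc X) {p : ℕ} (z : Chn (ZMod 2) X (p + 1)) :
    evc (Cc.d u) z = evc u (cb (ZMod 2) X p z) := by
  have h : (show (SS.F (ZMod 2) X).obj (p + 1) from Cc.d u (p + 1)) =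
      (SS.F (ZMod 2) X).d p (u p) := d_eq_F u p
  show G2.ev (show (SS.F (ZMod 2) X).obj (p + 1) from Cc.d u (p + 1)) z = _
  rw [h]
  exact (G2.ev_cb (show (SS.F (ZMod 2) X).obj p from u p) z).symm

theorem evc_pull (f : SS.Map X Y) (u : Cc Y) {p : ℕ} (z : Chn (ZMod 2) X p) :
    evc (Cc.pull f u) z = evc u (push (ZMod 2) f p z) :=
  (G2.ev_push f (show (SS.F (ZMod 2) Y).obj p from u p) z).symm

/-- coboundaries vanish on cycles -/
theorem evc_d_cyc (u : Cc X) {p : ℕ} {z : Chn (ZMod 2) X p} (hz : IsCyc p z) :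
    evc (Cc.d u) z = 0 := by
  cases p with
  | zero =>
    have h : (show (SS.F (ZMod 2) X).obj 0 from Cc.d u 0) = 0 := by
      funext σ
      exact d_zero_apply u σ
    show G2.ev (show (SS.F (ZMod 2) X).obj 0 from Cc.d u 0) z = _
    rw [h]
    exact G2.ev_zero z
  | succ p =>
    rw [evc_d, isCyc_succ.1 hz, map_zero]

theorem evc_coh {u v : Cc X} (h : (Cc.cupC X).Coh u v) {p : ℕ} {z : Chn (ZMod 2) X p}
    (hz : IsCyc p z) : evc u z = evc v z := by
  obtain ⟨w, hw⟩ := h
  have h1 : u + v = Cc.d w := hw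
  have h2 : evc (u + v) z = 0 := by rw [h1, evc_d_cyc w hz]
  rw [evc_add] at h2
  exact CharTwo.add_eq_zero.1 h2

end evc

/-! ### the components on which a cocycle of degree zero vanishes -/

section even

variable {X : SS}

/-- the edge from `i` to `j` -/
def egO {p : ℕ} (i j : Fin (p + 1)) (h : i ≤ j) : Op 1 p where
  toFun x := if x = 0 then i else j
  monotone' x y hxy := by
    show (if x = 0 then i else j) ≤ (if y = 0 then i else j)
    by_cases hx : x = 0
    · rw [if_pos hx]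
      split_ifs
      · exact le_rfl
      · exact h
    · have hy : y ≠ 0 := fun hy => hx (le_antisymm (hy ▸ hxy) (Fin.zero_le _))
      rw [if_neg hx, if_neg hy]

theorem egO_comp_zero {p : ℕ} (i j : Fin (p + 1)) (h : i ≤ j) :
    (egO i j h).comp (dl 0 0) = vx p j := by
  ext x
  have hx : x = 0 := Fin.fin_one_eq_zero x
  subst hx
  show ((if dl 0 0 0 = 0 then i else j : Fin (p + 1)) : ℕ) = j
  rw [if_neg (by decide)]

theorem egO_comp_one {p : ℕ} (i j : Fin (p + 1)) (h : i ≤ j) :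
    (egO i j h).comp (dl 0 1) = vx p i := by
  ext x
  have hx : x = 0 := Fin.fin_one_eq_zero x
  subst hx
  show ((if dl 0 1 0 = 0 then i else j : Fin (p + 1)) : ℕ) = i
  rw [if_pos (by decide)]

theorem vertex_eq {u : Cc X} (hu : Cc.d u = 0) {p : ℕ} (x : X.obj p) (i j : Fin (p + 1)) :
    u 0 (X.map (vx p i) x) = u 0 (X.map (vx p j) x) := by
  have key : ∀ i j : Fin (p + 1), i ≤ j →
      u 0 (X.map (vx p i) x) = u 0 (X.map (vx p j) x) := by
    intro i j h
    have h1 : Cc.d u 1 (X.map (egO i j h) x) = 0 := by rw [hu]; rfl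
    rw [d_succ_apply, sum_range_succ, sum_range_one, ← X.map_comp, ← X.map_comp,
      egO_comp_zero, egO_comp_one] at h1
    exact (CharTwo.add_eq_zero.1 h1).symm
  rcases le_total i j with h | h
  · exact key i j h
  · exact (key j i h).symm

/-- the components on which a cocycle of degree zero vanishes -/
def zCl {u : Cc X} (hu : Cc.d u = 0) : GB.Cl X where
  P {p} x := u 0 (X.map (vx p 0) x) = 0
  iff {p q} f x := by
    have h1 : X.map (vx p 0) (X.map f x) = X.map (vx q (f 0)) x := by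
      rw [← X.map_comp]
      rfl
    rw [h1, vertex_eq hu x (f 0) 0]

theorem zCl_inc {u : Cc X} (hu : Cc.d u = 0) (hd : Cc.IsDeg 0 u) :
    Cc.pull (zCl hu).inc u = 0 := by
  refine Cc.IsDeg.ext (hd.pull _) (Cc.isDeg_zero 0) ?_
  funext x
  have h : u 0 (X.map (vx 0 0) ((zCl hu).inc.app x)) = 0 := (zCl hu).inc_P x
  have h1 : (vx 0 0 : Op 0 0) = OrderHom.id := by
    ext i
    rw [Fin.fin_one_eq_zero i]
    rfl
  rw [h1, X.map_id] at h
  exact h

/-- a map on which the cocycle vanishes has its values in the components -/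
def zMap {Y : SS} {u : Cc X} (hu : Cc.d u = 0) (f : SS.Map Y X) (h : Cc.pull f u = 0) :
    SS.Map Y (zCl hu).sub where
  app {p} y := (zCl hu).elt (f.app y) (by
    show u 0 (X.map (vx p 0) (f.app y)) = 0
    rw [← f.nat]
    exact congrFun (congrFun h 0) (Y.map (vx p 0) y))
  nat g y := Subtype.ext (f.nat g y)

theorem inc_zMap {Y : SS} {u : Cc X} (hu : Cc.d u = 0) (f : SS.Map Y X) (h : Cc.pull f u = 0) :
    (zCl hu).inc.comp (zMap hu f h) = f := rfl

end even

/-! ### the parity -/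

section par

variable {r d i : ℕ} (ι : Intg r) (D : BC d r i) {Y : SS}

/-- a based family over the sphere has parity zero -/
theorem par_sph (hd : 0 < d) {A : C(Sph d, Om r)} (hA : A ∞ = Om.const r) :
    par ι D (singMap A) = 0 := by
  refine Cc.IsDeg.ext (isDeg_par ι D _) (Cc.isDeg_zero 0) ?_
  funext x
  have h1 := SphCc.zero_const hd (d_par ι D (singMap A)) x
  refine h1.trans ?_
  have h2 : (singMap A).comp (vxM (X := TSet.sing (Sph d)) (SphCc.ct d 0)) =
      (cF ptT (Om.const r)).ss := by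
    apply SS.Map.ext
    intro p z
    apply ContinuousMap.ext
    intro t
    exact hA
  have h3 := par_comp ι D (singMap A) (vxM (X := TSet.sing (Sph d)) (SphCc.ct d 0))
  rw [h2, par_const] at h3
  exact (congrFun (congrFun h3 0) ()).symm

end par

/-! ### Hopf invariant one -/

section main

variable {r d i : ℕ}

/-- the fundamental cycle of the sphere -/
noncomputable def fcyc (d : ℕ) : Chn (ZMod 2) (G2.sing (Sph d)) d :=
  Finsupp.single (SphCc.sg d) 1 + Finsupp.single (SphCc.ct d d) 1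

theorem evc_fcyc (u : Cc (G2.sing (Sph d))) :
    evc u (fcyc d) = u d (SphCc.sg d) + u d (SphCc.ct d d) := by
  rw [fcyc, map_add, evc_single, evc_single, one_mul, one_mul]

/-- **Hopf invariant one from a chain of loops.** -/
theorem IsW.hopfOne_of_chain {D : BC d r i} (hd : 0 < d) {A : C(Sph d, Om r)}
    (hA : A ∞ = Om.const r) {E : SS} {f : SS.Map E (G2.sing (Om r))} {w : Cc E}
    (hw : IsW (intg r) D f w) {ξ : Chn (ZMod 2) E d} (hξ : IsCyc d ξ)
    (hη : IsBd (push (ZMod 2) f d ξ - push (ZMod 2) (singMap A) d (fcyc d)))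
    (hne : evc w ξ ≠ 0) : HopfOne (adjS A hA) := by
  obtain ⟨u, hu⟩ : ∃ u, u = par (intg r) D (SS.Map.id (G2.sing (Om r))) := ⟨_, rfl⟩
  have hdu : Cc.d u = 0 := by rw [hu]; exact d_par _ _ _
  have hdeg : Cc.IsDeg 0 u := by rw [hu]; exact isDeg_par _ _ _
  have hpar : ∀ {Y : SS} (g : SS.Map Y (G2.sing (Om r))),
      par (intg r) D g = Cc.pull g u := by
    intro Y g
    rw [hu, ← par_comp]
    rfl
  have hf : Cc.pull f u = 0 := by rw [← hpar]; exact hw.par_eq
  have hA0 : Cc.pull (singMap A) u = 0 := by rw [← hpar]; exact par_sph _ _ hd hA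
  obtain ⟨W, hW⟩ : ∃ W, IsW (intg r) D (zCl hdu).inc W :=
    isW_iff_par.2 (by rw [hpar]; exact zCl_inc hdu hdeg)
  have hWd := hW.d_eq
  -- the two families
  have h1 : (Cc.cupC E).Coh w (Cc.pull (zMap hdu f hf) W) := hw.coh (hW.pull (zMap hdu f hf))
  have h2 : IsW (intg r) D (singMap A) (Cc.pull (zMap hdu (singMap A) hA0) W) :=
    hW.pull (zMap hdu (singMap A) hA0)
  obtain ⟨η, hη⟩ := hη
  have h3 : cb (ZMod 2) _ d ((zCl hdu).pr (ZMod 2) (d + 1) η) =
      push (ZMod 2) (zMap hdu f hf) d ξ -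
        push (ZMod 2) (zMap hdu (singMap A) hA0) d (fcyc d) := by
    rw [GB.Cl.cb_pr, hη, map_sub]
    have e1 : push (ZMod 2) f d ξ =
        push (ZMod 2) (zCl hdu).inc d (push (ZMod 2) (zMap hdu f hf) d ξ) := by
      rw [← push_comp]
      rfl
    have e2 : push (ZMod 2) (singMap A) d (fcyc d) = push (ZMod 2) (zCl hdu).inc d
        (push (ZMod 2) (zMap hdu (singMap A) hA0) d (fcyc d)) := by
      rw [← push_comp]
      rfl
    rw [e1, e2, GB.Cl.pr_inc, GB.Cl.pr_inc]
  have h4 : evc W (push (ZMod 2) (zMap hdu f hf) d ξ) =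
      evc W (push (ZMod 2) (zMap hdu (singMap A) hA0) d (fcyc d)) := by
    have h5 : evc (Cc.d W) ((zCl hdu).pr (ZMod 2) (d + 1) η) = 0 := by rw [hWd, evc_zero]
    rw [evc_d, h3, map_sub] at h5
    exact sub_eq_zero.1 h5
  have h5 : evc (Cc.pull (zMap hdu (singMap A) hA0) W) (fcyc d) ≠ 0 := by
    rw [evc_pull, ← h4, ← evc_pull, ← evc_coh h1 hξ]
    exact hne
  refine h2.hopfOne hd A hA fun a ha => h5 ?_
  rw [ha, evc_fcyc]
  exact SphCc.d_sg hd a

/-- **Hopf invariant one from a chain of boxes plus a fixed loop.** -/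
theorem hopfOne_of_box_chain {n : ℕ} (hd : 0 < d) (hr : i + d = r) (hn : Even n) (c : GB.Cut)
    (R : Om (r + 1)) (S : (FNr (r + 1) n Unit).obj 0)
    (hJ : Joined (toC ((gBR r n c R).app S) pt0) (Om.const (r + 1)))
    {A : C(Sph d, Om (r + 1))} (hA : A ∞ = Om.const (r + 1))
    {ξ : Chn (ZMod 2) (FNr (r + 1) n Unit) d} (hξ : IsCyc d ξ)
    (hη : IsBd (push (ZMod 2) (gBR r n c R) d ξ - push (ZMod 2) (singMap A) d (fcyc d)))
    (hne : evc (Cc.pull (lbB (r + 1) n) (tln boxLab n d)) ξ ≠ 0) : HopfOne (adjS A hA) := by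
  obtain ⟨D, hb, hc, hD⟩ := exists_BC (d := d) (r := r + 1) (i := i) (by omega)
  have hK : IsClosed ({orig (r + 1)} : Set (Sph (r + 1))) := isClosed_singleton
  have ho : (∞ : Sph (r + 1)) ∉ ({orig (r + 1)} : Set (Sph (r + 1))) := by
    intro h
    exact OnePoint.infty_ne_coe _ (Set.mem_singleton_iff.1 h)
  have hb' : Vn (missK {orig (r + 1)}) (Cc.val D.b) := fun p σ hσ => hb p σ fun t ht => hσ t ht
  have hc' : Vn (missK {orig (r + 1)}) (Cc.val D.c) := fun p σ hσ => hc p σ fun t ht => hσ t ht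
  have hne' : ¬ ∃ a : Cc (G2.sing (Sph (r + 1))), Cc.d a = Cc.val D.b := by
    rintro ⟨a, ha⟩
    exact hD (SphCc.rel_coh_of_coh D.b_deg (coh_of_d ha.symm))
  have hq := par_vx_eq_zero (par_box (intg (r + 1)) D hn hK ho hb' hc' hne') S
  have hR := par_of_joined hK ho hb' c hq hJ
  exact (isW_boxR (intg (r + 1)) D hd hn hK ho hb' hc' hne' c hR).hopfOne_of_chain hd hA hξ hη hne

end main

end Vale.Agent.P263.TJ
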