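import Vale.Agent.P263.TJ.SqT
import Vale.Agent.P263.TJ.CubeSph

/-!
# P263, block (JT): the cube in `T = (ℝᴷ × P)⁺` and in `Sᴷ`

* `muT K P : sing P × SN K → sing (OnePoint (ℝᴷ × P))`, `(x, τ) ↦ cx τ ∧ x`.
* `muT_lin` : on cocycles which vanish off `0 × P` it agrees, up to a relative coboundary, with the
  linear cube.
* `muT_b` : the restriction of `b` is `sn K x + d a`.
* `uhat K` : the extension of `uE K` to `sing (Sph K)`, `cx_uhat`.
-/

open Finset OnePoint Topology
open Vale.Agent.P251.G (LC)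

namespace Vale.Agent.P263.TJ

open Vale.Agent.P263.S Vale.Agent.P263.E Vale.Agent.P263.H83 Vale.Agent.P263.G2
  Vale.Agent.P263.T0

/-! ### the homotopy of the interval -/

/-- the homotopy from the identity of `I` to `s ↦ loopI (2s - 1)` -/
noncomputable def hI : C(unitInterval × unitInterval, unitInterval) where
  toFun z := ⟨(1 - z.2.1) * z.1.1 + z.2.1 * GB.loopI (2 * z.1.1 - 1), by
    have h1 := z.1.2.1
    have h2 := z.2.2.1
    have h3 := z.2.2.2
    have h4 := (GB.loopI_pos (2 * z.1.1 - 1)).le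
    have h5 : 0 ≤ 1 - z.2.1 := by linarith
    positivity, by
    have h1 := z.1.2.2
    have h2 := z.2.2.1
    have h3 := z.2.2.2
    have h4 := (GB.loopI_lt_one (2 * z.1.1 - 1)).le
    nlinarith⟩
  continuous_toFun := by
    refine Continuous.subtype_mk ?_ _
    have h1 : Continuous fun z : unitInterval × unitInterval => z.1.1 :=
      continuous_subtype_val.comp continuous_fst
    have h2 : Continuous fun z : unitInterval × unitInterval => z.2.1 :=
      continuous_subtype_val.comp continuous_snd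
    exact ((continuous_const.sub h2).mul h1).add
      (h2.mul (GB.continuous_loopI.comp ((continuous_const.mul h1).sub continuous_const)))

theorem hI_zero (s : unitInterval) : hI (s, 0) = s := by
  apply Subtype.ext
  show (1 - (0 : ℝ)) * s.1 + 0 * _ = s.1
  ring

theorem loopU_hI_one (s : unitInterval) :
    GB.loopU (hI (s, 1)) = ((2 * s.1 - 1 : ℝ) : OnePoint ℝ) := by
  have h : (hI (s, 1)).1 = GB.loopI (2 * s.1 - 1) := by
    show (1 - (1 : ℝ)) * s.1 + 1 * _ = _
    ring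
  show GB.loopE (hI (s, 1)).1 = _
  rw [h, GB.loopE_loopI]

theorem loopE_zero_iff {u : ℝ} (h : GB.loopE u = ((0 : ℝ) : OnePoint ℝ)) : u = 1 / 2 := by
  obtain ⟨h0, h1⟩ := GB.loopE_ne_infty (u := u) (by rw [h]; exact OnePoint.coe_ne_infty _)
  have h2 := GB.loopI_tan h0 h1
  have h3 : Real.tan (Real.pi * (u - 1 / 2)) = 0 := by
    rw [GB.loopE, if_pos ⟨h0, h1⟩] at h
    exact OnePoint.coe_injective h
  rw [h3, GB.loopI, Real.arctan_zero, zero_div, zero_add] at h2
  exact h2.symm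

theorem hI_end_zero (χ : unitInterval) : GB.loopU (hI (0, χ)) ≠ ((0 : ℝ) : OnePoint ℝ) := by
  intro h
  have h1 := loopE_zero_iff h
  have h2 : (hI (0, χ)).1 = χ.1 * (1 / 4) := by
    show (1 - χ.1) * (0 : ℝ) + χ.1 * GB.loopI (2 * 0 - 1) = _
    rw [show (2 : ℝ) * 0 - 1 = -1 by norm_num, GB.loopI, Real.arctan_neg, Real.arctan_one]
    have := Real.pi_pos.ne'
    field_simp
    ring
  rw [h2] at h1
  have h3 := χ.2.2
  linarith

theorem hI_end_one (χ : unitInterval) : GB.loopU (hI (1, χ)) ≠ ((0 : ℝ) : OnePoint ℝ) := by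
  intro h
  have h1 := loopE_zero_iff h
  have h2 : (hI (1, χ)).1 = 1 - χ.1 * (1 / 4) := by
    show (1 - χ.1) * (1 : ℝ) + χ.1 * GB.loopI (2 * 1 - 1) = _
    rw [show (2 : ℝ) * 1 - 1 = 1 by norm_num, GB.loopI, Real.arctan_one]
    have := Real.pi_pos.ne'
    field_simp
    ring
  rw [h2] at h1
  have h3 := χ.2.2
  linarith

/-! ### the homotopy of the cube in the sphere -/

/-- the homotopy from `cxC τ` to the linear cube -/
noncomputable def cxHC {K p : ℕ} (τ : Fin K → Op p 1) (χ : Op p 1) : C(Dl p, Sph K) :=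
  ⟨fun t => tup fun k => GB.loopU (hI (chiI (τ k) t, chiI χ t)), continuous_tup.comp
    (continuous_pi fun k => GB.loopU.continuous.comp
      (hI.continuous.comp ((chiI (τ k)).continuous.prodMk (chiI χ).continuous)))⟩

theorem cxHC_comp {K p q : ℕ} (f : Op p q) (τ : Fin K → Op q 1) (χ : Op q 1) :
    cxHC (fun k => (τ k).comp f) (χ.comp f) = (cxHC τ χ).comp (dmap f) := by
  apply ContinuousMap.ext
  intro t
  show tup _ = tup _
  congr 1
  funext k
  rw [chiI_comp, chiI_comp]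
  rfl

theorem cxHC_zero {K p : ℕ} (τ : Fin K → Op p 1) : cxHC τ (c0 p) = cxC τ := by
  apply ContinuousMap.ext
  intro t
  show tup _ = tup _
  congr 1
  funext k
  rw [chiI_c0, hI_zero]

theorem cxHC_one {K p : ℕ} (τ : Fin K → Op p 1) (t : Dl p) :
    cxHC τ (c1 p) t = ((linC τ t : Fin K → ℝ) : Sph K) := by
  show tup _ = _
  rw [← tup_coe]
  congr 1
  funext k
  rw [chiI_c1, loopU_hI_one]
  rfl

/-- the coordinates of a finite value -/
theorem tup_eq_coe {K : ℕ} {v : Fin K → OnePoint ℝ} {x : Fin K → ℝ} (h : tup v = (x : Sph K))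
    (k : Fin K) : v k = (x k : OnePoint ℝ) := by
  have h1 : ∀ i, v i ≠ ∞ := tup_ne_infty.1 (by rw [h]; exact OnePoint.coe_ne_infty _)
  choose y hy using fun i => OnePoint.ne_infty_iff_exists.1 (h1 i)
  have h2 : v = fun i => (y i : OnePoint ℝ) := funext fun i => (hy i).symm
  rw [h2, tup_coe] at h
  have h3 : y = x := OnePoint.coe_injective h
  rw [h2, h3]

theorem cxHC_base {K p : ℕ} {τ : (SN K).obj p} (h : (SN.base K).mem τ) (χ : Op p 1) (t : Dl p) :
    cxHC τ χ t ≠ ((0 : Fin K → ℝ) : Sph K) := by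
  intro h0
  obtain ⟨k, h⟩ := h
  have h1 := tup_eq_coe h0 k
  rcases h with h | h
  · have h1' : GB.loopU (hI (chiI (τ k) t, chiI χ t)) = ((0 : ℝ) : OnePoint ℝ) := h1
    rw [h, chiI_c0] at h1'
    exact hI_end_zero _ h1'
  · have h1' : GB.loopU (hI (chiI (τ k) t, chiI χ t)) = ((0 : ℝ) : OnePoint ℝ) := h1
    rw [h, chiI_c1] at h1'
    exact hI_end_one _ h1'

/-- the homotopy of the cube in the sphere -/
noncomputable def cxHt (K : ℕ) : SS.Htp (SN K) (sing (Sph K)) :=
  ⟨fun _ χ τ => ofC (cxHC τ χ), fun f χ τ => cxHC_comp f τ χ⟩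

/-- the linear cube in the sphere -/
noncomputable def coeS (K : ℕ) : C(Fin K → ℝ, Sph K) :=
  ⟨fun z => (z : Sph K), OnePoint.continuous_coe⟩

theorem cxHt_e0 (K : ℕ) : (cxHt K).e0 = cx K := by
  apply SS.Map.ext
  intro p τ
  exact cxHC_zero τ

theorem cxHt_e1 (K : ℕ) : (cxHt K).e1 = (singMap (coeS K)).comp (lin K) := by
  apply SS.Map.ext
  intro p τ
  apply ContinuousMap.ext
  intro t
  exact cxHC_one τ t

theorem htp_isDeg {X Y : SS} (H : SS.Htp Y X) {m : ℕ} {w : Cc X} (hw : Cc.IsDeg (m + 1) w) :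
    Cc.IsDeg m (htp H w) := fun p hp y =>
  sum_eq_zero fun _ _ => hw (p + 1) (by omega) _

/-- a homotopy of maps of pairs, on cocycles -/
theorem htp_pair {X Y : SS} (H : SS.Htp Y X) {A : Sb Y} {B : Sb X}
    (h : ∀ {p : ℕ} (χ : Op p 1) (y : Y.obj p), A.mem y → B.mem (H.h p χ y)) {w : Cc X}
    (hw : Vn B w) : Vn A (htp H w) := fun p _ hy =>
  sum_eq_zero fun i _ => hw _ _ (h _ _ (A.map_mem (sg p i) hy))

theorem htp_coh {X Y : SS} (H : SS.Htp Y X) {w : Cc X} (hd : Cc.d w = 0) :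
    Cc.pull H.e0 w = Cc.pull H.e1 w + Cc.d (htp H w) := by
  have h := htp_d H w
  rw [hd, htp_zero] at h
  funext p y
  have h1 : (0 : ZMod 2) = Cc.d (htp H w) p y + Cc.pull H.e1 w p y + Cc.pull H.e0 w p y :=
    congrFun (congrFun h p) y
  show Cc.pull H.e0 w p y = Cc.pull H.e1 w p y + Cc.d (htp H w) p y
  have h2 : ∀ a b c : ZMod 2, 0 = a + b + c → c = b + a := by decide
  exact h2 _ _ _ h1

/-! ### the generator of the sphere -/

/-- the complement of the origin in the sphere -/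
def misS (K : ℕ) : Set (Sph K) := {z | z ≠ ((0 : Fin K → ℝ) : Sph K)}

theorem isOpen_misS (K : ℕ) : IsOpen (misS K) := isOpen_ne

/-- **the extension of `uE K` to the sphere** -/
theorem exists_uhat (K : ℕ) (hK : 0 < K) : ∃ u : Cc (sing (Sph K)),
    Cc.IsDeg K u ∧ Cc.d u = 0 ∧ Vn (inU (misS K)) u ∧ Cc.pull (singMap (coeS K)) u = uE K := by
  obtain ⟨u, h1, h2, h3⟩ := ext_over (j := coeS K) OnePoint.isOpenEmbedding_coe (isOpen_misS K)
    (fun y => by
      induction y using OnePoint.rec with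
      | infty => exact Or.inr (OnePoint.infty_ne_coe _)
      | coe z => exact Or.inl ⟨z, rfl⟩)
    (B := uE K) (fun p σ h => Vn_uE hK p _ fun t h0 => h t (congrArg _ h0)) d_zero (G := 0)
    Vn.zero (by rw [pull_zero, d_uE])
  refine ⟨Cc.hom K u, isDeg_hom _ _, ?_, h2.hom _, ?_⟩
  · rw [d_hom, h3]
    funext p σ
    rw [Cc.hom]
    split_ifs <;> rfl
  · rw [pull_hom, h1, hom_of_isDeg (isDeg_uE hK)]

/-- the generator of the sphere -/
noncomputable def uhat (K : ℕ) : Cc (sing (Sph K)) :=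
  if h : 0 < K then (exists_uhat K h).choose else 0

theorem uhat_spec {K : ℕ} (hK : 0 < K) : Cc.IsDeg K (uhat K) ∧ Cc.d (uhat K) = 0 ∧
    Vn (inU (misS K)) (uhat K) ∧ Cc.pull (singMap (coeS K)) (uhat K) = uE K := by
  rw [uhat, dif_pos hK]
  exact (exists_uhat K hK).choose_spec

/-- **on the cube the generator is the fundamental cochain** -/
theorem cx_uhat {K : ℕ} (hK : 0 < K) : ∃ a : Cc (SN K), Vn (SN.base K) a ∧
    Cc.IsDeg (K - 1) a ∧ Cc.pull (cx K) (uhat K) = sC K + Cc.d a := by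
  obtain ⟨h1, h2, h3, h4⟩ := uhat_spec hK
  obtain ⟨m, rfl⟩ : ∃ m, K = m + 1 := ⟨K - 1, by omega⟩
  refine ⟨Cc.pull (lin (m + 1)) (vE (m + 1)) + htp (cxHt (m + 1)) (uhat (m + 1)),
    (Vn_lin_vE hK).add ?_, ((vE_spec hK).1.pull _).add (htp_isDeg _ h1), ?_⟩
  · exact htp_pair _ (fun χ _ hy t => cxHC_base hy χ t) h3
  · have h5 := htp_coh (cxHt (m + 1)) h2
    rw [cxHt_e0, cxHt_e1] at h5
    have h6 : Cc.pull ((singMap (coeS (m + 1))).comp (lin (m + 1))) (uhat (m + 1)) =
        Cc.pull (lin (m + 1)) (uE (m + 1)) := by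
      rw [← h4]
      rfl
    rw [h5, h6, lin_uE, d_add, add_assoc]

/-- the fundamental cochain of the cube is not a relative coboundary -/
theorem sC_ne (K : ℕ) {β : Cc (SN K)} (hβ : Vn (SN.base K) β) : sC K ≠ Cc.d β := by
  intro h
  have h1 : Cc.pull (SS.snd SS.pt (SN K)) (sC K) = sn K (Cc.one SS.pt) := by
    rw [sn, pull_one, one_cup]
  have h2 : Vn (bdX SS.pt K) (Cc.pull (SS.snd SS.pt (SN K)) β) := hβ.pull _
  have h3 : Cc.one SS.pt = Cc.d (DstN K (Cc.pull (SS.snd SS.pt (SN K)) β)) := by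
    rw [← DstN_d h2, ← pull_d, ← h, h1, DstN_sn]
  have h4 : (Cc.one SS.pt) 0 () = 0 := by
    rw [h3]
    exact d_zero_apply _ _
  exact absurd (show (1 : ZMod 2) = 0 from h4) one_ne_zero

theorem Vn_bs_uhat {K : ℕ} (hK : 0 < K) : Vn (bs K) (uhat K) := fun p σ h =>
  (uhat_spec hK).2.2.1 p σ fun t => by
    have h1 : toC σ t = ∞ := h t
    show toC σ t ≠ _
    rw [h1]
    exact OnePoint.infty_ne_coe _

/-- it is not a coboundary -/
theorem uhat_ne {K : ℕ} (hK : 0 < K) : ¬ ∃ a : Cc (sing (Sph K)), Cc.d a = uhat K := by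
  intro hex
  obtain ⟨h1, h2, _, _⟩ := uhat_spec hK
  obtain ⟨β, h3, h4⟩ := cx_null hK h1 h2 (Vn_bs_uhat hK) hex
  obtain ⟨γ, h5, _, h7⟩ := cx_uhat hK
  refine sC_ne K (h3.add h5) ?_
  rw [d_add, ← h4, h7]
  funext p x
  show sC K p x = sC K p x + Cc.d γ p x + Cc.d γ p x
  rw [add_assoc, CharTwo.add_self_eq_zero, add_zero]

/-! ### the cube in the literal target -/

section T

variable (K : ℕ) (P : Type) [TopologicalSpace P] [CompactSpace P] [T2Space P]

/-- `Sᴷ × P → (ℝᴷ × P)⁺` -/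
noncomputable def smP : C(Sph K × P, OnePoint ((Fin K → ℝ) × P)) :=
  ⟨fun z => LC.smash z.1 ((z.2 : P) : OnePoint P), LC.continuous_smash.comp
    (continuous_fst.prodMk (OnePoint.continuous_coe.comp continuous_snd))⟩

variable {K P}

theorem smP_coe (z : Fin K → ℝ) (y : P) : smP K P ((z : Sph K), y) = coeT K P (z, y) := rfl

theorem smP_infty (y : P) : smP K P (∞, y) = ∞ := rfl

theorem smP_misT {z : Sph K} {y : P} (h : z ≠ ((0 : Fin K → ℝ) : Sph K)) :
    smP K P (z, y) ∈ misT K P := by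
  induction z using OnePoint.rec with
  | infty => exact fun p => OnePoint.infty_ne_coe _
  | coe z => exact coeT_misT.2 fun h0 => h (congrArg _ h0)

variable (K P)

/-- the homotopy from the cube to the linear cube in the target -/
noncomputable def muHt : SS.Htp ((sing P).prod (SN K)) (sing (OnePoint ((Fin K → ℝ) × P))) :=
  ⟨fun _ χ z => ofC ((smP K P).comp ((cxHC z.2 χ).prodMk (toC z.1))), fun f χ z => by
    apply ContinuousMap.ext
    intro t
    exact congrArg (smP K P) (Prod.ext (DFunLike.congr_fun (cxHC_comp f z.2 χ) t) rfl)⟩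

/-- **the cube in the target** -/
noncomputable def muT : SS.Map ((sing P).prod (SN K)) (sing (OnePoint ((Fin K → ℝ) × P))) :=
  ⟨fun z => ofC ((smP K P).comp ((cxC z.2).prodMk (toC z.1))), fun f z => by
    apply ContinuousMap.ext
    intro t
    exact congrArg (smP K P) (Prod.ext (DFunLike.congr_fun (cxC_comp f z.2) t) rfl)⟩

theorem muHt_e0 : (muHt K P).e0 = muT K P := by
  apply SS.Map.ext
  intro p z
  apply ContinuousMap.ext
  intro t
  exact congrArg (smP K P) (Prod.ext (DFunLike.congr_fun (cxHC_zero z.2) t) rfl)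

theorem muHt_e1 : (muHt K P).e1 = (singMap (coeT K P)).comp (linP K P) := by
  apply SS.Map.ext
  intro p z
  apply ContinuousMap.ext
  intro t
  exact congrArg (fun v : Sph K => smP K P (v, toC z.1 t)) (cxHC_one z.2 t)

theorem muHt_base {p : ℕ} (χ : Op p 1) {z : ((sing P).prod (SN K)).obj p}
    (h : (bdX (sing P) K).mem z) : (inU (misT K P)).mem ((muHt K P).h p χ z) := fun t =>
  smP_misT (cxHC_base (τ := z.2) h χ t)

theorem muT_base {p : ℕ} {z : ((sing P).prod (SN K)).obj p} (h : (bdX (sing P) K).mem z) :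
    ((inU (misT K P)).mem ((muT K P).app z)) := by
  rw [← muHt_e0]
  exact muHt_base K P (c0 p) h

theorem muT_infty {p : ℕ} {z : ((sing P).prod (SN K)).obj p} (h : (bdX (sing P) K).mem z)
    (t : Dl p) : toC ((muT K P).app z) t = ∞ :=
  congrArg (fun v : Sph K => smP K P (v, toC z.1 t)) (cxC_base (τ := z.2) h t)

variable {K P}

/-- the cube and the linear cube -/
theorem muT_lin {m : ℕ} {w : Cc (sing (OnePoint ((Fin K → ℝ) × P)))}
    (hm : Cc.IsDeg (m + 1) w) (hd : Cc.d w = 0) (hv : Vn (inU (misT K P)) w) :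
    ∃ a, Vn (bdX (sing P) K) a ∧ Cc.IsDeg m a ∧
      Cc.pull (muT K P) w = Cc.pull ((singMap (coeT K P)).comp (linP K P)) w + Cc.d a := by
  refine ⟨htp (muHt K P) w, htp_pair _ (fun χ _ h => muHt_base K P χ h) hv,
    htp_isDeg _ hm, ?_⟩
  rw [← muHt_e0, ← muHt_e1]
  exact htp_coh _ hd

/-- **the restriction of `b` to the cube** -/
theorem muT_b {q : ℕ} (hK : 0 < K) {x : Cc (sing P)} (hq : Cc.IsDeg q x) (hx : Cc.d x = 0)
    {b : Cc (sing (OnePoint ((Fin K → ℝ) × P)))} (hb : Cc.IsDeg (q + K) b)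
    (hd : Cc.d b = 0) (hv : Vn (inU (misT K P)) b)
    (hbU : Cc.pull (singMap (coeT K P)) b = bEP K x) :
    ∃ a, Vn (bdX (sing P) K) a ∧ Cc.IsDeg (q + K - 1) a ∧
      Cc.pull (muT K P) b = sn K x + Cc.d a := by
  obtain ⟨m, rfl⟩ : ∃ m, K = m + 1 := ⟨K - 1, by omega⟩
  obtain ⟨a, h1, h2, h3⟩ := muT_lin (m := q + m) hb hd hv
  refine ⟨Cc.pull (linP (m + 1) P) (a1P (m + 1) x) + a, (Vn_linP (Vn_a1P hK x)).add h1,
    Cc.IsDeg.add (Cc.IsDeg.pull ((hq.pull _).cup ((vE_spec hK).1.pull _) rfl) _) h2, ?_⟩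
  have h4 : Cc.pull ((singMap (coeT (m + 1) P)).comp (linP (m + 1) P)) b =
      Cc.pull (linP (m + 1) P) (bEP (m + 1) x) := by
    rw [← hbU]
    rfl
  rw [h3, h4, bEP_eq _ hx, pull_add, pull_d, linP_b0P, d_add, add_assoc]

/-- the simplices which are constant at infinity -/
def bsT (K : ℕ) (P : Type) [TopologicalSpace P] : Sb (sing (OnePoint ((Fin K → ℝ) × P))) where
  mem {p} σ := ∀ t : Dl p, toC σ t = ∞
  map_mem f _ h t := h (dmap f t)

/-- **reduced cocycles on the cube** -/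
theorem muT_red {m : ℕ} {w : Cc (sing (OnePoint ((Fin K → ℝ) × P)))} (hm : Cc.IsDeg (m + K) w)
    (hd : Cc.d w = 0) (hv : Vn (bsT K P) w) :
    ∃ (y : Cc (sing P)) (a : Cc ((sing P).prod (SN K))), Cc.IsDeg m y ∧ Cc.d y = 0 ∧
      Vn (bdX (sing P) K) a ∧ Cc.pull (muT K P) w = sn K y + Cc.d a := by
  have h1 : Vn (bdX (sing P) K) (Cc.pull (muT K P) w) := fun p z h =>
    hv p _ fun t => muT_infty K P h t
  have h2 : Cc.d (Cc.pull (muT K P) w) = 0 := by rw [← pull_d, hd, pull_zero]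
  obtain ⟨a, h3, h4⟩ := DstN_retract K h1 h2
  exact ⟨DstN K (Cc.pull (muT K P) w), a, isDeg_DstN (hm.pull _),
    by rw [← DstN_d h1, h2, DstN_zero], h3, h4⟩

end T

/-! ### reduction at a point -/

section red

/-- the cohomology of a point -/
theorem pt_vanC {m : ℕ} {a : Cc SS.pt} (ha : Cc.IsDeg (m + 1) a) (hd : Cc.d a = 0) :
    ∃ a' : Cc SS.pt, Cc.IsDeg m a' ∧ Cc.d a' = a := by
  have key : ∀ (u : Cc SS.pt) (p : ℕ), Cc.d u (p + 1) () = ((p + 2 : ℕ) : ZMod 2) * u p () := by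
    intro u p
    have h : Cc.d u (p + 1) () = ∑ _i ∈ range (p + 2), u p () := d_succ_apply u (σ := ())
    exact h.trans (by rw [sum_const, card_range, nsmul_eq_mul])
  by_cases hm : Even m
  · refine ⟨0, fun _ _ _ => rfl, ?_⟩
    rw [d_zero]
    have h0 : a (m + 1) () = 0 := by
      have h1 := key a (m + 1)
      rw [hd] at h1
      have h2 : ((m + 1 + 2 : ℕ) : ZMod 2) = 1 := by
        obtain ⟨k, rfl⟩ := hm
        push_cast
        have e := CharTwo.add_self_eq_zero (k : ZMod 2)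
        have e2 : (2 : ZMod 2) = 0 := rfl
        linear_combination e + e2
      rw [h2, one_mul] at h1
      exact h1.symm
    funext p x
    by_cases hp : p = m + 1
    · subst hp
      exact h0.symm
    · exact (ha p hp x).symm
  · refine ⟨Cc.single m fun _ => a (m + 1) (), Cc.isDeg_single _ _, ?_⟩
    refine Cc.IsDeg.ext (Cc.isDeg_single _ _).d ha ?_
    funext x
    refine (key _ m).trans ?_
    have h2 : ((m + 2 : ℕ) : ZMod 2) = 1 := by
      obtain ⟨k, rfl⟩ := Nat.not_even_iff_odd.1 hm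
      push_cast
      have e2 : (2 : ZMod 2) = 0 := rfl
      linear_combination (k + 1 : ZMod 2) * e2
    rw [h2, one_mul]
    exact Cc.single_self (X := SS.pt) m _ ()

variable {Y : Type} [TopologicalSpace Y]

/-- the simplices which are constant at `z` -/
def cstAt (z : Y) : Sb (sing Y) where
  mem {p} σ := ∀ t : Dl p, toC σ t = z
  map_mem f _ h t := h (dmap f t)

/-- a cocycle of positive degree can be made to vanish on the constant simplices at a point -/
theorem exists_red (z : Y) {m : ℕ} {y : Cc (sing Y)} (hy : Cc.IsDeg (m + 1) y)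
    (hd : Cc.d y = 0) : ∃ g : Cc (sing Y), Cc.IsDeg m g ∧ Vn (cstAt z) (y + Cc.d g) := by
  set i : SS.Map SS.pt (sing Y) := ⟨fun {p} _ => ofC (ContinuousMap.const (Dl p) z),
    fun _ _ => rfl⟩ with hi
  obtain ⟨a, h1, h2⟩ := pt_vanC (a := Cc.pull i y) (hy.pull i) (by rw [← pull_d, hd, pull_zero])
  refine ⟨Cc.pull (SS.toPt _) a, h1.pull _, ?_⟩
  intro p σ h
  rw [← pull_d, h2]
  have h3 : i.app (p := p) () = σ := ContinuousMap.ext fun t => (h t).symm
  show y p σ + y p (i.app ((SS.toPt (sing Y)).app σ)) = 0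
  have h4 : y p (i.app ((SS.toPt (sing Y)).app σ)) = y p σ := congrArg (y p) h3
  rw [h4]
  exact CharTwo.add_self_eq_zero _

end red

end Vale.Agent.P263.TJ
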