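import Vale.Agent.P263.TJ.SN
import Vale.Agent.P263.TJ.SCup
import Vale.Agent.P263.G2.Coll
import Vale.Agent.P263.G2.SingSS
import Vale.Agent.P263.T0.Adj
import Mathlib.Topology.Homeomorph.Lemmas

/-!
# P263, block EB: the cube and the literal spheres

* `cx n : SN n → sing (Sph n)` : the simplices of the cube, collapsed to the sphere.
* `bs n : Sb (sing (Sph n))` : the simplices which are constant at the base point.
* `ev r : sing (Om r) × SN r → sing (Sph r)` : the evaluation.
* `mu d r : sing (Sph d) × SN r → sing (Sph (d + r))` : the smash product.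
* `adjS A : C(Sph (d + r), Sph r)` : the adjoint of `A : Sph d → Om r`, and
  `adjS_mu : adjS A ∘ mu = ev ∘ (A × 1)`.
-/

open Finset OnePoint Topology
open Vale.Agent.P251.G (LC)

namespace Vale.Agent.P263.TJ

open Vale.Agent.P263.S Vale.Agent.P263.E Vale.Agent.P263.H83 Vale.Agent.P263.G2
  Vale.Agent.P263.T0

/-! ### the cube -/

/-- the simplex of the cube given by `τ`, collapsed to the sphere -/
noncomputable def cxC {n p : ℕ} (τ : Fin n → Op p 1) : C(Dl p, Sph n) :=
  ⟨fun t => tup fun i => GB.loopU (chiI (τ i) t), continuous_tup.comp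
    (continuous_pi fun i => GB.loopU.continuous.comp (chiI (τ i)).continuous)⟩

theorem cxC_apply {n p : ℕ} (τ : Fin n → Op p 1) (t : Dl p) :
    cxC τ t = tup fun i => GB.loopU (chiI (τ i) t) := rfl

theorem cxC_comp {n p q : ℕ} (f : Op p q) (τ : Fin n → Op q 1) :
    cxC (fun i => (τ i).comp f) = (cxC τ).comp (dmap f) := by
  apply ContinuousMap.ext
  intro t
  rw [ContinuousMap.comp_apply, cxC_apply, cxC_apply]
  congr 1
  funext i
  rw [chiI_comp]
  rfl

/-- the cube, collapsed to the sphere -/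
noncomputable def cx (n : ℕ) : SS.Map (SN n) (sing (Sph n)) :=
  ⟨fun τ => ofC (cxC τ), fun f τ => cxC_comp f τ⟩

theorem cxC_base {n p : ℕ} {τ : Fin n → Op p 1} (h : (SN.base n).mem τ) (t : Dl p) :
    cxC τ t = ∞ := by
  obtain ⟨i, h | h⟩ := h
  · refine tup_of_eq_infty (i := i) ?_
    rw [h, chiI_c0]
    exact GB.loopE_zero
  · refine tup_of_eq_infty (i := i) ?_
    rw [h, chiI_c1]
    exact GB.loopE_one

/-- the simplices which are constant at the base point -/
def bs (n : ℕ) : Sb (sing (Sph n)) where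
  mem {p} σ := ∀ t : Dl p, toC σ t = ∞
  map_mem f _ h t := h (dmap f t)

theorem cx_base {n p : ℕ} {τ : (SN n).obj p} (h : (SN.base n).mem τ) :
    (bs n).mem ((cx n).app τ) := fun t => cxC_base h t

/-- the product of a space with the boundary of the cube -/
abbrev ends (X : SS) (n : ℕ) : Sb (X.prod (SN n)) := (SN.base n).comap (SS.snd X (SN n))

/-! ### the evaluation -/

/-- the value of a family of maps at a family of points -/
def evC {r : ℕ} {T : Type} [TopologicalSpace T] (f : C(T, Om r)) (x : C(T, Sph r)) :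
    C(T, Sph r) :=
  ⟨fun t => f t (x t), (continuous_uncurry_Om f.continuous).comp
    (continuous_id.prodMk x.continuous)⟩

/-- the evaluation -/
noncomputable def ev (r : ℕ) : SS.Map ((sing (Om r)).prod (SN r)) (sing (Sph r)) :=
  ⟨fun z => ofC (evC (toC z.1) (cxC z.2)), fun f z => by
    apply ContinuousMap.ext
    intro t
    exact congrArg (toC z.1 (dmap f t)) (DFunLike.congr_fun (cxC_comp f z.2) t)⟩

theorem ev_app {r p : ℕ} (z : ((sing (Om r)).prod (SN r)).obj p) (t : Dl p) :
    toC ((ev r).app z) t = toC z.1 t (cxC z.2 t) := rfl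

theorem ev_base {r p : ℕ} {z : ((sing (Om r)).prod (SN r)).obj p}
    (h : (ends (sing (Om r)) r).mem z) : (bs r).mem ((ev r).app z) := by
  intro t
  exact (congrArg (toC z.1 t) (cxC_base h t)).trans (toC z.1 t).2

/-- the product of a map with the cube -/
def timesN {X Y : SS} (g : SS.Map X Y) (n : ℕ) : SS.Map (X.prod (SN n)) (Y.prod (SN n)) :=
  SS.pair (g.comp (SS.fst X (SN n))) (SS.snd X (SN n))

@[simp] theorem timesN_app {X Y : SS} (g : SS.Map X Y) (n : ℕ) {p : ℕ}
    (z : (X.prod (SN n)).obj p) : (timesN g n).app z = (g.app z.1, z.2) := rfl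

theorem timesN_ends {X Y : SS} (g : SS.Map X Y) (n : ℕ) {p : ℕ} {z : (X.prod (SN n)).obj p}
    (h : (ends X n).mem z) : (ends Y n).mem ((timesN g n).app z) := h

/-! ### the smash product -/

/-- `Sᵈ × Sʳ → S^(d+r)` -/
noncomputable def join2 {d r : ℕ} (x : Sph d) (y : Sph r) : Sph (d + r) :=
  (Fin.appendHomeomorph (X := ℝ) d r).onePointCongr (LC.smash x y)

theorem join2_infty_left {d r : ℕ} (y : Sph r) : join2 (∞ : Sph d) y = ∞ := by
  rw [join2, LC.smash_infty_left]
  rfl

theorem join2_infty_right {d r : ℕ} (x : Sph d) : join2 x (∞ : Sph r) = ∞ := by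
  rw [join2, LC.smash_infty_right]
  rfl

theorem join2_coe {d r : ℕ} (x : Fin d → ℝ) (y : Fin r → ℝ) :
    join2 (x : Sph d) (y : Sph r) = ((Fin.append x y : Fin (d + r) → ℝ) : Sph (d + r)) := rfl

theorem continuous_join2 {d r : ℕ} :
    Continuous fun z : Sph d × Sph r => join2 z.1 z.2 :=
  (Homeomorph.continuous _).comp LC.continuous_smash

/-- the smash product -/
noncomputable def mu (d r : ℕ) : SS.Map ((sing (Sph d)).prod (SN r)) (sing (Sph (d + r))) :=
  ⟨fun {p} z => ofC (⟨fun t : Dl p => join2 (toC z.1 t) (cxC z.2 t), continuous_join2.comp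
      ((toC z.1).continuous.prodMk (cxC z.2).continuous)⟩ : C(Dl p, Sph (d + r))), fun f z => by
    apply ContinuousMap.ext
    intro t
    exact congrArg (join2 (toC z.1 (dmap f t))) (DFunLike.congr_fun (cxC_comp f z.2) t)⟩

theorem mu_app {d r p : ℕ} (z : ((sing (Sph d)).prod (SN r)).obj p) (t : Dl p) :
    toC ((mu d r).app z) t = join2 (toC z.1 t) (cxC z.2 t) := rfl

theorem mu_base {d r p : ℕ} {z : ((sing (Sph d)).prod (SN r)).obj p}
    (h : (ends (sing (Sph d)) r).mem z) : (bs (d + r)).mem ((mu d r).app z) := by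
  intro t
  exact (congrArg (join2 (toC z.1 t)) (cxC_base h t)).trans (join2_infty_right _)

/-- the adjoint of a pointed map `Sᵈ → Ωʳ Sʳ` -/
noncomputable def adjS {d r : ℕ} (A : C(Sph d, Om r)) (hA : A ∞ = Om.const r) :
    C(Sph (d + r), Sph r) :=
  ⟨fun z => LC.app (adj (X := RR d) A hA)
      ((Fin.appendHomeomorph (X := ℝ) d r).onePointCongr.symm z),
    (LC.continuous_app (adj (X := RR d) A hA)).comp (Homeomorph.continuous _)⟩

theorem adjS_join2 {d r : ℕ} (A : C(Sph d, Om r)) (hA : A ∞ = Om.const r) (x : Sph d)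
    (y : Sph r) : adjS A hA (join2 x y) = A x y := by
  show LC.app (adj (X := RR d) A hA) ((Fin.appendHomeomorph (X := ℝ) d r).onePointCongr.symm
    ((Fin.appendHomeomorph (X := ℝ) d r).onePointCongr (LC.smash x y))) = _
  rw [Homeomorph.symm_apply_apply]
  exact app_adj_smash (X := RR d) A hA x y

theorem adjS_infty {d r : ℕ} (A : C(Sph d, Om r)) (hA : A ∞ = Om.const r) :
    adjS A hA ∞ = ∞ := by
  have h := adjS_join2 A hA ∞ ∞
  rw [join2_infty_left, hA] at h
  exact h

/-- `F ∘ mu = ev ∘ (A × 1)` -/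
theorem adjS_mu {d r : ℕ} (A : C(Sph d, Om r)) (hA : A ∞ = Om.const r) :
    (singMap (adjS A hA)).comp (mu d r) = (ev r).comp (timesN (singMap A) r) := by
  apply SS.Map.ext
  intro p z
  apply ContinuousMap.ext
  intro t
  exact adjS_join2 A hA (toC z.1 t) (cxC z.2 t)

end Vale.Agent.P263.TJ
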