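import Vale.Agent.P263.TJ.MuInj
import Vale.Agent.P263.TJ.SphCc
import Vale.Agent.P263.TJ.SqCc
import Vale.Agent.P263.E.ProdRange

/-!
# P263, block AD: the quotient of the cube by its boundary and the singular sphere

`quo A` : the quotient of `Y` by the sub simplicial set `A`. `cq b : quo (SN.base b) → sing (Sph b)`
induces isomorphisms in cohomology; with `SS.times_mapH_injective`: a relative cocycle of
`sing (Sph b) × X` which is a relative coboundary on `SN b × X` is a coboundary.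
-/

open Finset

namespace Vale.Agent.P263.TJ

open Vale.Agent.P263.S Vale.Agent.P263.E Vale.Agent.P263.H83 Vale.Agent.P263.G2
  Vale.Agent.P263.T0

variable {X Y Z : SS}

/-! ### the quotient by a sub simplicial set -/

open Classical in
/-- the class of a simplex -/
noncomputable def prO (A : Sb Y) {p : ℕ} (y : Y.obj p) : Option {y : Y.obj p // ¬ A.mem y} :=
  if h : A.mem y then none else some ⟨y, h⟩

theorem prO_pos {A : Sb Y} {p : ℕ} {y : Y.obj p} (h : A.mem y) : prO A y = none := dif_pos h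

theorem prO_neg {A : Sb Y} {p : ℕ} {y : Y.obj p} (h : ¬ A.mem y) : prO A y = some ⟨y, h⟩ :=
  dif_neg h

theorem prO_map {A : Sb Y} {p q : ℕ} (f : Op p q) (y : Y.obj q) :
    prO A (Y.map f y) = (prO A y).bind fun y => prO A (Y.map f y.1) := by
  by_cases h : A.mem y
  · rw [prO_pos h, prO_pos (A.map_mem f h)]
    rfl
  · rw [prO_neg h]
    rfl

/-- the quotient of `Y` by `A`; `none` is the class of `A` -/
noncomputable def quo (A : Sb Y) : SS where
  obj p := Option {y : Y.obj p // ¬ A.mem y}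
  map f x := x.bind fun y => prO A (Y.map f y.1)
  map_id x := by
    cases x with
    | none => rfl
    | some y =>
      simp only [Option.bind_some]
      rw [Y.map_id, prO_neg y.2]
  map_comp f g x := by
    cases x with
    | none => rfl
    | some y =>
      simp only [Option.bind_some]
      rw [Y.map_comp, prO_map]

namespace quo

variable {A : Sb Y}

/-- the base simplex -/
noncomputable def base (A : Sb Y) (p : ℕ) : (quo A).obj p := none

theorem map_base {p q : ℕ} (f : Op p q) : (quo A).map f (base A q) = base A p := rfl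

/-- the projection -/
noncomputable def pr (A : Sb Y) : SS.Map Y (quo A) where
  app y := prO A y
  nat f y := prO_map f y

theorem pr_of_mem {p : ℕ} {y : Y.obj p} (h : A.mem y) : (pr A).app y = base A p := prO_pos h

theorem pr_of_not {p : ℕ} {y : Y.obj p} (h : ¬ A.mem y) : (pr A).app y = some ⟨y, h⟩ := prO_neg h

/-- every simplex is the base simplex or in the image -/
theorem cases {p : ℕ} (x : (quo A).obj p) :
    x = base A p ∨ ∃ y : Y.obj p, ¬ A.mem y ∧ x = (pr A).app y := by
  cases x with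
  | none => exact Or.inl rfl
  | some y => exact Or.inr ⟨y.1, y.2, (pr_of_not y.2).symm⟩

/-- maps out of the quotient -/
noncomputable def lift (f : SS.Map Y Z) (z : ∀ p, Z.obj p)
    (hz : ∀ {p q : ℕ} (g : Op p q), Z.map g (z q) = z p)
    (hf : ∀ {p : ℕ} (y : Y.obj p), A.mem y → f.app y = z p) : SS.Map (quo A) Z where
  app {p} x := match x with
    | none => z p
    | some y => f.app y.1
  nat {p q} g x := by
    rcases cases x with rfl | ⟨y, hy, rfl⟩
    · exact (hz g).symm
    · rw [← (pr A).nat, pr_of_not hy]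
      by_cases h : A.mem (Y.map g y)
      · rw [pr_of_mem h]
        change z p = Z.map g (f.app y)
        rw [← f.nat, hf _ h]
      · rw [pr_of_not h]
        exact f.nat g y

theorem lift_pr (f : SS.Map Y Z) (z : ∀ p, Z.obj p)
    (hz : ∀ {p q : ℕ} (g : Op p q), Z.map g (z q) = z p)
    (hf : ∀ {p : ℕ} (y : Y.obj p), A.mem y → f.app y = z p) {p : ℕ} (y : Y.obj p) :
    (lift f z hz hf).app ((pr A).app y) = f.app y := by
  by_cases h : A.mem y
  · rw [pr_of_mem h, hf y h]
    rfl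
  · rw [pr_of_not h]
    rfl

theorem lift_base (f : SS.Map Y Z) (z : ∀ p, Z.obj p)
    (hz : ∀ {p q : ℕ} (g : Op p q), Z.map g (z q) = z p)
    (hf : ∀ {p : ℕ} (y : Y.obj p), A.mem y → f.app y = z p) {p : ℕ} :
    (lift f z hz hf).app (base A p) = z p := rfl

/-- the base simplices, times `X` -/
def bsX (A : Sb Y) (X : SS) : Sb ((quo A).prod X) where
  mem {p} x := x.1 = base A p
  map_mem f x h := by
    change (quo A).map f x.1 = _
    rw [h]
    rfl

/-- the projection, times `X` -/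
noncomputable def prX (A : Sb Y) (X : SS) : SS.Map (Y.prod X) ((quo A).prod X) :=
  SS.times (pr A) (SS.Map.id X)

/-- cochains on the quotient which vanish at the base simplices are determined by the
pull-back -/
theorem ext {u v : Cc ((quo A).prod X)} (hu : Vn (bsX A X) u) (hv : Vn (bsX A X) v)
    (h : Cc.pull (prX A X) u = Cc.pull (prX A X) v) : u = v := by
  funext p x
  obtain ⟨x1, x2⟩ := x
  rcases cases x1 with rfl | ⟨y, _, rfl⟩
  · rw [hu p (base A p, x2) rfl, hv p (base A p, x2) rfl]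
  · exact congrFun (congrFun h p) (y, x2)

/-- descent of relative cochains -/
noncomputable def desc (u : Cc (Y.prod X)) : Cc ((quo A).prod X) := fun p x => match x with
  | (none, _) => 0
  | (some y, x2) => u p (y.1, x2)

theorem desc_vn (u : Cc (Y.prod X)) : Vn (bsX A X) (desc (A := A) u) := by
  rintro p ⟨x1, x2⟩ h
  have h' : x1 = base A p := h
  subst h'
  rfl

theorem pull_desc {u : Cc (Y.prod X)} (hu : Vn (A.comap (SS.fst Y X)) u) :
    Cc.pull (prX A X) (desc u) = u := by
  funext p x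
  obtain ⟨y, x2⟩ := x
  change desc (A := A) u p ((pr A).app y, x2) = _
  by_cases h : A.mem y
  · rw [pr_of_mem h, hu p (y, x2) h]
    rfl
  · rw [pr_of_not h]
    rfl

theorem d_desc {u : Cc (Y.prod X)} (hu : Vn (A.comap (SS.fst Y X)) u) :
    Cc.d (desc (A := A) u) = desc (Cc.d u) := by
  refine ext (desc_vn u).d (desc_vn _) ?_
  rw [pull_d, pull_desc hu, pull_desc hu.d]

end quo

theorem ccadd_self (u : Cc Z) : u + u = 0 := by
  funext p x
  exact CharTwo.add_self_eq_zero _

/-! ### pointed simplicial sets -/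

section pointed

variable (z : ∀ p, Z.obj p) (hz : ∀ {p q : ℕ} (g : Op p q), Z.map g (z q) = z p)

include hz

theorem d_pt (u : Cc Z) (n : ℕ) : Cc.d u (n + 1) (z (n + 1)) = (n : ZMod 2) * u n (z n) := by
  rw [d_succ_apply]
  simp only [hz, sum_const, card_range, nsmul_eq_mul]
  have : ((n + 2 : ℕ) : ZMod 2) = (n : ZMod 2) := by
    rw [Nat.cast_add]
    have : ((2 : ℕ) : ZMod 2) = 0 := rfl
    rw [this, add_zero]
  rw [this]

/-- correction of a cochain by a coboundary -/
theorem exists_corr_pt {n : ℕ} {u : Cc Z} (hu : Cc.IsDeg (n + 1) u)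
    (hdu : ∀ p, Cc.d u p (z p) = 0) :
    ∃ v : Cc Z, Cc.IsDeg n v ∧ ∀ p, (u + Cc.d v : Cc Z) p (z p) = 0 := by
  classical
  let v : Cc Z := Cc.single n (fun _ => u (n + 1) (z (n + 1)))
  refine ⟨v, Cc.isDeg_single n _, fun p => ?_⟩
  change u p (z p) + Cc.d v p (z p) = 0
  by_cases hp : p = n + 1
  · subst hp
    rw [d_pt z hz]
    have h1 : v n (z n) = u (n + 1) (z (n + 1)) := Cc.single_self n _ _
    rw [h1]
    rcases Nat.even_or_odd n with h | h
    · rw [SphCc.cast_even h, zero_mul, add_zero]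
      have h2 := hdu (n + 2)
      rwa [d_pt z hz, SphCc.cast_odd (by exact h.add_one), one_mul] at h2
    · rw [SphCc.cast_odd h, one_mul]
      exact CharTwo.add_self_eq_zero _
  · rw [hu p hp, (Cc.isDeg_single n _).d p hp, add_zero]

/-- a null cochain which vanishes at the base simplices -/
theorem exists_null_pt {k : ℕ} {w : Cc Z} (hw : Cc.IsDeg k w)
    (h : ∀ p, Cc.d w p (z p) = 0) :
    ∃ w' : Cc Z, Cc.IsDeg k w' ∧ (∀ p, w' p (z p) = 0) ∧ Cc.d w' = Cc.d w := by
  classical
  cases k with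
  | zero =>
    by_cases h0 : w 0 (z 0) = 0
    · refine ⟨w, hw, fun p => ?_, rfl⟩
      by_cases hp : p = 0
      · subst hp; exact h0
      · exact hw p hp _
    · have h1 : ∀ a : ZMod 2, a ≠ 0 → a + 1 = 0 := by decide
      have h2 : Cc.IsDeg 0 (Cc.one Z) := fun p hp _ => if_neg hp
      refine ⟨w + Cc.one _, hw.add h2, fun p => ?_, by rw [d_add, d_one, add_zero]⟩
      change w p (z p) + Cc.one Z p (z p) = 0
      by_cases hp : p = 0
      · subst hp; exact h1 _ h0
      · rw [hw p hp, h2 p hp, add_zero]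
  | succ k =>
    obtain ⟨v, hv, hv'⟩ := exists_corr_pt z hz hw h
    exact ⟨w + Cc.d v, hw.add hv.d, hv', by rw [d_add, d_d, add_zero]⟩

end pointed

/-! ### classes -/

theorem clc_eq_zero_iff {n : ℕ} {u : Cc X} (hu : Cc.IsDeg n u) (hd : Cc.d u = 0) :
    clc n u hd = 0 ↔ ∃ v, u = Cc.d v := by
  rw [clc, CosMod.cls_eq_zero_iff]
  refine (Cc.coh_zero_iff hu).symm.trans ⟨exists_of_coh, ?_⟩
  rintro ⟨v, hv⟩
  exact coh_of_d hv

theorem mapH_injective_of (f : SS.Map X Y) {n : ℕ}
    (h : ∀ u : Cc Y, Cc.IsDeg n u → Cc.d u = 0 → ∀ v, Cc.pull f u = Cc.d v → ∃ v', u = Cc.d v') :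
    Function.Injective ((f.pull (R := ZMod 2)).mapH n) := by
  rw [injective_iff_map_eq_zero]
  intro x hx
  obtain ⟨u, hd, hu, rfl⟩ := exists_clc x
  have hd' : Cc.d (Cc.pull f u) = 0 := by rw [← pull_d, hd, pull_zero]
  rw [← clc_pull f hd hd'] at hx
  obtain ⟨v, hv⟩ := (clc_eq_zero_iff (hu.pull f) hd').1 hx
  exact (clc_eq_zero_iff hu hd).2 (h u hu hd v hv)

theorem exists_of_mapH_injective {f : SS.Map X Y} {n : ℕ}
    (h : Function.Injective ((f.pull (R := ZMod 2)).mapH n)) {u : Cc Y} (hu : Cc.IsDeg n u)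
    (hd : Cc.d u = 0) {v : Cc X} (hv : Cc.pull f u = Cc.d v) : ∃ v', u = Cc.d v' := by
  have hd' : Cc.d (Cc.pull f u) = 0 := by rw [← pull_d, hd, pull_zero]
  rw [← clc_eq_zero_iff hu hd]
  apply h
  rw [map_zero, ← clc_pull f hd hd']
  exact (clc_eq_zero_iff (hu.pull f) hd').2 ⟨v, hv⟩

theorem mapH_surjective_of (f : SS.Map X Y) {n : ℕ}
    (h : ∀ w : Cc X, Cc.IsDeg n w → Cc.d w = 0 → ∃ u : Cc Y, Cc.IsDeg n u ∧ Cc.d u = 0 ∧
      ∃ v, w + Cc.pull f u = Cc.d v) :
    Function.Surjective ((f.pull (R := ZMod 2)).mapH n) := by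
  intro y
  obtain ⟨w, hd, hw, rfl⟩ := exists_clc y
  obtain ⟨u, hu, hud, v, hv⟩ := h w hw hd
  have hd' : Cc.d (Cc.pull f u) = 0 := by rw [← pull_d, hud, pull_zero]
  refine ⟨clc n u hud, ?_⟩
  rw [← clc_pull f hud hd', ← sub_eq_zero, ← neg_sub, neg_eq_zero]
  have h1 : clc n w hd - clc n (Cc.pull f u) hd' = clc n (w + Cc.pull f u)
      (by rw [d_add, hd, hd', add_zero]) := by
    rw [clc_add hd hd', sub_eq_add_neg]
    congr 1
    exact (neg_eq_iff_add_eq_zero.2 (ZModModule.add_self _))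
  rw [h1]
  exact (clc_eq_zero_iff (hw.add (hu.pull f)) _).2 ⟨v, hv⟩

/-! ### descent without parameters -/

namespace quo

variable {A : Sb Y}

/-- descent of relative cochains -/
noncomputable def desc0 (u : Cc Y) : Cc (quo A) := fun p x => match x with
  | none => 0
  | some y => u p y.1

theorem desc0_base (u : Cc Y) (p : ℕ) : desc0 (A := A) u p (base A p) = 0 := rfl

theorem pull_desc0 {u : Cc Y} (hu : Vn A u) : Cc.pull (pr A) (desc0 u) = u := by
  funext p y
  change desc0 (A := A) u p ((pr A).app y) = _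
  by_cases h : A.mem y
  · rw [pr_of_mem h, hu p y h]
    rfl
  · rw [pr_of_not h]
    rfl

theorem ext0 {u v : Cc (quo A)} (hu : ∀ p, u p (base A p) = 0) (hv : ∀ p, v p (base A p) = 0)
    (h : Cc.pull (pr A) u = Cc.pull (pr A) v) : u = v := by
  funext p x
  rcases cases x with rfl | ⟨y, _, rfl⟩
  · rw [hu p, hv p]
  · exact congrFun (congrFun h p) y

theorem d_base {u : Cc (quo A)} (hu : ∀ p, u p (base A p) = 0) (p : ℕ) :
    Cc.d u p (base A p) = 0 := by
  cases p with
  | zero => rw [d_zero_apply]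
  | succ n => rw [d_pt (base A) (fun g => map_base g), hu, mul_zero]

theorem d_desc0 {u : Cc Y} (hu : Vn A u) : Cc.d (desc0 (A := A) u) = desc0 (Cc.d u) := by
  refine ext0 (d_base (desc0_base u)) (desc0_base _) ?_
  rw [pull_d, pull_desc0 hu, pull_desc0 hu.d]

theorem vn_pull {u : Cc (quo A)} (hu : ∀ p, u p (base A p) = 0) : Vn A (Cc.pull (pr A) u) := by
  intro p y h
  change u p ((pr A).app y) = 0
  rw [pr_of_mem h]
  exact hu p

theorem isDeg_desc0 {n : ℕ} {u : Cc Y} (hu : Cc.IsDeg n u) : Cc.IsDeg n (desc0 (A := A) u) := by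
  intro p hp x
  cases x with
  | none => rfl
  | some y => exact hu p hp y.1

end quo

/-! ### the cube modulo its boundary and the sphere -/

/-- the cube modulo its boundary and the sphere -/
noncomputable def cq (b : ℕ) : SS.Map (quo (SN.base b)) (sing (Sph b)) :=
  quo.lift (cx b) (SphCc.ct b) SphCc.map_ct fun _ h => SphCc.eq_ct (cx_base h)

theorem cq_base (b : ℕ) (p : ℕ) : (cq b).app (quo.base (SN.base b) p) = SphCc.ct b p := rfl

theorem pull_pr_cq (b : ℕ) (u : Cc (sing (Sph b))) :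
    Cc.pull (quo.pr (SN.base b)) (Cc.pull (cq b) u) = Cc.pull (cx b) u := by
  funext p y
  exact congrArg (u p) (quo.lift_pr (cx b) (SphCc.ct b) SphCc.map_ct
    (fun _ h => SphCc.eq_ct (cx_base h)) y)

theorem vert_base {b : ℕ} (hb : 0 < b) (y : (SN b).obj 0) : (SN.base b).mem y := by
  refine ⟨⟨0, hb⟩, ?_⟩
  have h : ∀ χ : Op 0 1, χ = c0 0 ∨ χ = c1 0 := by
    intro χ
    have h1 : χ 0 = 0 ∨ χ 0 = 1 := by
      generalize χ 0 = a
      revert a
      decide
    rcases h1 with h1 | h1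
    · refine Or.inl (OrderHom.ext _ _ (funext fun x => ?_))
      rw [Fin.eq_zero x, h1, c0_val]
    · refine Or.inr (OrderHom.ext _ _ (funext fun x => ?_))
      rw [Fin.eq_zero x, h1, c1_val]
  exact h _

/-- positive cohomology of the point -/
theorem pt_van {m : ℕ} (hm : 0 < m) {u : Cc SS.pt} (hu : Cc.IsDeg m u) (hd : Cc.d u = 0) :
    ∃ v, u = Cc.d v := by
  obtain ⟨k, rfl⟩ : ∃ k, m = k + 1 := ⟨m - 1, by omega⟩
  obtain ⟨v, _, hv⟩ := exists_corr_pt (Z := SS.pt) (fun _ => ()) (fun _ => rfl) hu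
    (fun p => by rw [hd]; rfl)
  refine ⟨v, ?_⟩
  funext p x
  have h := hv p
  have h2 : u p x + Cc.d v p x = 0 := h
  have h3 : ∀ a b : ZMod 2, a + b = 0 → a = b := by decide
  exact h3 _ _ h2

/-- relative classes of the cube in other degrees -/
theorem cube_van {b j : ℕ} (hj : j ≠ b) {w : Cc (SN b)} (hw : Vn (SN.base b) w)
    (hd : Cc.d w = 0) (hn : Cc.IsDeg j w) : ∃ β : Cc (SN b), Vn (SN.base b) β ∧ w = Cc.d β := by
  have hv1 : Vn (bdX SS.pt b) (Cc.pull (SS.snd SS.pt (SN b)) w) := hw.pull _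
  have hv2 : Cc.d (Cc.pull (SS.snd SS.pt (SN b)) w) = 0 := by rw [← pull_d, hd, pull_zero]
  have key : ∃ a, DstN b (Cc.pull (SS.snd SS.pt (SN b)) w) = Cc.d a := by
    rcases lt_or_gt_of_ne hj with h | h
    · refine ⟨0, ?_⟩
      rw [d_zero]
      funext p
      refine DstN_degree b (funext fun x => ?_)
      exact hn (p + b) (by omega) _
    · obtain ⟨k, rfl⟩ : ∃ k, j = k + b := ⟨j - b, by omega⟩
      have h1 : Cc.IsDeg k (DstN b (Cc.pull (SS.snd SS.pt (SN b)) w)) := isDeg_DstN (hn.pull _)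
      refine pt_van (by omega) h1 ?_
      rw [← DstN_d hv1, hv2, DstN_zero]
  obtain ⟨a, ha⟩ := key
  obtain ⟨w', h1, h2⟩ := DstN_exact b hv1 hv2 ha
  refine ⟨Cc.pull (ptM b) w', h1.pull (ptM b), ?_⟩
  rw [← pull_d, h2]
  rfl

/-- descent from the cube to the quotient by its boundary -/
noncomputable def desc0' (b : ℕ) (β : Cc (SN b)) : Cc (quo (SN.base b)) := quo.desc0 β

theorem cq_injective {b : ℕ} (hb : 0 < b) (j : ℕ) :
    Function.Injective (((cq b).pull (R := ZMod 2)).mapH j) := by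
  refine mapH_injective_of _ fun u hu hd v hv => ?_
  rcases Nat.eq_zero_or_pos j with rfl | hj
  · refine ⟨0, ?_⟩
    rw [d_zero]
    refine Cc.IsDeg.ext hu (Cc.isDeg_zero _) (funext fun x => ?_)
    rw [SphCc.zero_const hb hd x]
    have h := congrFun (congrFun hv 0) (quo.base (SN.base b) 0)
    rw [d_zero_apply] at h
    exact h
  · by_cases hjb : j = b
    · subst hjb
      obtain ⟨k, rfl⟩ : ∃ k, j = k + 1 := ⟨j - 1, by omega⟩
      obtain ⟨c, hc, hc'⟩ := SphCc.exists_corr hu (by rw [hd]; exact Vn.zero)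
      by_contra hne
      have hu2 : Cc.IsDeg (k + 1) (u + Cc.d c) := hu.add hc.d
      have hd2 : Cc.d (u + Cc.d c) = 0 := by rw [d_add, hd, d_d, add_zero]
      have hne2 : ¬ ∃ a : Cc (sing (Sph (k + 1))), Cc.d a = u + Cc.d c := by
        rintro ⟨a, ha⟩
        refine hne ⟨a + c, ?_⟩
        rw [d_add, ha, add_assoc, ccadd_self, add_zero]
      have h1 := (cube_cc_one hb hu2 hd2 hc').1 hne2
      have h2 : Cc.pull (cq (k + 1)) (u + Cc.d c) = Cc.d (v + Cc.pull (cq (k + 1)) c) := by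
        rw [pull_add, hv, pull_d, d_add]
      obtain ⟨v', -, hv1, hv2⟩ := exists_null_pt (quo.base (SN.base (k + 1)))
        (fun g => quo.map_base g)
        (Cc.isDeg_comp k (v + Cc.pull (cq (k + 1)) c)) (fun p => by
          rw [← Cc.comp_d, ← h2, Cc.comp_eq (hu2.pull _)]
          exact hc' p _ (SphCc.ct_mem _ _))
      have h3 : Cc.pull (cx (k + 1)) (u + Cc.d c) = Cc.d (Cc.pull (quo.pr (SN.base (k + 1))) v') := by
        rw [← pull_d, hv2, ← Cc.comp_d, ← h2, Cc.comp_eq (hu2.pull _), pull_pr_cq]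
      have h4 := sum_cubT_d (quo.vn_pull hv1)
      rw [← h3] at h4
      have h5 : (0 : ZMod 2) = 1 := h4.symm.trans h1
      exact zero_ne_one h5
    · exact exists_of_coh (SphCc.van hj hjb u hu hd)

theorem cq_surjective {b : ℕ} (hb : 0 < b) (j : ℕ) :
    Function.Surjective (((cq b).pull (R := ZMod 2)).mapH j) := by
  refine mapH_surjective_of _ fun w hw hd => ?_
  rcases Nat.eq_zero_or_pos j with rfl | hj
  · have hv : ∀ x : (quo (SN.base b)).obj 0, x = quo.base (SN.base b) 0 := by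
      intro x
      rcases quo.cases x with h | ⟨y, hy, -⟩
      · exact h
      · exact absurd (vert_base hb y) hy
    by_cases h : w 0 (quo.base (SN.base b) 0) = 0
    · refine ⟨0, Cc.isDeg_zero _, d_zero, 0, ?_⟩
      rw [d_zero, pull_zero, add_zero]
      refine Cc.IsDeg.ext hw (Cc.isDeg_zero _) (funext fun x => ?_)
      rw [hv x, h]
      rfl
    · refine ⟨Cc.one _, isDeg_one _, d_one, 0, ?_⟩
      rw [d_zero, pull_one]
      refine Cc.IsDeg.ext (hw.add (isDeg_one _)) (Cc.isDeg_zero _) (funext fun x => ?_)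
      rw [hv x]
      have h1 : ∀ a : ZMod 2, a ≠ 0 → a + 1 = 0 := by decide
      exact h1 _ h
  · obtain ⟨k, rfl⟩ : ∃ k, j = k + 1 := ⟨j - 1, by omega⟩
    obtain ⟨c, hc, hc'⟩ := exists_corr_pt (quo.base (SN.base b)) (fun g => quo.map_base g) hw
      (fun p => by rw [hd]; rfl)
    have hw1 : Vn (SN.base b) (Cc.pull (quo.pr (SN.base b)) (w + Cc.d c)) := quo.vn_pull hc'
    have hw2 : Cc.IsDeg (k + 1) (Cc.pull (quo.pr (SN.base b)) (w + Cc.d c)) :=
      (hw.add hc.d).pull _
    have hw3 : Cc.d (Cc.pull (quo.pr (SN.base b)) (w + Cc.d c)) = 0 := by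
      rw [← pull_d, d_add, hd, d_d, add_zero, pull_zero]
    have fin : ∀ (u : Cc (sing (Sph b))) (β : Cc (SN b)), Vn (bs b) u → Vn (SN.base b) β →
        Cc.pull (quo.pr (SN.base b)) (w + Cc.d c) + Cc.pull (cx b) u = Cc.d β →
        w + Cc.pull (cq b) u = Cc.d (desc0' b β + c) := by
      intro u β hu hβ he
      have h1 : (w + Cc.d c) + Cc.pull (cq b) u = Cc.d (desc0' b β) := by
        rw [desc0', quo.d_desc0 hβ]
        refine quo.ext0 (fun p => ?_) (quo.desc0_base _) ?_
        · have h2 : Cc.pull (cq b) u p (quo.base (SN.base b) p) = 0 := hu p _ (SphCc.ct_mem b p)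
          change (w + Cc.d c) p (quo.base (SN.base b) p) + Cc.pull (cq b) u p _ = 0
          rw [hc' p, h2, add_zero]
        · rw [quo.pull_desc0 hβ.d, pull_add, pull_pr_cq, he]
      rw [d_add, ← h1, add_right_comm, add_assoc w, ccadd_self, add_zero]
    by_cases hjb : k + 1 = b
    · subst hjb
      by_cases hn : ∑ π : Equiv.Perm (Fin (k + 1)),
          Cc.pull (quo.pr (SN.base (k + 1))) (w + Cc.d c) (k + 1) (cubT π) = 0
      · obtain ⟨β, hβ, e⟩ := cube_zero (k + 1) hw1 hw3 hw2 hn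
        refine ⟨0, Cc.isDeg_zero _, d_zero, _, fin 0 β Vn.zero hβ ?_⟩
        rw [pull_zero, add_zero, e]
      · obtain ⟨β, hβ, e⟩ := cube_one (k + 1) hw1 hw3 hw2 ((T0.SphH.zmod_two _).resolve_left hn)
        obtain ⟨u, hu, hdu, hvu, -, hu1⟩ := exists_fund (k + 1) hb
        obtain ⟨β', hβ', -, e'⟩ := cx_class hb hu hdu hvu
          ((cube_cc_one hb hu hdu hvu).2 hu1)
        refine ⟨u, hu, hdu, _, fin u (β + β') hvu (hβ.add hβ') ?_⟩
        rw [e, e', d_add, add_add_add_comm, ccadd_self, zero_add]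
    · obtain ⟨β, hβ, e⟩ := cube_van hjb hw1 hw3 hw2
      refine ⟨0, Cc.isDeg_zero _, d_zero, _, fin 0 β Vn.zero hβ ?_⟩
      rw [pull_zero, add_zero, e]

/-- **Descent from the cube to the sphere**: a cocycle of `sing (Sph b) × X` which vanishes at
infinity and which is, on the cube, `d` of a relative cochain, is a coboundary. -/
theorem sph_times {b : ℕ} (hb : 0 < b) {X : SS} {m : ℕ} {w : Cc ((sing (Sph b)).prod X)}
    (hw : Cc.IsDeg m w) (hd : Cc.d w = 0)
    (hv : Vn ((bs b).comap (SS.fst (sing (Sph b)) X)) w) {η : Cc ((SN b).prod X)}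
    (hη : Vn ((SN.base b).comap (SS.fst (SN b) X)) η)
    (e : Cc.pull (SS.times (cx b) (SS.Map.id X)) w = Cc.d η) : ∃ γ, w = Cc.d γ := by
  have h1 : Cc.pull (SS.times (cq b) (SS.Map.id X)) w = Cc.d (quo.desc (A := SN.base b) η) := by
    rw [quo.d_desc hη]
    refine quo.ext ?_ (quo.desc_vn _) ?_
    · rintro p ⟨x1, x2⟩ h
      have h' : x1 = quo.base (SN.base b) p := h
      subst h'
      exact hv p _ (SphCc.ct_mem b p)
    · rw [quo.pull_desc hη.d, ← e]
      funext p x
      exact congrArg (fun y => w p (y, x.2)) (quo.lift_pr (cx b) (SphCc.ct b) SphCc.map_ct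
        (fun _ h => SphCc.eq_ct (cx_base h)) x.1)
  exact exists_of_mapH_injective (SS.times_mapH_injective (quo.base (SN.base b) 0) (D := m)
    (fun j _ => ⟨cq_injective hb j, cq_surjective hb j⟩) X le_rfl) hw hd h1

end Vale.Agent.P263.TJ
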