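import Vale.Agent.P263.TJ.HopfW
import Vale.Agent.P263.TJ.CubeSph

/-!
# P263, block EB: the smash product detects the top class of the sphere

`DstN_exactA` : exactness of the integration over the cube, relative to `A × cube`.
`mu_inj` : a reduced cocycle of degree `d + r` of `Sph (d + r)` whose pull-back along
`mu : sing (Sph d) × SN r → sing (Sph (d + r))` has a null integral is null.
`hopfOne_adjS_iff`, `IsW.hopfOne_iff` : the criterion for adjoints is an equivalence.
-/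

open Finset OnePoint

namespace Vale.Agent.P263.TJ

open Vale.Agent.P263.S Vale.Agent.P263.E Vale.Agent.P263.H83 Vale.Agent.P263.G2
  Vale.Agent.P263.T0

section Exact

variable {X : SS}

theorem Vn.union {A A' : Sb X} {u : Cc X} (h : Vn A u) (h' : Vn A' u) : Vn (A.union A') u :=
  fun p x hx => hx.elim (h p x) (h' p x)

/-- the integral of a cochain which vanishes on `A × cube` vanishes on `A` -/
theorem Vn_DstN {A : Sb X} (n : ℕ) {w : Cc (X.prod (SN n))}
    (hw : Vn (A.comap (SS.fst X (SN n))) w) : Vn A (DstN n w) := by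
  induction n with
  | zero => exact fun p x hx => hw p _ hx
  | succ n ih =>
    refine ih (Vn_Dst fun p x hx => ?_)
    exact hw p _ hx

/-- **Exactness** relative to `A × cube`. -/
theorem DstN_exactA {A : Sb X} (n : ℕ) {w : Cc (X.prod (SN n))} {a : Cc X}
    (hw : Vn (bdX X n) w) (hwA : Vn (A.comap (SS.fst X (SN n))) w) (hA : Vn A a)
    (hd : Cc.d w = 0) (ha : DstN n w = Cc.d a) :
    ∃ w' : Cc (X.prod (SN n)), Vn (bdX X n) w' ∧ Vn (A.comap (SS.fst X (SN n))) w' ∧
      Cc.d w' = w := by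
  induction n generalizing a with
  | zero =>
    refine ⟨Cc.pull (SS.fst X (SN 0)) a, ?_, hA.pull _, ?_⟩
    · rintro p x ⟨i, _⟩
      exact i.elim0
    · rw [← pull_d, ← ha]
      show Cc.pull ((nilM X).comp (SS.fst X (SN 0))) w = w
      rw [nilM_fst]
      rfl
  | succ n ih =>
    have h1 := Vn_cons_ends hw
    have h2 := Vn_cons_bd hw
    have h3 : Vn ((A.comap (SS.fst X (SN n))).comap (SS.fst (X.prod (SN n)) D1))
        (Cc.pull (consM X n) w) := fun p x hx => hwA p _ hx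
    have hd' : Cc.d (Cc.pull (consM X n) w) = 0 := by rw [← pull_d, hd, pull_zero]
    obtain ⟨a', ha1, ha3, ha2⟩ := ih (w := Dst (Cc.pull (consM X n) w)) (Vn_Dst h2)
      (Vn_Dst h3) hA (by rw [← Dst_d_rel h1, hd', Dst_zero]) ha
    obtain ⟨w', hE, hB, hw'⟩ := Dst_exact (A := (bdX X n).union (A.comap (SS.fst X (SN n)))) h1
      (fun p x hx => hx.elim (h2 p x) (h3 p x)) (ha1.union ha3) hd' ha2.symm
    refine ⟨Cc.pull (unconsM X n) w', ?_, ?_, ?_⟩
    · rintro p ⟨x, τ⟩ ⟨i, h⟩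
      revert h
      refine Fin.cases (fun h => ?_) (fun j h => ?_) i
      · exact hE p _ h
      · exact hB p _ (Or.inl ⟨j, h⟩)
    · intro p x hx
      exact hB p _ (Or.inr hx)
    · rw [← pull_d, hw']
      show Cc.pull ((consM X n).comp (unconsM X n)) w = w
      rw [consM_uncons]
      rfl

/-- the sum over the simplices of the cube of a relative coboundary is zero -/
theorem sum_cubT_d {n : ℕ} {β : Cc (SN n)} (hβ : Vn (SN.base n) β) :
    ∑ π : Equiv.Perm (Fin n), Cc.d β n (cubT π) = 0 := by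
  obtain ⟨x₀⟩ : Nonempty (SS.pt.obj 0) := ⟨()⟩
  have h := DstN_sum n (Cc.pull (SS.snd SS.pt (SN n)) (Cc.d β)) x₀
  rw [pull_d, DstN_d (hβ.pull (SS.snd SS.pt (SN n))), d_zero_apply, ← pull_d] at h
  exact h.symm

end Exact

section Mu

variable {d r : ℕ}

/-- the cube of dimension `d + r` -/
def splC (d r : ℕ) : SS.Map (SN (d + r)) ((SN d).prod (SN r)) where
  app τ := (fun i => τ (Fin.castAdd r i), fun j => τ (Fin.natAdd d j))
  nat _ _ := rfl

/-- the cube of dimension `d + r` in `Sᵈ × cube` -/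
noncomputable def spl (d r : ℕ) : SS.Map (SN (d + r)) ((sing (Sph d)).prod (SN r)) :=
  (SS.pair ((cx d).comp (SS.fst (SN d) (SN r))) (SS.snd (SN d) (SN r))).comp (splC d r)

theorem join2_tup (a : Fin d → OnePoint ℝ) (b : Fin r → OnePoint ℝ) :
    join2 (tup a) (tup b) = tup (Fin.append a b) := by
  by_cases ha : ∀ i, a i ≠ ∞
  · by_cases hb : ∀ j, b j ≠ ∞
    · choose x hx using fun i => OnePoint.ne_infty_iff_exists.1 (ha i)
      choose y hy using fun j => OnePoint.ne_infty_iff_exists.1 (hb j)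
      have h1 : a = fun i => (x i : OnePoint ℝ) := funext fun i => (hx i).symm
      have h2 : b = fun j => (y j : OnePoint ℝ) := funext fun j => (hy j).symm
      have h3 : Fin.append a b = fun k => ((Fin.append x y k : ℝ) : OnePoint ℝ) := by
        rw [h1, h2]
        funext k
        refine Fin.addCases (fun i => ?_) (fun j => ?_) k
        · rw [Fin.append_left, Fin.append_left]
        · rw [Fin.append_right, Fin.append_right]
      rw [h3, h1, h2, tup_coe, tup_coe, tup_coe, join2_coe]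
    · push Not at hb
      obtain ⟨j, hj⟩ := hb
      rw [tup_of_eq_infty hj, join2_infty_right]
      symm
      refine tup_of_eq_infty (i := Fin.natAdd d j) ?_
      rw [Fin.append_right, hj]
  · push Not at ha
    obtain ⟨i, hi⟩ := ha
    rw [tup_of_eq_infty hi, join2_infty_left]
    symm
    refine tup_of_eq_infty (i := Fin.castAdd r i) ?_
    rw [Fin.append_left, hi]

theorem mu_spl (d r : ℕ) : (mu d r).comp (spl d r) = cx (d + r) := by
  apply SS.Map.ext
  intro p τ
  apply ContinuousMap.ext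
  intro t
  refine (join2_tup (fun i => GB.loopU (chiI ((τ : Fin (d + r) → Op p 1) (Fin.castAdd r i)) t))
    (fun j => GB.loopU (chiI ((τ : Fin (d + r) → Op p 1) (Fin.natAdd d j)) t))).trans
    (congrArg tup (funext fun k => ?_))
  refine Fin.addCases (fun i => ?_) (fun j => ?_) k
  · rw [Fin.append_left]
  · rw [Fin.append_right]

theorem spl_base {p : ℕ} {τ : (SN (d + r)).obj p} (h : (SN.base (d + r)).mem τ) :
    ((bdX (sing (Sph d)) r).union ((bs d).comap (SS.fst _ (SN r)))).mem ((spl d r).app τ) := by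
  obtain ⟨k, hk⟩ := h
  revert hk
  refine Fin.addCases (fun i hk => ?_) (fun j hk => ?_) k
  · exact Or.inr (cx_base (n := d) ⟨i, hk⟩)
  · exact Or.inl ⟨j, hk⟩

theorem mu_left {p : ℕ} {z : ((sing (Sph d)).prod (SN r)).obj p}
    (h : ((bs d).comap (SS.fst _ (SN r))).mem z) : (bs (d + r)).mem ((mu d r).app z) := by
  intro t
  exact (congrArg (fun x => join2 x (cxC z.2 t)) (h t)).trans (join2_infty_left _)

/-- **The smash product detects the top class.** -/
theorem mu_inj (hd : 0 < d) {z : (Cc.rel (bs (d + r))).C} (hz : Cc.IsDeg (d + r) (Cc.val z))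
    (hdz : (Cc.rel (bs (d + r))).d z = 0)
    (h : ∃ a, DstN r (Cc.pull (mu d r) (Cc.val z)) = Cc.d a) :
    (Cc.rel (bs (d + r))).Coh z 0 := by
  obtain ⟨a, ha⟩ := h
  have hdz' : Cc.d (Cc.val z) = 0 := congrArg Cc.val hdz
  have hm1 : Vn (bdX (sing (Sph d)) r) (Cc.pull (mu d r) (Cc.val z)) :=
    ((Cc.vn_val z).pull (mu d r)).mono fun x hx => mu_base hx
  have hm2 : Vn ((bs d).comap (SS.fst _ (SN r))) (Cc.pull (mu d r) (Cc.val z)) :=
    ((Cc.vn_val z).pull (mu d r)).mono fun x hx => mu_left hx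
  have hdm : Cc.d (Cc.pull (mu d r) (Cc.val z)) = 0 := by rw [← pull_d, hdz', pull_zero]
  have hy1 : Vn (bs d) (DstN r (Cc.pull (mu d r) (Cc.val z))) := Vn_DstN r hm2
  have hy2 : Cc.IsDeg d (DstN r (Cc.pull (mu d r) (Cc.val z))) := fun p hp x =>
    congrFun (DstN_degree r (w := Cc.pull (mu d r) (Cc.val z)) (p := p)
      (funext fun y => hz.pull (mu d r) (p + r) (by omega) y)) x
  obtain ⟨a', ha'⟩ := SphCc.rel_coh_of_coh (z := Cc.mkRel (bs d) _ hy1) hy2 (coh_of_d ha)
  rw [add_zero] at ha'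
  have ha'' : DstN r (Cc.pull (mu d r) (Cc.val z)) = Cc.d (Cc.val a') := congrArg Cc.val ha'
  obtain ⟨w, hw1, hw2, hdw⟩ := DstN_exactA r hm1 hm2 (Cc.vn_val a') hdm ha''
  have h1 : Cc.pull (cx (d + r)) (Cc.val z) = Cc.d (Cc.pull (spl d r) w) := by
    rw [← mu_spl, Cc.pull_comp, ← hdw, pull_d]
  have h2 : Vn (SN.base (d + r)) (Cc.pull (spl d r) w) :=
    ((hw1.union hw2).pull (spl d r)).mono fun x hx => spl_base hx
  have h3 := sum_cubT_d h2
  rw [← h1] at h3
  obtain ⟨b, hb⟩ := (cube_cc (by omega) hz hdz' (Cc.vn_val z)).2 h3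
  exact SphCc.rel_coh_of_coh hz (coh_of_d hb.symm)

/-- the same for the morphism of cochain objects -/
theorem gMu_inj (hd : 0 < d) {z : (Cc.rel (bs (d + r))).C} (hz : Cc.IsDeg (d + r) (Cc.val z))
    (hdz : (Cc.rel (bs (d + r))).d z = 0)
    (h : (Cc.rel (ends (sing (Sph d)) r)).Coh ((gMu d r).f z) 0) :
    (Cc.rel (bs (d + r))).Coh z 0 := by
  obtain ⟨w, hw⟩ := h
  rw [add_zero] at hw
  refine mu_inj hd hz hdz ⟨DstN r (Cc.val w), ?_⟩
  have h1 : Cc.pull (mu d r) (Cc.val z) = Cc.d (Cc.val w) := congrArg Cc.val hw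
  rw [h1, DstN_d (Cc.vn_val w)]

end Mu

section Adjoint

variable {d n i : ℕ} (A : C(Sph d, Om (n + 1))) (hA : A ∞ = Om.const (n + 1))

/-- **The criterion for adjoints**, as an equivalence. -/
theorem hopfOne_adjS_iff (hd : 0 < d) (hi : n = d + i) (D : CupC.FSqD (gE A) i)
    (hD : D.Homog (Cc.relGr _) (Cc.relGr _) n (d + (n + 1)))
    (hb : ¬ (Cc.rel (bs (n + 1))).Coh D.b 0) :
    HopfOne (adjS A hA) ↔ ∀ a, DstN (n + 1) (Cc.val D.val) ≠ Cc.d a := by
  refine ⟨fun h a ha => ?_, hopfOne_adjS A hA hd hi D hD⟩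
  have hi' : 2 * n + 1 = (d + (n + 1)) + i := by omega
  have hm : n + 1 < d + (n + 1) := by omega
  obtain ⟨D', hb', hD'⟩ := exists_dataR (adjS_infty A hA) hi' hm hD.b_mem D.d_b
  let E : CupC.FSqD (gE A) i := D'.map ⟨AddMonoidHom.id _, fun _ => rfl, fun _ _ _ => rfl⟩
    (gMu d (n + 1)) (fun x => gE_eq A hA x)
  have hEv : E.val = (gMu d (n + 1)).f D'.val := D'.val_map _ _ _
  have hE : E.Homog (Cc.relGr _) (Cc.relGr _) n (d + (n + 1)) :=
    ⟨hD'.b_mem, Cc.IsDeg.pull (u := Cc.val D'.e) hD'.e_mem _, hD'.c_mem, hD'.deg_eq⟩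
  have hu := unambE (n := n) A hd
  have hcoh : (Cc.rel (ends (sing (Sph d)) (n + 1))).Coh D.val E.val :=
    CupC.FSqD.coh_of_van hD hE hu.van hu.deg hu.zero (by
      change (Cc.rel (bs (n + 1))).Coh D.b D'.b
      rw [hb']
      exact CupC.Coh.refl _)
  obtain ⟨w, hw, hdw⟩ := DstN_exact (n + 1) (Cc.vn_val D.val) (congrArg Cc.val D.d_val) ha
  have h0 : (Cc.rel (ends (sing (Sph d)) (n + 1))).Coh D.val 0 := rel_coh_of_d hw hdw.symm
  have h1 : (Cc.rel (ends (sing (Sph d)) (n + 1))).Coh ((gMu d (n + 1)).f D'.val) 0 := by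
    rw [← hEv]
    exact hcoh.symm.trans h0
  refine (hopfOne_iff_forall hi' hm (adjS_infty A hA)).1 h D' hD' (by rwa [hb']) ?_
  exact gMu_inj hd (val_isDeg hD') D'.d_val h1

end Adjoint

/-- **The universal class decides about Hopf invariant one.** -/
theorem IsW.hopfOne_iff {d r i : ℕ} {D : BC d r i} (hd : 0 < d)
    (hb : ¬ (Cc.rel (bs r)).Coh D.b 0) (A : C(Sph d, Om r))
    (hA : A ∞ = Om.const r) {w : Cc (sing (Sph d))} (hw : IsW (intg r) D (singMap A) w) :
    HopfOne (adjS A hA) ↔ ∀ a, w ≠ Cc.d a := by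
  refine ⟨fun h a ha => ?_, hw.hopfOne hd A hA⟩
  have hr := D.deg
  obtain ⟨n, rfl⟩ : ∃ n, r = n + 1 := ⟨i + d, hr.symm⟩
  obtain ⟨e, hde, he, hcoh⟩ := hw
  have h1 := (hopfOne_adjS_iff A hA hd (i := i) (by omega) (D.fsq e he)
    ⟨D.b_deg, hde, D.c_deg, by omega⟩ hb).1 h
  have h2 : (Cc.cupC (sing (Sph d))).Coh ((intg (n + 1)).I (Cc.val (D.sqv (singMap A) e))) 0 :=
    hcoh.symm.trans (coh_of_d ha)
  obtain ⟨a', ha'⟩ := exists_of_coh h2
  exact h1 a' ha'

end Vale.Agent.P263.TJ
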