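import Vale.Agent.P263.TJ.RkM
import Vale.Agent.P263.TJ.BoxVal
import Vale.Agent.P263.G2.BoxBar

/-!
# P263, block EB: the rank map on the families of boxes

* `rkBox N : FN N Unit → Gam N`, a box is replaced by its rank over every vertex.
* `isoUpTo_rkBox` : it induces isomorphisms in cohomology, in all degrees.
-/

open Finset

namespace Vale.Agent.P263.TJ

open Vale.Agent.P263.S Vale.Agent.P263.E Vale.Agent.P263.H83 Vale.Agent.P263.G2
open Vale.Agent.P263.TOP.H (Lab Good)
open Equiv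

/-- the set of the boxes, without stage -/
noncomputable def lbN (N : ℕ) : SS.Map (FN N Unit) (GLn boxLab N) where
  app {p} S := ⟨lbF S.1, by
    intro a ha b hb hab t
    exact S.1.disj _ (mem_lbF.1 (mem_coe.1 ha)) _ (mem_lbF.1 (mem_coe.1 hb))
      (fun h => hab (congrArg Prod.fst h)) t, (card_lbF S.1).trans S.2⟩
  nat f S := Subtype.ext (lbF_pull f S.1)

/-- **The rank map on the families of boxes.** -/
noncomputable def rkBox (N : ℕ) : SS.Map (FN N Unit) (TOP.H.Gam N) := (rkM boxLab N).comp (lbN N)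

variable {N : ℕ}

/-- the set of the boxes of an ordered family -/
noncomputable def bxs {p : ℕ} (c : (OF (Fin N)).obj p) : Finset (boxLab.L.obj p) :=
  lbF ((freeBox N).p.app c).1

theorem mem_bxs {p : ℕ} {c : (OF (Fin N)).obj p} {a : boxLab.L.obj p} :
    a ∈ bxs c ↔ ∃ j, ofC (c.box j) = a := by
  refine mem_lbF.trans ((OConf.mem_toConf (x := fun _ : Fin N => ()) (c := c)).trans ?_)
  constructor
  · rintro ⟨j, hj⟩
    exact ⟨j, congrArg Prod.fst hj⟩
  · rintro ⟨j, rfl⟩
    exact ⟨j, rfl⟩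

theorem box_mem_bxs {p : ℕ} (c : (OF (Fin N)).obj p) (j : Fin N) : ofC (c.box j) ∈ bxs c :=
  mem_bxs.2 ⟨j, rfl⟩

theorem bxs_ok {p : ℕ} (c : (OF (Fin N)).obj p) : LOk boxLab (bxs c) :=
  ((lbN N).app ((freeBox N).p.app c)).2.1

theorem bxs_map {p q : ℕ} (f : Op p q) (c : (OF (Fin N)).obj q) :
    bxs ((OF (Fin N)).map f c) = lmap boxLab f (bxs c) := by
  unfold bxs
  rw [(freeBox N).p.nat]
  exact lbF_pull f _

theorem bxs_act {p : ℕ} (s : Perm (Fin N)) (c : (OF (Fin N)).obj p) :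
    bxs ((freeBox N).act s c) = bxs c := by
  unfold bxs
  rw [(freeBox N).p_act]

/-- the map of the coverings by the orderings -/
noncomputable def rkO (N : ℕ) : SS.Map (OF (Fin N)) (G.ES (Fin N ↪ ℕ)) where
  app {p} c := fun i : Fin (p + 1) =>
    ⟨fun j => rkL (l := boxLab) (bxs c) (ofC (c.box j)) i, fun j j' h =>
      c.box_injective (rkL_eq (l := boxLab) (bxs_ok c) (box_mem_bxs c j) (box_mem_bxs c j')
        (i := i) h)⟩
  nat {p q} f c := by
    funext i
    ext j
    show rkL (l := boxLab) (bxs ((OF (Fin N)).map f c)) (boxLab.L.map f (ofC (c.box j))) i =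
      rkL (l := boxLab) (bxs c) (ofC (c.box j)) (f i)
    rw [bxs_map]
    exact congrFun (rkL_lmap (l := boxLab) f (bxs_ok c) (ofC (c.box j))) i

theorem rkBox_p {p : ℕ} (c : (OF (Fin N)).obj p) :
    (rkBox N).app ((freeBox N).p.app c) = (G.freeGam N).p.app ((rkO N).app c) := by
  refine Subtype.ext ?_
  show rkF (l := boxLab) (bxs c) = G.toF (fun i => (rkO N).app c i)
  ext t
  rw [rkF, mem_image]
  refine Iff.trans ?_ G.mem_toF.symm
  constructor
  · rintro ⟨a, ha, rfl⟩
    obtain ⟨j, rfl⟩ := mem_bxs.1 ha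
    exact ⟨j, rfl⟩
  · rintro ⟨j, rfl⟩
    exact ⟨ofC (c.box j), box_mem_bxs c j, rfl⟩

theorem rkO_act {p : ℕ} (s : Perm (Fin N)) (c : (OF (Fin N)).obj p) :
    (rkO N).app ((freeBox N).act s c) = (G.freeGam N).act s ((rkO N).app c) := by
  funext i
  ext j
  show rkL (l := boxLab) (bxs ((freeBox N).act s c)) (ofC (c.box (s⁻¹ j))) i =
    rkL (l := boxLab) (bxs c) (ofC (c.box (s⁻¹ j))) i
  rw [bxs_act]

theorem coneContr_rkBox (k : Type) [CommRing k] (N D : ℕ) :
    Nonempty (G.ConeContr k (rkBox N) D) :=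
  G.coneContr_quot (freeBox N) (G.freeGam N) (rkO N) _ (fun s c => rkO_act s c)
    (fun c => rkBox_p c) (G.HIso.of_acyc (rkO N) (boxV N) (fun p _ => acyc_OF k N p)
      fun p _ => G.ES_acyc (G.stdE N) p)

/-- **The rank map on the families of boxes induces isomorphisms in cohomology.** -/
theorem isoUpTo_rkBox (k : Type) [CommRing k] (N D : ℕ) : G.IsoUpTo k D (rkBox N) := by
  obtain ⟨c⟩ := coneContr_rkBox k N D
  exact c.isoUpTo.mono (Nat.le_succ D)

/-- **The transfer of `v^k` on the families of boxes**, strictly, at every stage. -/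
theorem rkBox_ctree (r N k p : ℕ) (S : (FNr r N Unit).obj p) :
    (TOP.H.ctree (ZMod 2) 1 N).app p (show (SS.F (ZMod 2) (SS.BW SS.pt 1)).obj p from vpow k p)
      ((rkBox N).app (show (FN N Unit).obj p from ⟨S.1, S.2.2⟩)) =
      Cc.pull (lbB r N) (tln boxLab N k) p S :=
  congrFun (rkM_ctree (l := boxLab) N k p) ((lbN N).app (show (FN N Unit).obj p from ⟨S.1, S.2.2⟩))

end Vale.Agent.P263.TJ
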