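import Vale.Agent.P263.TJ.CmpF
import Vale.Agent.P263.TJ.RkBox
import Vale.Agent.P263.TOP.LitMap
import Vale.Agent.P263.KJ.PairCov
import Vale.Agent.P263.KJ.KKdrop

/-!
# P263, block EB: the comparison for the families of boxes

`ptB r N` : the boxes of a configuration as points.  `hlB r N` : their ranks; `hm_hlB` : the map to
the model is the rank map.  `qn : (ptB r N).T 1 ⟶ FNr r 2 Unit` : the configuration of the pair.
`cmp_coh` : `(rkBox o stIn)^* (ctree 2 (ThC (v^c)))` is cohomologous to the pull-back of the quadratic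
cocycle of `extP (v^c)` on the labels of pairs of boxes.
-/

open Finset

namespace Vale.Agent.P263.TJ

open Vale.Agent.P263.S Vale.Agent.P263.E Vale.Agent.P263.H83 Vale.Agent.P263.KJ Vale.Agent.P263.G2
open Vale.Agent.P263.TOP.H (TW trees Lab rl)

variable (r N : ℕ)

/-- the boxes of a configuration as points -/
noncomputable def ptB : PtF (FNr r N Unit) boxLab.L where
  pts S := lbF S.1
  mem_pts {p q} f S a := by
    have h : lbF ((FNr r N Unit).map f S).1 = lmap boxLab f (lbF S.1) := lbF_pull f S.1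
    rw [h, mem_lmap]
  inj S i a ha b hb hab :=
    ((lbB r N).app S).2.1.inj (mem_coe.1 ha) (mem_coe.1 hb) i (congrArg boxLab.ord hab)

theorem mem_ptB {p : ℕ} {S : (FNr r N Unit).obj p} {a : boxLab.L.obj p} :
    a ∈ (ptB r N).pts S ↔ (toC (p := p) a, ()) ∈ S.1.pts := mem_lbF

/-- the ranks -/
noncomputable def hlB : HL (ptB r N) N where
  lam S a := psi (rk (l := boxLab) (lbF S.1) a 0)
  inj S _ ha _ hb h := rkL_eq (l := boxLab) (i := 0) ((lbB r N).app S).2.1 (mem_coe.1 ha)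
    (mem_coe.1 hb) h
  card S := (card_lbF S.1).trans S.2.2

theorem lab_hlB {p : ℕ} (S : (FNr r N Unit).obj p) (a : boxLab.L.obj p) :
    (hlB r N).lab S a = rkL (l := boxLab) (lbF S.1) a := by
  funext i
  show psi (rk (l := boxLab) (lbF ((FNr r N Unit).map (vx p i) S).1)
    (boxLab.L.map (vx p i) a) 0) = psi (rk (l := boxLab) (lbF S.1) a i)
  have h : lbF ((FNr r N Unit).map (vx p i) S).1 = lmap boxLab (vx p i) (lbF S.1) :=
    lbF_pull (vx p i) S.1
  exact congrArg psi ((congrArg (fun F : Finset (boxLab.L.obj 0) =>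
    rk (l := boxLab) F (boxLab.L.map (vx p i) a) 0) h).trans
      (rk_lmap (l := boxLab) (vx p i) ((lbB r N).app S).2.1 a 0))

/-- the map to the model is the rank map -/
theorem hm_hlB : (hlB r N).hm = (rkBox N).comp (TOP.stIn r N) := by
  apply SS.Map.ext
  intro p S
  refine Subtype.ext ?_
  show (lbF S.1).image ((hlB r N).lab S) = (lbF S.1).image (rkL (l := boxLab) (lbF S.1))
  have h : (hlB r N).lab S = rkL (l := boxLab) (lbF S.1) := funext fun a => lab_hlB r N S a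
  rw [h]

variable {r N}

/-! ### the configuration of a pair -/

theorem mem_of_tree {p : ℕ} {S : (FNr r N Unit).obj p} {t : TW (boxLab.L.obj p) 1}
    (ht : t ∈ (ptB r N).tree 1 S) {a : boxLab.L.obj p} (ha : a ∈ (t : Sym2 (boxLab.L.obj p))) :
    a ∈ (ptB r N).pts S := by
  induction t using Sym2.ind with
  | _ b c =>
    have h := (ptB r N).mem_tree_one.1 ht
    rcases Sym2.mem_iff.1 ha with rfl | rfl
    · exact h.1
    · exact h.2.1

open Classical in
/-- the configuration of the members of a tree of depth one -/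
noncomputable def qC {p : ℕ} (S : (FNr r N Unit).obj p) (t : Sym2 (boxLab.L.obj p)) :
    Conf Unit (G2.Dl p) where
  pts := S.1.pts.filter fun x => (x.1 : boxLab.L.obj p) ∈ t
  stage := ⟨r, fun x hx => S.2.1 x (mem_filter.1 hx).1⟩
  disj x hx y hy := S.1.disj x (mem_filter.1 hx).1 y (mem_filter.1 hy).1

theorem mem_qC {p : ℕ} {S : (FNr r N Unit).obj p} {t : Sym2 (boxLab.L.obj p)}
    {x : C(G2.Dl p, Bx) × Unit} :
    x ∈ (qC S t).pts ↔ x ∈ S.1.pts ∧ (x.1 : boxLab.L.obj p) ∈ t := by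
  classical
  exact mem_filter

theorem isSt_qC {p : ℕ} (S : (FNr r N Unit).obj p) (t : Sym2 (boxLab.L.obj p)) :
    (qC S t).IsSt r := fun x hx => S.2.1 x (mem_qC.1 hx).1

theorem card_qC {p : ℕ} {S : (FNr r N Unit).obj p} {t : TW (boxLab.L.obj p) 1}
    (ht : t ∈ (ptB r N).tree 1 S) : (qC S t).pts.card = 2 := by
  classical
  induction t using Sym2.ind with
  | _ a b =>
    have h := (ptB r N).mem_tree_one.1 ht
    have h1 : (qC S (s(a, b) : Sym2 (boxLab.L.obj p))).pts =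
        {((a : C(G2.Dl p, Bx)), ()), ((b : C(G2.Dl p, Bx)), ())} := by
      ext ⟨x, u⟩
      refine mem_qC.trans (Iff.trans ?_ (mem_insert.trans (or_congr Iff.rfl
        mem_singleton)).symm)
      constructor
      · rintro ⟨-, h2⟩
        rcases Sym2.mem_iff.1 h2 with h2 | h2
        · exact Or.inl (Prod.ext h2 rfl)
        · exact Or.inr (Prod.ext h2 rfl)
      · rintro (h2 | h2)
        · cases h2
          exact ⟨(mem_ptB r N).1 h.1, Sym2.mem_iff.2 (Or.inl rfl)⟩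
        · cases h2
          exact ⟨(mem_ptB r N).1 h.2.1, Sym2.mem_iff.2 (Or.inr rfl)⟩
    rw [h1]
    exact card_pair fun h2 => h.2.2 (congrArg Prod.fst h2)

theorem qC_pull {p q : ℕ} (f : Op p q) {S : (FNr r N Unit).obj q} {t : TW (boxLab.L.obj q) 1}
    (ht : t ∈ (ptB r N).tree 1 S) :
    qC ((FNr r N Unit).map f S) (Sym2.map (boxLab.L.map f) t) = (qC S t).pull (dmap f) := by
  apply Conf.ext
  ext ⟨x, u⟩
  refine mem_qC.trans (Iff.trans ?_ Conf.mem_pull.symm)
  constructor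
  · rintro ⟨h1, h2⟩
    obtain ⟨b, hb, h3⟩ := Sym2.mem_map.1 h2
    exact ⟨(b : C(G2.Dl q, Bx)), mem_qC.2 ⟨(mem_ptB r N).1 (mem_of_tree ht hb), hb⟩, h3⟩
  · rintro ⟨y, hy, h3⟩
    obtain ⟨h1, h2⟩ := mem_qC.1 hy
    exact ⟨Conf.mem_pull.2 ⟨y, h1, h3⟩, Sym2.mem_map.2 ⟨_, h2, h3⟩⟩

/-- **the configuration of the pair** -/
noncomputable def qn : SS.Map ((ptB r N).T 1) (FNr r 2 Unit) where
  app z := ⟨qC ((ptB r N).bs z) ((ptB r N).te z), isSt_qC _ _, card_qC ((ptB r N).te_mem z)⟩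
  nat f z := Subtype.ext (qC_pull f ((ptB r N).te_mem z))

/-- the ordered pair of boxes -/
noncomputable def qo : SS.Map (ptB r N).To (OFr r (Fin 2)) where
  app {p} z := ⟨⟨fun j => if j = 0 then toC (p := p) z.1.2.1 else toC (p := p) z.1.2.2, ⟨r, by
      intro j t
      split_ifs
      · exact z.1.1.2.1 _ ((mem_ptB r N).1 z.2.1) t
      · exact z.1.1.2.1 _ ((mem_ptB r N).1 z.2.2.1) t⟩, by
      intro j j' hj t
      have h := z.1.1.1.disj _ ((mem_ptB r N).1 z.2.1) _ ((mem_ptB r N).1 z.2.2.1)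
        (fun h => z.2.2.2 (congrArg Prod.fst h)) t
      fin_cases j <;> fin_cases j'
      · exact absurd rfl hj
      · exact h
      · exact h.symm
      · exact absurd rfl hj⟩, by
      intro j t
      show Bx.St r ((if j = 0 then toC (p := p) z.1.2.1 else toC (p := p) z.1.2.2) t)
      split_ifs
      · exact z.1.1.2.1 _ ((mem_ptB r N).1 z.2.1) t
      · exact z.1.1.2.1 _ ((mem_ptB r N).1 z.2.2.1) t⟩
  nat {p q} f z := by
    apply Subtype.ext
    apply OConf.ext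
    intro j
    fin_cases j <;> rfl

theorem qo_box0 {p : ℕ} (z : (ptB r N).To.obj p) : (qo.app z).1.box 0 = toC (p := p) z.1.2.1 := rfl

theorem qo_box1 {p : ℕ} (z : (ptB r N).To.obj p) : (qo.app z).1.box 1 = toC (p := p) z.1.2.2 := rfl

theorem pr_qo : (d2 r).pr.comp (qo (r := r) (N := N)) = qn.comp (ptB r N).Tu := by
  apply SS.Map.ext
  intro p z
  apply Subtype.ext
  apply Conf.ext
  ext ⟨x, u⟩
  show (x, u) ∈ (OConf.toConf (fun _ => ()) (qo.app z).1).pts ↔
    (x, u) ∈ (qC z.1.1 (s(z.1.2.1, z.1.2.2) : Sym2 (boxLab.L.obj p))).pts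
  refine OConf.mem_toConf.trans (Iff.trans ?_ mem_qC.symm)
  constructor
  · rintro ⟨j, hj⟩
    fin_cases j
    · cases hj
      exact ⟨(mem_ptB r N).1 z.2.1, Sym2.mem_iff.2 (Or.inl rfl)⟩
    · cases hj
      exact ⟨(mem_ptB r N).1 z.2.2.1, Sym2.mem_iff.2 (Or.inr rfl)⟩
  · rintro ⟨-, h⟩
    rcases Sym2.mem_iff.1 h with h | h
    · exact ⟨0, Prod.ext h.symm rfl⟩
    · exact ⟨1, Prod.ext h.symm rfl⟩

theorem fl_qo : (d2 r).fl.comp (qo (r := r) (N := N)) = qo.comp (ptB r N).Tf := by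
  apply SS.Map.ext
  intro p z
  apply Subtype.ext
  apply OConf.ext
  intro j
  fin_cases j <;> rfl

theorem cl_qn {v : Cc (FNr r 2 Unit)} {s : Cc (OFr r (Fin 2))} (h : (d2 r).Cl v s) :
    (ptB r N).dc.Cl (Cc.pull qn v) (Cc.pull qo s) :=
  h.pull qn qo pr_qo fl_qo

/-- the flips of the pairs of boxes -/
theorem cls_vpow_qn {v : Cc (FNr r 2 Unit)} {s : Cc (OFr r (Fin 2))} (h : (d2 r).Cl v s) (c : ℕ) :
    (Cc.cupC ((ptB r N).T 1)).Coh (Cc.pull ((hlB r N).cls 1) (vpow c)) (Cc.pull qn (Cc.pw v c)) := by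
  rw [Cc.pull_pw]
  exact (hlB r N).cls_vpow_coh (cl_qn h) c

/-! ### recognition of the labels -/

/-- the label of a pair -/
noncomputable def lamP : SS.Map ((ptB r N).T 1) (L2 r).ss := (pairL r).comp qn

theorem pull_lamP (u : Cc (FNr r 2 Unit)) :
    Cc.pull (lamP (r := r) (N := N)) (extP r u) = Cc.pull qn u := by
  show Cc.pull qn (Cc.pull (pairL r) (extP r u)) = _
  rw [pull_extP]

theorem lamP_mem {p : ℕ} (z : ((ptB r N).T 1).obj p) :
    (lamP.app z : (L2 r).obj p) ∈ idxS r (((ptB r N).bs z).1) := by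
  refine mem_idxS.2 ?_
  intro a ha
  cases a with
  | none => exact absurd ha (none_notMem_bsS _)
  | some a => exact some_mem_bsS.2 (mem_qC.1 (some_mem_bsS.1 ha)).1

theorem qn_inj {p : ℕ} {z z' : ((ptB r N).T 1).obj p} (h : (ptB r N).bs z = (ptB r N).bs z')
    (h' : qn.app z = qn.app z') : z = z' := by
  refine (ptB r N).T_ext h ?_
  have key : ∀ {z z' : ((ptB r N).T 1).obj p}, qn.app z = qn.app z' →
      ∀ a ∈ ((ptB r N).te z : Sym2 (boxLab.L.obj p)),
        a ∈ ((ptB r N).te z' : Sym2 (boxLab.L.obj p)) := by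
    intro z z' h a ha
    have h1 : ((a : C(G2.Dl p, Bx)), ()) ∈ (qn.app z).1.pts :=
      mem_qC.2 ⟨(mem_ptB r N).1 (mem_of_tree ((ptB r N).te_mem z) ha), ha⟩
    rw [h] at h1
    exact (mem_qC.1 h1).2
  exact Sym2.ext fun a => ⟨key h' a, key h'.symm a⟩

theorem lamP_inj {p : ℕ} {z z' : ((ptB r N).T 1).obj p} (h : (ptB r N).bs z = (ptB r N).bs z')
    (h' : lamP.app z = lamP.app z') : z = z' := by
  refine qn_inj h ?_
  apply Subtype.ext
  have h1 : cfg (r := r) (p := p) (lamP.app z) = cfg (r := r) (p := p) (lamP.app z') := by rw [h']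
  exact (cfg_ofS (qn.app z).2.1 (Or.inr (qn.app z).2.2)).symm.trans
    (h1.trans (cfg_ofS (qn.app z').2.1 (Or.inr (qn.app z').2.2)))

theorem exists_lamP {p : ℕ} (S : (FNr r N Unit).obj p) {F : (L2 r).obj p} (hF : F ∈ idxS r S.1)
    (h2 : IsP2 F) : ∃ z : ((ptB r N).T 1).obj p, (ptB r N).bs z = S ∧ lamP.app z = F := by
  classical
  obtain ⟨x, y, hxy, hpts⟩ := card_eq_two.1 h2.2
  have hsub : ∀ z ∈ (cfg F).pts, z ∈ S.1.pts := by
    rintro ⟨c, u⟩ hz
    exact some_mem_bsS.1 (mem_idxS.1 hF (mem_cfg.1 hz))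
  have hx : x ∈ S.1.pts := hsub x (by rw [hpts]; exact mem_insert_self _ _)
  have hy : y ∈ S.1.pts := hsub y (by rw [hpts]; exact mem_insert_of_mem (mem_singleton_self _))
  have ht : (s((x.1 : boxLab.L.obj p), (y.1 : boxLab.L.obj p)) : Sym2 (TW (boxLab.L.obj p) 0)) ∈
      (ptB r N).tree 1 S := (ptB r N).mem_tree_one.2 ⟨(mem_ptB r N).2 hx, (mem_ptB r N).2 hy,
        fun h => hxy (Prod.ext h rfl)⟩
  refine ⟨(ptB r N).pt S _ ht, rfl, ?_⟩
  have h3 : qC S (s((x.1 : boxLab.L.obj p), (y.1 : boxLab.L.obj p)) : Sym2 (boxLab.L.obj p)) =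
      cfg F := by
    apply Conf.ext
    ext ⟨c, u⟩
    rw [hpts, mem_insert, mem_singleton]
    refine mem_qC.trans ?_
    constructor
    · rintro ⟨-, h⟩
      rcases Sym2.mem_iff.1 h with h | h
      · exact Or.inl (Prod.ext h rfl)
      · exact Or.inr (Prod.ext h rfl)
    · rintro (h | h)
      · exact ⟨h ▸ hx, Sym2.mem_iff.2 (Or.inl (congrArg Prod.fst h))⟩
      · exact ⟨h ▸ hy, Sym2.mem_iff.2 (Or.inr (congrArg Prod.fst h))⟩
  refine Eq.trans ?_ h2.eq_ofS
  apply Subtype.ext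
  exact congrArg bsS h3

/-- **The pairs of boxes as sheets.** -/
theorem pull_idxFS_coh (u : Cc (FNr r 2 Unit)) (hu : Cc.d u = 0) (o : OrdS ((ptB r N).gd 1)) :
    (Cc.cupC (FNr r N Unit)).Coh
      (Cc.pull ((idxFS r N).map (npS r)) (KK (lab2 r).lab (npS r) 0 0 (extP r u)))
      (PtF.K o (Cc.pull qn u)) := by
  have h := PtF.recog_KK (D := ptB r N) (n := 1) (l := (lab2 r).lab) (B := (L2 r).ss)
    (A := npS r) lamP lamP ?_ ?_ ((idxFS r N).map (npS r)) ?_ (y := extP r u) (vn_extP u) o ?_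
  · rw [pull_lamP] at h
    exact h
  · intro p S
    refine (lab2 r).good_sub ((idxFS r N).good (p := p) S) ?_
    rintro _ ⟨z, hz, rfl⟩
    have h1 := lamP_mem z
    rw [show (ptB r N).bs z = S from hz] at h1
    exact h1
  · intro z z' h h'
    exact lamP_inj h h'
  · intro p S a
    refine (idxFS r N).mem_fs.trans ?_
    constructor
    · rintro ⟨s, hs, rfl, h1⟩
      have hP : IsP2 (r := r) (p := p) s := not_not.1 h1
      obtain ⟨z, hz, hz'⟩ := exists_lamP S hs hP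
      exact ⟨⟨z, hz, Prod.ext hz' hz'⟩, h1⟩
    · rintro ⟨⟨z, hz, rfl⟩, h1⟩
      subst hz
      exact ⟨lamP.app z, lamP_mem z, rfl, h1⟩
  · rw [pull_lamP, ← pull_d, hu]
    rfl

/-- **(CMP) in length two**, on cochains. -/
theorem cmp_coh {v : Cc (FNr r 2 Unit)} {s : Cc (OFr r (Fin 2))} (h : (d2 r).Cl v s) {c K : ℕ}
    (hK : c < K) (hd : Cc.d (vpow c) = 0) :
    (Cc.cupC (FNr r N Unit)).Coh
      (Cc.pull ((rkBox N).comp (TOP.stIn r N)) (ctC 2 N (ThC K (vpow c))))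
      (Cc.pull ((idxFS r N).map (npS r)) (KK (lab2 r).lab (npS r) 0 0 (extP r (Cc.pw v c)))) := by
  rw [← hm_hlB]
  have h1 := (hlB r N).pull_ctC_ThC (n := 1) (c := c) (K := K) (z := vpow c) (isDeg_vpow c) hK
  rw [h1]
  have h2 := PtF.K_coh ((hlB r N).hord 1) ((hlB r N).hord 1)
    (c := Cc.pull ((hlB r N).cls 1) (vpow c)) (c' := Cc.pull qn (Cc.pw v c))
    ((pull_d ((hlB r N).cls 1) (vpow c)).symm.trans
      (congrArg (Cc.pull ((hlB r N).cls 1)) hd)) (cls_vpow_qn h c)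
  exact h2.trans (pull_idxFS_coh (Cc.pw v c) (Cc.d_pw h.d_w c) ((hlB r N).hord 1)).symm

end Vale.Agent.P263.TJ
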