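import Vale.Agent.P263.TJ.CmpE
import Vale.Agent.P263.TJ.CmpG
import Vale.Agent.P263.TJ.L1Asm
import Vale.Agent.P263.TW.RPow

/-!
# P263, block EB: (CMP) in length two, for the tower of the spaces `BW_n`

`cmp_two` : the value of `tr_2 P(v^c)` on a cycle of families of boxes is the value of the quadratic
cocycle of `v^c` on the labels which are pairs of boxes.
-/

open Finset

namespace Vale.Agent.P263.TJ

open Vale.Agent.P263.S Vale.Agent.P263.E Vale.Agent.P263.H83 Vale.Agent.P263.KJ Vale.Agent.P263.G2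
open Vale.Agent.P263.TOP Vale.Agent.P263.TOP.H Vale.Agent.P263.TW
open Vale.Agent.P263.LZ (q)
open Vale.Agent.P263.EX.GE (S io)

theorem vcls_eq (c : ℕ) : vcls c = clc c (vpow c) (d_vpow c) := rfl

theorem up_vcls (c : ℕ) (e : 0 + 2 * c = c + c) :
    towerModel.e 2 (c + c) (towerModel.T.up 1 0 c (c + c) e (vcls c)) =
      clc (c + c) (ThC (c + 2) (vpow c)) (d_ThC (isDeg_vpow c) (d_vpow c) (by omega)) :=
  upZ_clc (isDeg_vpow c) (d_vpow c) e

/-- **(CMP) in length two.** -/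
theorem cmp_two (r N : ℕ) {v : Cc (FNr r 2 Unit)} {s : Cc (OFr r (Fin 2))} (h : (d2 r).Cl v s)
    {c d : ℕ} (hc : 0 + 2 * c = d) :
    ∃ (U : towerModel.T.H 1 c) (x : (SS.F (ZMod 2) (TOP.H.Gam N)).Z d),
      towerModel.T.r 1 c U = io 1 (q 1 0 ^ c) ∧
      (SS.F (ZMod 2) (TOP.H.Gam N)).cls d x =
        (ctree (ZMod 2) 2 N).mapH d (towerModel.e 2 d (towerModel.T.up 1 0 c d hc U)) ∧
      ∀ ξ : Chn (ZMod 2) (FNr r N Unit) d, IsCyc d ξ →
        G2.ev ((((rkBox N).comp (stIn r N)).pull (R := ZMod 2)).app d x.1) ξ =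
          evc (Cc.pull ((idxFS r N).map (npS r))
            (KK (lab2 r).lab (npS r) 0 0 (extP r (Cc.pw v c)))) ξ := by
  obtain rfl : d = c + c := by omega
  have hT := d_ThC (isDeg_vpow c) (d_vpow c) (K := c + 2) (by omega)
  have hX : Cc.d (ctC 2 N (ThC (c + 2) (vpow c))) = 0 := d_ctC_zero 2 N hT
  refine ⟨vcls c, cc (c + c) (ctC 2 N (ThC (c + 2) (vpow c))) hX, r_vpow c, ?_, ?_⟩
  · rw [up_vcls c hc]
    exact clc_ctC 2 N hT hX
  · intro ξ hξ
    exact evc_coh (cmp_coh (N := N) h (K := c + 2) (by omega) (d_vpow c)) hξ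

end Vale.Agent.P263.TJ
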