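import Vale.Agent.P263.TJ.Quo

/-!
# P263, block AD: the cross product of two spheres

`jnM d r : sing (Sph d) × sing (Sph r) → sing (Sph (d + r))` : the join of simplices.
`exists_cross` : for a reduced cocycle `b` of degree `n` of `Sph n` which is not a coboundary there
are a reduced cocycle `z` of `Sph (n + n)` which is not a coboundary and a cochain `γ` which
vanishes on the wedge with `jnM^* z = b × b + d γ`.
-/

open Finset OnePoint

namespace Vale.Agent.P263.TJ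

open Vale.Agent.P263.S Vale.Agent.P263.E Vale.Agent.P263.H83 Vale.Agent.P263.G2
  Vale.Agent.P263.T0

/-- the join of simplices -/
noncomputable def jnM (d r : ℕ) :
    SS.Map ((sing (Sph d)).prod (sing (Sph r))) (sing (Sph (d + r))) :=
  ⟨fun {p} z => ofC (⟨fun t : Dl p => join2 (toC z.1 t) (toC z.2 t), continuous_join2.comp
      ((toC z.1).continuous.prodMk (toC z.2).continuous)⟩ : C(Dl p, Sph (d + r))), fun f z => by
    apply ContinuousMap.ext
    intro t
    rfl⟩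

theorem jnM_app {d r p : ℕ} (z : ((sing (Sph d)).prod (sing (Sph r))).obj p) (t : Dl p) :
    toC ((jnM d r).app z) t = join2 (toC z.1 t) (toC z.2 t) := rfl

/-- the simplices of the wedge -/
noncomputable def wdg (d r : ℕ) : Sb ((sing (Sph d)).prod (sing (Sph r))) :=
  ((bs d).comap (SS.fst _ _)).union ((bs r).comap (SS.snd _ _))

theorem jnM_wdg {d r p : ℕ} {z : ((sing (Sph d)).prod (sing (Sph r))).obj p}
    (h : (wdg d r).mem z) : (bs (d + r)).mem ((jnM d r).app z) := by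
  intro t
  rcases h with h | h
  · exact (congrArg (fun x => join2 x (toC z.2 t)) (h t)).trans (join2_infty_left _)
  · exact (congrArg (fun x => join2 (toC z.1 t) x) (h t)).trans (join2_infty_right _)

/-- the product with the cube -/
noncomputable def tcx (X : SS) (n : ℕ) : SS.Map (X.prod (SN n)) (X.prod (sing (Sph n))) :=
  SS.pair (SS.fst X (SN n)) ((cx n).comp (SS.snd X (SN n)))

theorem jnM_tcx (d r : ℕ) : (jnM d r).comp (tcx (sing (Sph d)) r) = mu d r := rfl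

theorem toPt_of_mem {n p : ℕ} {x : (sing (Sph n)).obj p} (hx : (bs n).mem x) :
    (toPt n).app x = x := by
  apply ContinuousMap.ext
  intro t
  exact (hx t).symm

theorem toPt_mem {n p : ℕ} (x : (sing (Sph n)).obj p) : (bs n).mem ((toPt n).app x) :=
  fun _ => rfl

/-- a cochain whose coboundary vanishes on the wedge can be corrected to vanish there -/
theorem exists_wdg {d r : ℕ} {γ : Cc ((sing (Sph d)).prod (sing (Sph r)))}
    (h : Vn (wdg d r) (Cc.d γ)) : ∃ γ', Vn (wdg d r) γ' ∧ Cc.d γ' = Cc.d γ := by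
  set e1 : SS.Map ((sing (Sph d)).prod (sing (Sph r))) ((sing (Sph d)).prod (sing (Sph r))) :=
    SS.times (toPt d) (SS.Map.id _) with he1
  set e2 : SS.Map ((sing (Sph d)).prod (sing (Sph r))) ((sing (Sph d)).prod (sing (Sph r))) :=
    SS.times (SS.Map.id _) (toPt r) with he2
  set e3 : SS.Map ((sing (Sph d)).prod (sing (Sph r))) ((sing (Sph d)).prod (sing (Sph r))) :=
    SS.times (toPt d) (toPt r) with he3
  refine ⟨(γ + Cc.pull e1 γ) + (Cc.pull e2 γ + Cc.pull e3 γ), ?_, ?_⟩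
  · rintro p ⟨x, y⟩ (hx | hy)
    · have h1 : (toPt d).app x = x := toPt_of_mem hx
      change (γ p (x, y) + γ p ((toPt d).app x, y)) +
        (γ p (x, (toPt r).app y) + γ p ((toPt d).app x, (toPt r).app y)) = 0
      rw [h1, CharTwo.add_self_eq_zero, CharTwo.add_self_eq_zero, add_zero]
    · have h1 : (toPt r).app y = y := toPt_of_mem hy
      change (γ p (x, y) + γ p ((toPt d).app x, y)) +
        (γ p (x, (toPt r).app y) + γ p ((toPt d).app x, (toPt r).app y)) = 0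
      rw [h1, CharTwo.add_self_eq_zero]
  · have h1 : Cc.pull e1 (Cc.d γ) = 0 := by
      funext p x
      exact h p _ (Or.inl (toPt_mem x.1))
    have h2 : Cc.pull e2 (Cc.d γ) = 0 := by
      funext p x
      exact h p _ (Or.inr (toPt_mem x.2))
    have h3 : Cc.pull e3 (Cc.d γ) = 0 := by
      funext p x
      exact h p _ (Or.inl (toPt_mem x.1))
    rw [d_add, d_add, d_add, ← pull_d, ← pull_d, ← pull_d, h1, h2, h3, add_zero, add_zero,
      add_zero]

/-- two reduced cocycles of the top degree which are not coboundaries are cohomologous -/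
theorem exists_coh_of_ne {n : ℕ} (hn : 0 < n) {u v : Cc (sing (Sph n))} (hu : Cc.IsDeg n u)
    (hv : Cc.IsDeg n v) (hdu : Cc.d u = 0) (hdv : Cc.d v = 0) (hvu : Vn (bs n) u)
    (hvv : Vn (bs n) v) (hnu : ¬ ∃ a : Cc (sing (Sph n)), Cc.d a = u)
    (hnv : ¬ ∃ a : Cc (sing (Sph n)), Cc.d a = v) : ∃ a : Cc (sing (Sph n)), Cc.d a = u + v := by
  refine (cube_cc hn (hu.add hv) (by rw [d_add, hdu, hdv, add_zero]) (hvu.add hvv)).2 ?_
  have h1 := (cube_cc_one hn hu hdu hvu).1 hnu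
  have h2 := (cube_cc_one hn hv hdv hvv).1 hnv
  have h3 : ∑ π : Equiv.Perm (Fin n), (u + v) n ((cx n).app (permT n π)) =
      ∑ π : Equiv.Perm (Fin n), u n ((cx n).app (permT n π)) +
      ∑ π : Equiv.Perm (Fin n), v n ((cx n).app (permT n π)) := sum_add_distrib
  rw [h3, h1, h2]
  rfl

section cross

variable {n : ℕ} {b z : Cc (sing (Sph n))}

/-- the integral of the smash product is the generator -/
theorem mu_coh (hn : 0 < n) {b : Cc (sing (Sph n))} (hb : Cc.IsDeg n b)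
    (hdb : Cc.d b = 0) (hvb : Vn (bs n) b) (hne : ¬ ∃ a : Cc (sing (Sph n)), Cc.d a = b)
    {z : Cc (sing (Sph (n + n)))} (hz : Cc.IsDeg (n + n) z) (hdz : Cc.d z = 0)
    (hvz : Vn (bs (n + n)) z) (hnz : ¬ ∃ a : Cc (sing (Sph (n + n))), Cc.d a = z) :
    ∃ a : Cc (sing (Sph n)), Cc.d a = DstN n (Cc.pull (mu n n) z) + b := by
  have hm1 : Vn (bdX (sing (Sph n)) n) (Cc.pull (mu n n) z) :=
    (hvz.pull (mu n n)).mono fun x hx => mu_base hx
  have hm2 : Vn ((bs n).comap (SS.fst (sing (Sph n)) (SN n))) (Cc.pull (mu n n) z) :=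
    (hvz.pull (mu n n)).mono fun x hx => mu_left hx
  have hm3 : Cc.d (Cc.pull (mu n n) z) = 0 := by rw [← pull_d, hdz, pull_zero]
  have hD1 : Cc.IsDeg n (DstN n (Cc.pull (mu n n) z)) := isDeg_DstN (hz.pull _)
  have hD2 : Cc.d (DstN n (Cc.pull (mu n n) z)) = 0 := by rw [← DstN_d hm1, hm3, DstN_zero]
  have hD3 : Vn (bs n) (DstN n (Cc.pull (mu n n) z)) := Vn_DstN n hm2
  refine exists_coh_of_ne hn hD1 hb hD2 hdb hD3 hvb ?_ hne
  rintro ⟨a, ha⟩
  have h1 := mu_inj hn (z := Cc.mkRel (bs (n + n)) z hvz) hz (Cc.rel_ext hdz) ⟨a, ha.symm⟩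
  obtain ⟨v, hv⟩ := h1
  rw [add_zero] at hv
  exact hnz ⟨Cc.val v, (congrArg Cc.val hv).symm⟩

/-- the cross product on the cube -/
theorem cross_cube (hn : 0 < n) {b : Cc (sing (Sph n))} (hb : Cc.IsDeg n b)
    (hdb : Cc.d b = 0) (hvb : Vn (bs n) b) (hne : ¬ ∃ a : Cc (sing (Sph n)), Cc.d a = b)
    {z : Cc (sing (Sph (n + n)))} (hz : Cc.IsDeg (n + n) z) (hdz : Cc.d z = 0)
    (hvz : Vn (bs (n + n)) z) (hnz : ¬ ∃ a : Cc (sing (Sph (n + n))), Cc.d a = z) :
    ∃ η : Cc ((sing (Sph n)).prod (SN n)), Vn (bdX (sing (Sph n)) n) η ∧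
      Cc.pull (mu n n) z + Cc.cup 1 (Cc.pull (SS.fst (sing (Sph n)) (SN n)) b)
        (Cc.pull (SS.snd (sing (Sph n)) (SN n)) (Cc.pull (cx n) b)) = Cc.d η := by
  obtain ⟨β, hβ, -, hcx⟩ := cx_class hn hb hdb hvb hne
  obtain ⟨a, ha⟩ := mu_coh hn hb hdb hvb hne hz hdz hvz hnz
  have hm1 : Vn (bdX (sing (Sph n)) n) (Cc.pull (mu n n) z) :=
    (hvz.pull (mu n n)).mono fun x hx => mu_base hx
  have hm3 : Cc.d (Cc.pull (mu n n) z) = 0 := by rw [← pull_d, hdz, pull_zero]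
  obtain ⟨w1, hw1, hdw1⟩ := DstN_exact n (w := Cc.pull (mu n n) z + sn n b) (a := a)
    (hm1.add (Vn_sn n b)) (by rw [d_add, hm3, d_sn, hdb, sn_zero', add_zero])
    (by rw [DstN_add, DstN_sn, ha])
  refine ⟨w1 + Cc.cup 1 (Cc.pull (SS.fst (sing (Sph n)) (SN n)) b)
    (Cc.pull (SS.snd (sing (Sph n)) (SN n)) β), hw1.add ((hβ.pull _).cup_right 1 _), ?_⟩
  have h1 : sn n b = Cc.cup 1 (Cc.pull (SS.fst (sing (Sph n)) (SN n)) b)
    (Cc.pull (SS.snd (sing (Sph n)) (SN n)) (sC n)) := rfl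
  rw [hcx, pull_add, cup_add_right, d_add, hdw1, d_cup_one, ← pull_d, hdb, pull_zero, cup_zero_left,
    zero_add, pull_d, h1, add_assoc]

/-- **The cross product of two spheres.** -/
theorem exists_cross {n : ℕ} (hn : 0 < n) {b : Cc (sing (Sph n))} (hb : Cc.IsDeg n b)
    (hdb : Cc.d b = 0) (hvb : Vn (bs n) b) (hne : ¬ ∃ a : Cc (sing (Sph n)), Cc.d a = b)
    {z : Cc (sing (Sph (n + n)))} (hz : Cc.IsDeg (n + n) z) (hdz : Cc.d z = 0)
    (hvz : Vn (bs (n + n)) z) (hnz : ¬ ∃ a : Cc (sing (Sph (n + n))), Cc.d a = z) :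
    ∃ γ : Cc ((sing (Sph n)).prod (sing (Sph n))), Vn (wdg n n) γ ∧
      Cc.pull (jnM n n) z = Cc.cup 1 (Cc.pull (SS.fst _ _) b) (Cc.pull (SS.snd _ _) b) +
        Cc.d γ := by
  obtain ⟨η, hη, hdη⟩ := cross_cube hn hb hdb hvb hne hz hdz hvz hnz
  let w : Cc ((sing (Sph n)).prod (sing (Sph n))) := Cc.pull (jnM n n) z +
    Cc.cup 1 (Cc.pull (SS.fst _ _) b) (Cc.pull (SS.snd _ _) b)
  have hwd : Cc.IsDeg (n + n) w := (hz.pull _).add ((hb.pull _).cup (hb.pull _) rfl)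
  have hdw : Cc.d w = 0 := by
    change Cc.d (Cc.pull (jnM n n) z +
      Cc.cup 1 (Cc.pull (SS.fst _ _) b) (Cc.pull (SS.snd _ _) b)) = 0
    rw [d_add, ← pull_d, hdz, pull_zero, d_cup_one, ← pull_d, ← pull_d, hdb, pull_zero,
      pull_zero, cup_zero_left, cup_zero_right, add_zero, add_zero]
  have hvw : Vn (wdg n n) w := by
    refine Vn.add (fun p x hx => hvz p _ (jnM_wdg hx)) ?_
    rintro p x (hx | hx)
    · exact (hvb.pull (SS.fst _ _)).cup_left 1 _ p x hx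
    · exact (hvb.pull (SS.snd _ _)).cup_right 1 _ p x hx
  have hW : Cc.pull (tcx (sing (Sph n)) n) w = Cc.d η := by
    rw [← hdη]
    change Cc.pull (tcx (sing (Sph n)) n) (Cc.pull (jnM n n) z +
      Cc.cup 1 (Cc.pull (SS.fst _ _) b) (Cc.pull (SS.snd _ _) b)) = _
    rw [pull_add, pull_cup]
    rfl
  obtain ⟨γ0, hγ0⟩ := sph_times hn (w := Cc.pull (SS.swp (sing (Sph n)) (sing (Sph n))) w)
    (η := Cc.pull (SS.swp (SN n) (sing (Sph n))) η)
    (hwd.pull _) (by rw [← pull_d, hdw, pull_zero])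
    (fun p x hx => hvw p _ (Or.inr hx)) (fun p x hx => hη p _ hx) (by
      rw [← pull_d, ← hW]
      rfl)
  have hγ1 : Cc.d (Cc.pull (SS.swp (sing (Sph n)) (sing (Sph n))) γ0) = w := by
    rw [← pull_d, ← hγ0]
    rfl
  obtain ⟨γ, hγ, hdγ⟩ := exists_wdg (d := n) (r := n)
    (γ := Cc.pull (SS.swp (sing (Sph n)) (sing (Sph n))) γ0) (by rw [hγ1]; exact hvw)
  refine ⟨γ, hγ, ?_⟩
  rw [hdγ, hγ1]
  change _ = _ + (_ + _)
  rw [add_left_comm, ccadd_self, add_zero]

end cross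

end Vale.Agent.P263.TJ
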