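import Vale.Agent.P263.TJ.Cube
import Vale.Agent.P263.T0.CubeN
import Vale.Agent.P263.T0.SphHZ

/-!
# P263, block EB: the number of a cocycle of the sphere on the cube

`cube_cc` : a cocycle `b` of degree `r ≥ 1` of `sing (Sph r)` which vanishes on the simplices which
are constant at the base point is a coboundary iff its sum over the `r!` nondegenerate simplices of
the cube `cx r : SN r → sing (Sph r)` is zero. Same for the collapse simplex `sig r`. `coh_rel` :
a reduced cochain which is a coboundary is the coboundary of a reduced cochain.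
-/

open Finset OnePoint Topology

namespace Vale.Agent.P263.TJ

open Vale.Agent.P263.S Vale.Agent.P263.E Vale.Agent.P263.G2 Vale.Agent.P263.T0
open Vale.Agent.P263.T0.SphH (cob cubS simS sig SS bdD)

/-- the permutation simplex of the cube -/
def permT (r : ℕ) (π : Equiv.Perm (Fin r)) : (SN r).obj r := fun k => th r ((π k).1 + 1)

theorem chiI_th {p : ℕ} (c : ℕ) (t : Dl p) :
    (chiI (th p (c + 1)) t : ℝ) = ∑ i : Fin (p + 1), if c < i.1 then t i else 0 := by
  change dmap (th p (c + 1)) t 1 = _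
  rw [dmap_apply, stdSimplex.map_coe, FunOnFinite.linearMap_apply_apply, Finset.sum_filter]
  refine Finset.sum_congr rfl fun i _ => ?_
  have h : ((th p (c + 1)) i = 1) ↔ c < i.1 := by
    rw [th_val]
    split_ifs with h
    · constructor
      · intro h1
        exact absurd h1 (by decide)
      · intro h1
        omega
    · constructor
      · intro _
        omega
      · intro _
        rfl
  by_cases hc : c < i.1
  · rw [if_pos hc, if_pos (h.2 hc)]
  · rw [if_neg hc, if_neg (mt h.1 hc)]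

theorem cxC_permT (r : ℕ) (π : Equiv.Perm (Fin r)) : cxC (permT r π) = cubS r π := by
  apply ContinuousMap.ext
  intro t
  refine Eq.trans ?_ (T0.SphH.cph_eq_tup (simS r π t)).symm
  refine (cxC_apply _ t).trans (congrArg tup (funext fun k => congrArg GB.loopU ?_))
  exact Subtype.ext (chiI_th _ t)

section

variable {X : Type} [TopologicalSpace X]

/-- a function on the simplices of `sing X` as a function on continuous maps -/
def gfn {n : ℕ} (u : (sing X).obj n → ZMod 2) (τ : C(Dl n, X)) : ZMod 2 := u (ofC τ)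

theorem gfn_d (u : Cc (sing X)) (n : ℕ) : gfn (Cc.d u (n + 1)) = cob (gfn (u n)) := by
  funext τ
  have h := congrFun ((Cc.toF_d n u).trans (CosMod.d_apply _ _ _)) (ofC τ)
  refine h.trans ?_
  have h2 : ∀ (s : Finset ℕ) (g : ℕ → (SS.F (ZMod 2) (sing X)).obj (n + 1)),
      (∑ i ∈ s, g i) (ofC τ) = ∑ i ∈ s, g i (ofC τ) := fun s g => Finset.sum_apply _ _ _
  refine (h2 _ _).trans ?_
  rw [Finset.sum_range, cob]
  refine Finset.sum_congr rfl fun i _ => ?_
  rw [T0.SphH.sn_two]
  change u n ((sing X).map (dl n i.1) (ofC τ)) = u n (ofC _)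
  rw [map_ofC, T0.SphH.dmap_dl]

theorem gfn_injective {n : ℕ} {u v : (sing X).obj n → ZMod 2} (h : gfn u = gfn v) : u = v :=
  funext fun x => congrFun h (toC x)

end

variable {r : ℕ}

theorem const_mem_bs (n : ℕ) : (bs r).mem (ofC (ContinuousMap.const (Dl n) (∞ : Sph r))) :=
  fun _ => rfl

theorem gfn_const {b : Cc (sing (Sph r))} (hv : Vn (bs r) b) (n : ℕ) :
    gfn (b n) (ContinuousMap.const _ ∞) = 0 := hv n _ (const_mem_bs n)

theorem cob_gfn {b : Cc (sing (Sph r))} (h : Cc.d b = 0) (n : ℕ) : cob (gfn (b n)) = 0 := by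
  rw [← gfn_d, h]
  rfl

theorem exists_d_iff {b : Cc (sing (Sph (r + 1)))} (hb : Cc.IsDeg (r + 1) b) :
    (∃ a : Cc (sing (Sph (r + 1))), Cc.d a = b) ↔ ∃ g, gfn (b (r + 1)) = cob g := by
  constructor
  · rintro ⟨a, rfl⟩
    exact ⟨_, gfn_d a r⟩
  · rintro ⟨g, hg⟩
    refine ⟨Cc.single r fun x => g (toC x), Cc.IsDeg.ext (Cc.isDeg_single _ _).d hb ?_⟩
    apply gfn_injective
    rw [gfn_d, hg, Cc.single_apply_self]
    rfl

/-- a reduced cocycle of degree `r` is a coboundary iff it vanishes on the collapse simplex -/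
theorem sig_cc (hr : 0 < r) {b : Cc (sing (Sph r))} (hb : Cc.IsDeg r b) (hd : Cc.d b = 0)
    (hv : Vn (bs r) b) :
    (∃ a : Cc (sing (Sph r)), Cc.d a = b) ↔ b r (ofC (sig r)) = 0 := by
  obtain ⟨k, rfl⟩ : ∃ k, r = k + 1 := ⟨r - 1, by omega⟩
  rw [exists_d_iff hb]
  have h := T0.SphH.cob_iff (T0.SphH.hgen_sph (k + 1)) T0.SphH.sig_bd (cob_gfn hd (k + 1))
  refine h.trans ?_
  have h1 := gfn_const hv (k + 1)
  constructor
  · intro h2
    have h3 : gfn (b (k + 1)) (sig (k + 1)) + gfn (b (k + 1)) (ContinuousMap.const _ ∞) = 0 := h2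
    rw [h1, add_zero] at h3
    exact h3
  · intro h2
    change gfn (b (k + 1)) (sig (k + 1)) + gfn (b (k + 1)) (ContinuousMap.const _ ∞) = 0
    rw [h1, add_zero]
    exact h2

/-- THE NUMBER ON THE CUBE. -/
theorem cube_cc (hr : 0 < r) {b : Cc (sing (Sph r))} (hb : Cc.IsDeg r b) (hd : Cc.d b = 0)
    (hv : Vn (bs r) b) :
    (∃ a : Cc (sing (Sph r)), Cc.d a = b) ↔
      ∑ π : Equiv.Perm (Fin r), b r ((cx r).app (permT r π)) = 0 := by
  obtain ⟨k, rfl⟩ : ∃ k, r = k + 1 := ⟨r - 1, by omega⟩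
  rw [exists_d_iff hb]
  have h := T0.SphH.cob_iff_EC (cob_gfn hd (k + 1))
  refine h.trans ?_
  have h1 := gfn_const hv (k + 1)
  have h2 : T0.SphH.EC (k + 1) (gfn (b (k + 1))) =
      ∑ π : Equiv.Perm (Fin (k + 1)), b (k + 1) ((cx (k + 1)).app (permT (k + 1) π)) := by
    rw [T0.SphH.EC]
    refine Finset.sum_congr rfl fun π _ => ?_
    have h3 : gfn (b (k + 1)) (ContinuousMap.const (Dl (k + 1)) ∞) = 0 := h1
    refine (congrArg₂ (· + ·) rfl h3).trans ?_
    rw [add_zero]
    change b (k + 1) (ofC (cubS (k + 1) π)) = b (k + 1) (ofC (cxC (permT (k + 1) π)))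
    rw [cxC_permT]
  rw [← h2]

/-- not a coboundary iff the number is one -/
theorem cube_cc_one (hr : 0 < r) {b : Cc (sing (Sph r))} (hb : Cc.IsDeg r b) (hd : Cc.d b = 0)
    (hv : Vn (bs r) b) :
    (¬ ∃ a : Cc (sing (Sph r)), Cc.d a = b) ↔
      ∑ π : Equiv.Perm (Fin r), b r ((cx r).app (permT r π)) = 1 := by
  rw [cube_cc hr hb hd hv]
  constructor
  · exact (T0.SphH.zmod_two _).resolve_left
  · intro h h'
    rw [h] at h'
    exact one_ne_zero h'

theorem sig_cc_one (hr : 0 < r) {b : Cc (sing (Sph r))} (hb : Cc.IsDeg r b) (hd : Cc.d b = 0)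
    (hv : Vn (bs r) b) :
    (¬ ∃ a : Cc (sing (Sph r)), Cc.d a = b) ↔ b r (ofC (sig r)) = 1 := by
  rw [sig_cc hr hb hd hv]
  constructor
  · exact (T0.SphH.zmod_two _).resolve_left
  · intro h h'
    rw [h] at h'
    exact one_ne_zero h'

/-- the constant simplices as a retract of the singular set -/
noncomputable def toPt (r : ℕ) : SS.Map (sing (Sph r)) (sing (Sph r)) :=
  singMap (ContinuousMap.const _ ∞)

/-- a reduced coboundary is the coboundary of a reduced cochain -/
theorem coh_rel {b a : Cc (sing (Sph r))} (hv : Vn (bs r) b) (ha : Cc.d a = b) :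
    Cc.d (a + Cc.pull (toPt r) a) = b ∧ Vn (bs r) (a + Cc.pull (toPt r) a) := by
  constructor
  · have h1 : Cc.d (Cc.pull (toPt r) a) = 0 := by
      rw [← pull_d, ha]
      funext p x
      exact hv p _ fun _ => rfl
    have h2 := (dHom (sing (Sph r))).map_add a (Cc.pull (toPt r) a)
    refine h2.trans ?_
    change Cc.d a + Cc.d (Cc.pull (toPt r) a) = b
    rw [h1, ha, add_zero]
  · intro p x hx
    have h1 : (toPt r).app x = x := by
      apply ContinuousMap.ext
      intro t
      exact (hx t).symm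
    change a p x + a p ((toPt r).app x) = 0
    rw [h1]
    exact CharTwo.add_self_eq_zero _

/-- the fundamental reduced cocycle of the sphere -/
theorem exists_fund (r : ℕ) (hr : 0 < r) : ∃ b : Cc (sing (Sph r)), Cc.IsDeg r b ∧ Cc.d b = 0 ∧
    Vn (bs r) b ∧ b r (ofC (sig r)) = 1 ∧
      ∑ π : Equiv.Perm (Fin r), b r ((cx r).app (permT r π)) = 1 := by
  obtain ⟨f, h1, h2⟩ := T0.SphH.exists_fund_cocycle (T0.SphH.hgen_sph r) T0.SphH.sig_bd
  let b0 : Cc (sing (Sph r)) := Cc.single r fun x => f (toC x)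
  have hb0 : Cc.d b0 = 0 := by
    refine Cc.IsDeg.ext (Cc.isDeg_single _ _).d (Cc.isDeg_zero _) ?_
    apply gfn_injective
    refine (gfn_d b0 r).trans ?_
    have h3 : b0 r = fun x => f (toC x) := Cc.single_apply_self _ _
    rw [h3]
    exact h1
  let b : Cc (sing (Sph r)) := b0 + Cc.pull (toPt r) b0
  have hdeg : Cc.IsDeg r b := (Cc.isDeg_single _ _).add ((Cc.isDeg_single _ _).pull _)
  have hd : Cc.d b = 0 := by
    have h3 := (dHom (sing (Sph r))).map_add b0 (Cc.pull (toPt r) b0)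
    refine h3.trans ?_
    change Cc.d b0 + Cc.d (Cc.pull (toPt r) b0) = 0
    rw [← pull_d, hb0]
    rfl
  have hv : Vn (bs r) b := by
    intro p x hx
    have h1 : (toPt r).app x = x := by
      apply ContinuousMap.ext
      intro t
      exact (hx t).symm
    change b0 p x + b0 p ((toPt r).app x) = 0
    rw [h1]
    exact CharTwo.add_self_eq_zero _
  have h1' : b r (ofC (sig r)) = 1 := by
    have h3 : b0 r = fun x => f (toC x) := Cc.single_apply_self _ _
    change b0 r (ofC (sig r)) + b0 r ((toPt r).app (ofC (sig r))) = 1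
    rw [h3]
    exact h2
  exact ⟨b, hdeg, hd, hv, h1', (cube_cc_one hr hdeg hd hv).1 ((sig_cc_one hr hdeg hd hv).2 h1')⟩

end Vale.Agent.P263.TJ
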