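import Vale.Agent.P263.TJ.HopfDef
import Vale.Agent.P263.TJ.Univ

/-!
# P263, block EB: Hopf invariant one from the universal class

`IsW.hopfOne` : if the universal class of a map `A : Sᵈ → Ωʳ Sʳ` is not zero, then the adjoint of
`A` has Hopf invariant one.
-/

open Finset OnePoint Topology

namespace Vale.Agent.P263.TJ

open Vale.Agent.P263.S Vale.Agent.P263.E Vale.Agent.P263.H83 Vale.Agent.P263.G2
  Vale.Agent.P263.T0

/-- **Hopf invariant one from the universal class** of the family `A`. -/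
theorem IsW.hopfOne {d r i : ℕ} {D : BC d r i} (hd : 0 < d) (A : C(Sph d, Om r))
    (hA : A ∞ = Om.const r) {w : Cc (sing (Sph d))} (hw : IsW (intg r) D (singMap A) w)
    (hn : ∀ a, w ≠ Cc.d a) : HopfOne (adjS A hA) := by
  have hr := D.deg
  obtain ⟨n, rfl⟩ : ∃ n, r = n + 1 := ⟨i + d, hr.symm⟩
  obtain ⟨e, hde, he, hcoh⟩ := hw
  refine hopfOne_adjS A hA hd (i := i) (by omega) (D.fsq e he)
    ⟨D.b_deg, hde, D.c_deg, by omega⟩ fun a ha => ?_
  have h1 : (Cc.cupC (sing (Sph d))).Coh w 0 := by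
    refine hcoh.trans ?_
    exact coh_of_d ha
  obtain ⟨a', ha'⟩ := exists_of_coh h1
  exact hn a' ha'

end Vale.Agent.P263.TJ
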