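import Vale.Agent.P263.TJ.JoinRes
import Vale.Agent.P263.GB.Plus

/-!
# P263, block EB: the class `w_d` and the loop sum

* `par ι D g` : the parity of the degree of a family of loops; `par_join`, `par_plus` : additivity;
  `isW_iff_par` : `w_d` exists iff the parity is zero.
* `IsW.plus` : `w_d (plus c g f) = w_d f + w_d g`, the literal loop sum `GB.plus`.
* `IsW.const` : `w_d = 0` for a constant family of even degree (`0 < d`).
* `IsW.plus_const`, `IsW.const_plus` : a fixed summand of even degree does not change `w_d`.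
* `IsW.plus_two` : two fixed summands of equal parity do not change `w_d`.
-/

open Finset OnePoint Topology

namespace Vale.Agent.P263.TJ

open Vale.Agent.P263.S Vale.Agent.P263.E Vale.Agent.P263.H83 Vale.Agent.P263.G2
  Vale.Agent.P263.T0

/-! ### the parity of the degree -/

section par

variable {r d i : ℕ} (ι : Intg r) (D : BC d r i) {X : TSet} {Y Z : SS}

/-- the parity of the degree (a function on the vertices) -/
noncomputable def par (g : SS.Map Y (G2.sing (Om r))) : Cc Y := ι.I (Cc.val ((evRel g).f D.b))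

theorem par_comp (g : SS.Map Y (G2.sing (Om r))) (f : SS.Map Z Y) :
    par ι D (g.comp f) = Cc.pull f (par ι D g) := by
  have h1 : Cc.val ((evRel (g.comp f)).f D.b) = Cc.pull (timesN f r) (Cc.val ((evRel g).f D.b)) := rfl
  rw [par, h1, ι.I_nat]
  rfl

variable {ι D}

theorem IsW.par_eq {g : SS.Map Y (G2.sing (Om r))} {w : Cc Y} (h : IsW ι D g w) :
    par ι D g = 0 := by
  have hr := D.deg
  obtain ⟨e, hd, he, -⟩ := h
  rw [par, ← he, Cc.val_d, ι.I_d _ (Cc.vn_val e), ι.I_low (k := r - 1) (by omega) hd, d_zero]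

theorem isW_iff_par {g : SS.Map Y (G2.sing (Om r))} : (∃ w, IsW ι D g w) ↔ par ι D g = 0 :=
  ⟨fun ⟨_, h⟩ => h.par_eq, fun h => IsW.exists_of h⟩

theorem isDeg_par (ι : Intg r) (D : BC d r i) (g : SS.Map Y (G2.sing (Om r))) :
    Cc.IsDeg 0 (par ι D g) := by
  refine ι.I_deg ?_
  rw [zero_add]
  exact D.b_deg.pull (evg g)

theorem d_par (ι : Intg r) (D : BC d r i) (g : SS.Map Y (G2.sing (Om r))) :
    Cc.d (par ι D g) = 0 := by
  have hdb : Cc.d (Cc.val D.b) = 0 := congrArg Cc.val D.d_b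
  rw [par, ← ι.I_d _ (Cc.vn_val _), val_evRel, ← pull_d, hdb, pull_zero]
  have h2 := ι.I_add (X := Y) 0 0
  rw [add_zero] at h2
  have h3 : ι.I (0 : Cc (Y.prod (SN r))) + ι.I (0 : Cc (Y.prod (SN r))) = 0 :=
    (Cc.cupC Y).two _
  rw [h2]
  exact h3

/-- the parity is a homotopy invariant -/
theorem par_htpy (ι : Intg r) (D : BC d r i) (G : SS.Map (cylS Y) (G2.sing (Om r))) :
    par ι D (G.comp (end0 Y)) = par ι D (G.comp (end1 Y)) := by
  have h := Cc.sOp_d (par ι D G)
  rw [d_par] at h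
  have h0 : Cc.sOp (0 : Cc (cylS Y)) = 0 := ((Cc.cyl Y).s).map_zero
  have h1 : Cc.sOp (par ι D G) = 0 := by
    funext p x
    rw [Cc.sOp_apply]
    exact sum_eq_zero fun j _ => isDeg_par ι D G (p + 1) (by omega) _
  rw [h0, h1, d_zero, add_zero] at h
  rw [par_comp, par_comp]
  exact (CupC.eq_add_of_add_eq (A := Cc.cupC Y) h.symm).trans (zero_add _)

/-- the integral of the coboundary of a cochain of degree `r - 1` -/
theorem I_d_low {k : ℕ} (hk : k < r) {w : Cc (Y.prod (SN r))} (hw : Vn (ends Y r) w)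
    (hd : Cc.IsDeg k w) : ι.I (Cc.d w) = 0 := by
  rw [ι.I_d _ hw, ι.I_low hk hd, d_zero]

variable (ι)

/-- the parity of `f` from `(x, y) ↦ f x (κ y)` -/
theorem par_evF (D : BC d r i) {O : Set (Sph r)} (ho : ∞ ∉ O) (hb : Vn (missK O) (Cc.val D.b))
    (f : X.Fam (Om r)) {κ : C(Sph r, Sph r)} {K : C(unitInterval × Sph r, Sph r)}
    (hK : ∀ s, K (s, ∞) = ∞) (hK0 : ∀ y, K (0, y) = y) (hK1 : ∀ y, K (1, y) = κ y) :
    par ι D f.ss = ι.I (Cc.pull (rhoM X r) (Cc.pull (evF f κ).ss (Cc.val D.b))) := by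
  have hr := D.deg
  have hdb : Cc.d (Cc.val D.b) = 0 := congrArg Cc.val D.d_b
  have h := Cc.sOp_d (Cc.pull (htF f K) (Cc.val D.b))
  rw [← pull_d, hdb, pull_zero] at h
  have h0 : Cc.sOp (0 : Cc (cylS (X.ss.prod (SN r)))) = 0 := ((Cc.cyl _).s).map_zero
  rw [h0, add_zero] at h
  have e0 : Cc.pull (end0 (X.ss.prod (SN r))) (Cc.pull (htF f K) (Cc.val D.b)) =
      Cc.val ((evRel f.ss).f D.b) := by
    rw [val_evRel, ← htF_end0 f hK0]
    rfl
  have e1 : Cc.pull (end1 (X.ss.prod (SN r))) (Cc.pull (htF f K) (Cc.val D.b)) =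
      Cc.pull (rhoM X r) (Cc.pull (evF f κ).ss (Cc.val D.b)) := by
    rw [← Cc.pull_comp, htF_end1 f hK1]
    rfl
  rw [e0, e1] at h
  have hv : Vn (ends X.ss r) (Cc.sOp (Cc.pull (htF f K) (Cc.val D.b))) :=
    Cc.vn_sOp (fun p x hx => hb p _ (htF_ends f hK ho x hx))
  have hdeg : Cc.IsDeg (r - 1) (Cc.sOp (Cc.pull (htF f K) (Cc.val D.b))) := by
    refine Cc.IsDeg.sOp ?_
    have h2 : r - 1 + 1 = r := by omega
    rw [h2]
    exact D.b_deg.pull _
  have h3 := congrArg ι.I h
  rw [I_d_low (by omega) hv hdeg, ι.I_add] at h3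
  exact (CupC.eq_add_of_add_eq (A := Cc.cupC X.ss) h3.symm).trans (zero_add _)

/-- **The parity is additive.** -/
theorem par_join (D : BC d r i) {O : Set (Sph r)} (hO : IsClosed O) (ho : ∞ ∉ O) (hb : Vn (missK O) (Cc.val D.b))
    {f g h : X.Fam (Om r)} {κ κ' : C(Sph r, Sph r)} {K K' : C(unitInterval × Sph r, Sph r)}
    (hK : ∀ s, K (s, ∞) = ∞) (hK0 : ∀ y, K (0, y) = y) (hK1 : ∀ y, K (1, y) = κ y)
    (hK' : ∀ s, K' (s, ∞) = ∞) (hK0' : ∀ y, K' (0, y) = y) (hK1' : ∀ y, K' (1, y) = κ' y)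
    (hor : ∀ {p : ℕ} (x : X.obj p) (t : G2.Dl p) (y : Sph r),
      (f.app x t (κ y) = ∞ ∧ h.app x t y = g.app x t (κ' y)) ∨
        (g.app x t (κ' y) = ∞ ∧ h.app x t y = f.app x t (κ y))) :
    par ι D h.ss = par ι D f.ss + par ι D g.ss := by
  have hr := D.deg
  have hκ : κ ∞ = ∞ := by rw [← hK1, hK]
  have hκ' : κ' ∞ = ∞ := by rw [← hK1', hK']
  have hor' : TSet.Fam.Or (evF f κ) (evF g κ') (evF h (ContinuousMap.id _)) := by
    intro p z t
    exact hor z.1 t ((show C(G2.Dl p, Sph r) from z.2) t)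
  have hid : (ContinuousMap.id (Sph r)) ∞ = ∞ := rfl
  have hloc := TSet.Fam.locU hO ho hor'
  have hA : ∀ {p : ℕ} (x : (PX X r).obj p), (AP X r).mem (p := p) x →
      x ∈ TSet.Fam.SmU (evF f κ) (evF g κ') (evF h (ContinuousMap.id _)) O p :=
    fun x hx => Or.inr (Or.inr fun t => ⟨evF_AP f hκ ho x hx t, evF_AP g hκ' ho x hx t,
      evF_AP h hid ho x hx t⟩)
  have hN := Cc.negl hloc hA
  have hadd := (TSet.Fam.joinU hO ho hor').add (fun z hz => evF_AP f hκ ho z hz)
    (fun z hz => evF_AP g hκ' ho z hz) (fun z hz => evF_AP h hid ho z hz)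
    (Cc.mkRel (missK O) (Cc.val D.b) hb)
  have hdb : (Cc.rel (missK O)).d (Cc.mkRel (missK O) (Cc.val D.b) hb) = 0 := by
    have h1 : Cc.d (Cc.val D.b) = 0 := congrArg Cc.val D.d_b
    exact Cc.rel_ext h1
  obtain ⟨η, -, hη⟩ := hN.acyc _ hadd (by
    rw [map_add, map_add, ← CupC.Hom.f_d, ← CupC.Hom.f_d, ← CupC.Hom.f_d, hdb, map_zero, map_zero,
      map_zero, add_zero, add_zero])
  have hη' : Cc.pull (evF h (ContinuousMap.id _)).ss (Cc.val D.b) +
      (Cc.pull (evF f κ).ss (Cc.val D.b) + Cc.pull (evF g κ').ss (Cc.val D.b)) =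
      Cc.d (Cc.comp (r - 1) (Cc.val η)) := by
    rw [← Cc.comp_d]
    have h2 : r - 1 + 1 = r := by omega
    rw [h2]
    have h3 := congrArg Cc.val hη
    have h4 : Cc.pull (evF h (ContinuousMap.id _)).ss (Cc.val D.b) +
      (Cc.pull (evF f κ).ss (Cc.val D.b) + Cc.pull (evF g κ').ss (Cc.val D.b)) =
      Cc.d (Cc.val η) := h3
    rw [← h4, Cc.comp_eq]
    exact (D.b_deg.pull _).add ((D.b_deg.pull _).add (D.b_deg.pull _))
  have h5 := congrArg (fun u => ι.I (Cc.pull (rhoM X r) u)) hη'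
  simp only [pull_add, ι.I_add] at h5
  have h8 : ι.I (Cc.pull (rhoM X r) (Cc.d (Cc.comp (r - 1) (Cc.val η)))) = 0 := by
    rw [pull_d]
    exact I_d_low (k := r - 1) (by omega)
      (fun p z hz => (Cc.vn_comp (Cc.vn_val η) (r - 1)) p _ (rhoM_ends hz))
      ((Cc.isDeg_comp (r - 1) (Cc.val η)).pull _)
  rw [h8] at h5
  have h6 : par ι D h.ss = ι.I (Cc.pull (rhoM X r)
    (Cc.pull (evF h (ContinuousMap.id _)).ss (Cc.val D.b))) := rfl
  rw [par_evF ι D ho hb f hK hK0 hK1, par_evF ι D ho hb g hK' hK0' hK1', h6]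
  exact (CupC.eq_add_of_add_eq (A := Cc.cupC X.ss) h5).trans (zero_add _)

end par

/-! ### the loop sum -/

section plus

variable {r d i : ℕ} {X : TSet}

/-- squeezing into the left part -/
noncomputable def KL (r : ℕ) (c : GB.Cut) : C(unitInterval × Sph (r + 1), Sph (r + 1)) where
  toFun p := GB.act (GB.rho 0 (1 - p.1.1 + p.1.1 * c.1)) p.2
  continuous_toFun := by
    refine GB.continuous_act (T := unitInterval)
      (ρ := fun s => GB.rho 0 (1 - s.1 + s.1 * c.1)) ?_ (fun _ => rfl)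
    refine GB.continuous_rho (P := unitInterval) (a := fun _ => 0)
      (b := fun s => 1 - s.1 + s.1 * c.1) continuous_const ?_ (fun _ => le_rfl)
      (fun s => ?_) (fun s => ?_)
    · exact (continuous_const.sub continuous_subtype_val).add
        (continuous_subtype_val.mul continuous_const)
    · have h1 := c.2.1; have h2 := c.2.2; have h3 := s.2.1; have h4 := s.2.2
      nlinarith
    · have h1 := c.2.1; have h2 := c.2.2; have h3 := s.2.1; have h4 := s.2.2
      nlinarith

/-- squeezing into the right part -/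
noncomputable def KR (r : ℕ) (c : GB.Cut) : C(unitInterval × Sph (r + 1), Sph (r + 1)) where
  toFun p := GB.act (GB.rho (p.1.1 * c.1) 1) p.2
  continuous_toFun := by
    refine GB.continuous_act (T := unitInterval)
      (ρ := fun s => GB.rho (s.1 * c.1) 1) ?_ (fun _ => rfl)
    refine GB.continuous_rho (P := unitInterval) (a := fun s => s.1 * c.1) (b := fun _ => 1)
      (continuous_subtype_val.mul continuous_const)
      continuous_const (fun s => ?_) (fun s => ?_) (fun _ => le_rfl)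
    · exact mul_nonneg s.2.1 c.2.1.le
    · have h1 := c.2.1; have h2 := c.2.2; have h3 := s.2.1; have h4 := s.2.2
      nlinarith

/-- the end of `KL` -/
noncomputable def kL (r : ℕ) (c : GB.Cut) : C(Sph (r + 1), Sph (r + 1)) :=
  ⟨fun y => GB.act (GB.rho 0 c.1) y, by
    have h := (KL r c).continuous.comp
      (continuous_const.prodMk continuous_id : Continuous fun y : Sph (r + 1) =>
        ((1 : unitInterval), y))
    have h2 : (fun y : Sph (r + 1) => GB.act (GB.rho 0 c.1) y) =
        (KL r c) ∘ fun y : Sph (r + 1) => ((1 : unitInterval), y) := by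
      funext y
      show _ = GB.act (GB.rho 0 (1 - 1 + 1 * c.1)) y
      rw [sub_self, zero_add, one_mul]
    rw [h2]
    exact h⟩

/-- the end of `KR` -/
noncomputable def kR (r : ℕ) (c : GB.Cut) : C(Sph (r + 1), Sph (r + 1)) :=
  ⟨fun y => GB.act (GB.rho c.1 1) y, by
    have h := (KR r c).continuous.comp
      (continuous_const.prodMk continuous_id : Continuous fun y : Sph (r + 1) =>
        ((1 : unitInterval), y))
    have h2 : (fun y : Sph (r + 1) => GB.act (GB.rho c.1 1) y) =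
        (KR r c) ∘ fun y : Sph (r + 1) => ((1 : unitInterval), y) := by
      funext y
      show _ = GB.act (GB.rho (1 * c.1) 1) y
      rw [one_mul]
    rw [h2]
    exact h⟩

theorem KL_infty (c : GB.Cut) (s : unitInterval) : KL r c (s, ∞) = ∞ := rfl

theorem KR_infty (c : GB.Cut) (s : unitInterval) : KR r c (s, ∞) = ∞ := rfl

theorem KL_zero (c : GB.Cut) (y : Sph (r + 1)) : KL r c (0, y) = y := by
  show GB.act (GB.rho 0 (1 - 0 + 0 * c.1)) y = y
  rw [sub_zero, zero_mul, add_zero]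
  exact (GB.act_congr GB.rho_zero_one y).trans (GB.act_id y)

theorem KR_zero (c : GB.Cut) (y : Sph (r + 1)) : KR r c (0, y) = y := by
  show GB.act (GB.rho (0 * c.1) 1) y = y
  rw [zero_mul]
  exact (GB.act_congr GB.rho_zero_one y).trans (GB.act_id y)

theorem KL_one (c : GB.Cut) (y : Sph (r + 1)) : KL r c (1, y) = kL r c y := by
  show GB.act (GB.rho 0 (1 - 1 + 1 * c.1)) y = GB.act (GB.rho 0 c.1) y
  rw [sub_self, zero_add, one_mul]

theorem KR_one (c : GB.Cut) (y : Sph (r + 1)) : KR r c (1, y) = kR r c y := by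
  show GB.act (GB.rho (1 * c.1) 1) y = GB.act (GB.rho c.1 1) y
  rw [one_mul]

/-- the loop sum of families -/
noncomputable def plusF (c : GB.Cut) (g f : X.Fam (Om (r + 1))) : X.Fam (Om (r + 1)) where
  app x := ⟨fun t => GB.plus c (g.app x t) (f.app x t),
    GB.continuous_plus (c := fun _ => c) continuous_const (f.app x).continuous
      (g.app x).continuous⟩
  nat a x := by
    apply ContinuousMap.ext
    intro t
    show GB.plus c (g.app (X.pull a x) t) (f.app (X.pull a x) t) = _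
    rw [g.nat_apply, f.nat_apply]
    rfl

theorem plusF_app (c : GB.Cut) (g f : X.Fam (Om (r + 1))) {p : ℕ} (x : X.obj p) (t : G2.Dl p) :
    (plusF c g f).app x t = GB.plus c (g.app x t) (f.app x t) := rfl

theorem plus_or (c : GB.Cut) (q p : Om (r + 1)) (y : Sph (r + 1)) :
    (p (kL r c y) = ∞ ∧ GB.plus c q p y = q (kR r c y)) ∨
      (q (kR r c y) = ∞ ∧ GB.plus c q p y = p (kL r c y)) := by
  have h0 : GB.plus c q p y = GB.ws (p (kL r c y)) (q (kR r c y)) := GB.plus_apply c q p y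
  rcases (GB.dj_cut c).act y with h | h
  · have h1 : kL r c y = ∞ := h
    have h2 : p (kL r c y) = ∞ := by rw [h1]; exact p.2
    left
    refine ⟨h2, ?_⟩
    rw [h0, h2, GB.ws_infty_left]
  · have h1 : kR r c y = ∞ := h
    have h2 : q (kR r c y) = ∞ := by rw [h1]; exact q.2
    right
    refine ⟨h2, ?_⟩
    rw [h0, h2, GB.ws_infty_right]

variable {ι : Intg (r + 1)} {D : BC d (r + 1) i} {O : Set (Sph (r + 1))}

/-- **The class `w_d` is additive for the loop sum.** -/
theorem IsW.plus (hO : IsClosed O) (ho : ∞ ∉ O) (hb : Vn (missK O) (Cc.val D.b)) (hc : Vn (missK O) (Cc.val D.c))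
    (c : GB.Cut) {f g : X.Fam (Om (r + 1))} {w w' : Cc X.ss} (hw : IsW ι D f.ss w)
    (hw' : IsW ι D g.ss w') : IsW ι D (plusF c g f).ss (w + w') :=
  IsW.join hO ho hb hc (KL_infty c) (KL_zero c) (KL_one c) (KR_infty c) (KR_zero c) (KR_one c)
    (fun x t y => plus_or c (g.app x t) (f.app x t) y) hw hw'

theorem par_plus (hO : IsClosed O) (ho : ∞ ∉ O) (hb : Vn (missK O) (Cc.val D.b)) (c : GB.Cut)
    (f g : X.Fam (Om (r + 1))) :
    par ι D (plusF c g f).ss = par ι D f.ss + par ι D g.ss :=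
  par_join ι D hO ho hb (KL_infty c) (KL_zero c) (KL_one c) (KR_infty c) (KR_zero c) (KR_one c)
    (fun x t y => plus_or c (g.app x t) (f.app x t) y)

end plus

/-! ### constant families -/

/-- the point -/
def ptT : TSet where
  obj _ := Unit
  pull _ _ := ()
  pull_id _ := rfl
  pull_comp _ _ _ := rfl

/-- the map to the point -/
noncomputable def toPtF (X : TSet) : SS.Map X.ss ptT.ss := ⟨fun _ => (), fun _ _ => rfl⟩

/-- a constant family -/
def cF (X : TSet) {r : ℕ} (p : Om r) : X.Fam (Om r) where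
  app _ := ContinuousMap.const _ p
  nat _ _ := rfl

theorem cF_ss (X : TSet) {r : ℕ} (p : Om r) : (cF X p).ss = (cF ptT p).ss.comp (toPtF X) := rfl

/-- homotopies of families give homotopies of simplicial maps -/
noncomputable def htG {X : TSet} {r : ℕ} (G : (X.prod (TSet.sing unitInterval)).Fam (Om r)) :
    SS.Map (cylS X.ss) (G2.sing (Om r)) :=
  ⟨fun {p} z => ofC (G.app (p := p) ((z.1, chiI (z.2 : Op p 1)) :
      (X.prod (TSet.sing unitInterval)).obj p)), fun {p q} g z => by
    have h1 : ((X.pull (dmap g) z.1, chiI ((z.2 : Op q 1).comp g)) :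
        (X.prod (TSet.sing unitInterval)).obj p) =
        (X.prod (TSet.sing unitInterval)).pull (dmap g)
          ((z.1, chiI (z.2 : Op q 1)) : (X.prod (TSet.sing unitInterval)).obj q) :=
      Prod.ext rfl (chiI_comp (z.2 : Op q 1) g)
    exact (congrArg G.app h1).trans (G.nat (dmap g) _)⟩

/-- the family given by a path -/
noncomputable def pathF {r : ℕ} {p q : Om r} (γ : Path p q) :
    (ptT.prod (TSet.sing unitInterval)).Fam (Om r) where
  app z := (γ : C(unitInterval, Om r)).comp z.2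
  nat _ _ := rfl

/-- **The parity of a loop only depends on its path component.** -/
theorem par_joined {r d i : ℕ} (ι : Intg r) (D : BC d r i) {p q : Om r} (h : Joined p q) :
    par ι D (cF ptT p).ss = par ι D (cF ptT q).ss := by
  obtain ⟨γ⟩ := h
  have e0 : (htG (pathF γ)).comp (end0 ptT.ss) = (cF ptT p).ss := by
    apply SS.Map.ext
    intro n x
    apply ContinuousMap.ext
    intro t
    show γ (chiI (c0 n) t) = p
    rw [chiI_c0]
    exact γ.source
  have e1 : (htG (pathF γ)).comp (end1 ptT.ss) = (cF ptT q).ss := by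
    apply SS.Map.ext
    intro n x
    apply ContinuousMap.ext
    intro t
    show γ (chiI (c1 n) t) = q
    rw [chiI_c1]
    exact γ.target
  rw [← e0, ← e1]
  exact par_htpy ι D _

/-- the point has no cohomology in positive degrees -/
theorem coh_pt {d : ℕ} (hd : 0 < d) {u : Cc ptT.ss} (hu : Cc.IsDeg d u) (hdu : Cc.d u = 0) :
    (Cc.cupC ptT.ss).Coh u 0 := by
  have key : ∀ (v : Cc ptT.ss) (p : ℕ) (σ : ptT.ss.obj (p + 1)),
      Cc.d v (p + 1) σ = ((p + 2 : ℕ) : ZMod 2) * v p () := by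
    intro v p σ
    rw [d_succ_apply]
    have h1 : ∀ j ∈ range (p + 2), v p (ptT.ss.map (dl p j) σ) = v p () := fun _ _ => rfl
    rw [sum_congr rfl h1, sum_const, card_range, nsmul_eq_mul]
  rcases Nat.even_or_odd d with he | ho
  · obtain ⟨e, rfl⟩ : ∃ e, d = e + 1 := ⟨d - 1, by omega⟩
    refine ⟨Cc.single e fun _ => u (e + 1) (), ?_⟩
    refine (add_zero (u : (Cc.cupC ptT.ss).C)).trans ?_
    refine Cc.IsDeg.ext hu (Cc.isDeg_single e _).d ?_
    funext σ
    refine Eq.trans ?_ (key _ e σ).symm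
    have h2 : ((e + 2 : ℕ) : ZMod 2) = 1 := by
      have h3 : Odd (e + 2) := by
        obtain ⟨k, hk⟩ := he
        exact ⟨k, by omega⟩
      obtain ⟨k, hk⟩ := h3
      rw [hk]
      push_cast
      have : (2 : ZMod 2) = 0 := rfl
      rw [this, zero_mul, zero_add]
    rw [h2, one_mul]
    exact (Cc.single_self (X := ptT.ss) e _ ()).symm
  · have h0 : u = 0 := by
      refine Cc.IsDeg.ext hu (Cc.isDeg_zero d) ?_
      funext σ
      have h1 := key u d ()
      rw [hdu] at h1
      have h2 : ((d + 2 : ℕ) : ZMod 2) = 1 := by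
        obtain ⟨k, hk⟩ := ho
        have h3 : d + 2 = 2 * (k + 1) + 1 := by omega
        rw [h3]
        push_cast
        have : (2 : ZMod 2) = 0 := rfl
        rw [this, zero_mul, zero_add]
      rw [h2, one_mul] at h1
      exact h1.symm
    subst h0
    exact CupC.Coh.refl _

section const

variable {r d i : ℕ} {ι : Intg r} {D : BC d r i} {X : TSet}

/-- a constant family of even degree has trivial class -/
theorem IsW.const (hd : 0 < d) {p : Om r} (hp : par ι D (cF ptT p).ss = 0) :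
    IsW ι D (cF X p).ss 0 := by
  obtain ⟨w, hw⟩ := isW_iff_par.2 hp
  obtain ⟨w', h1, h2, h3⟩ := hw.exists_deg
  have h4 : IsW ι D (cF ptT p).ss 0 := h1.of_coh (coh_pt hd h2 h3).symm
  have h5 := h4.pull (toPtF X)
  rw [← cF_ss] at h5
  exact h5

end const

/-- cochains which vanish on the simplices which miss a point -/
theorem vn_missK {Y : Type} [TopologicalSpace Y] {o : Y} {u : Cc (G2.sing Y)}
    (h : Vn (missS o) u) : Vn (missK {o}) u :=
  fun p x hx => h p x fun t ht => hx t (by rw [Set.mem_singleton_iff]; exact ht)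

section plusConst

variable {r d i : ℕ} {ι : Intg (r + 1)} {D : BC d (r + 1) i} {O : Set (Sph (r + 1))} {X : TSet}

/-- **A fixed summand of even degree does not change `w_d`.** -/
theorem IsW.plus_const (hO : IsClosed O) (ho : ∞ ∉ O) (hb : Vn (missK O) (Cc.val D.b))
    (hc : Vn (missK O) (Cc.val D.c)) (hd : 0 < d) (c : GB.Cut) {p : Om (r + 1)}
    (hp : par ι D (cF ptT p).ss = 0) {f : X.Fam (Om (r + 1))} {w : Cc X.ss}
    (hw : IsW ι D f.ss w) : IsW ι D (plusF c (cF X p) f).ss w := by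
  have h := hw.plus hO ho hb hc c (IsW.const (X := X) hd hp)
  rwa [add_zero] at h

theorem IsW.const_plus (hO : IsClosed O) (ho : ∞ ∉ O) (hb : Vn (missK O) (Cc.val D.b))
    (hc : Vn (missK O) (Cc.val D.c)) (hd : 0 < d) (c : GB.Cut) {p : Om (r + 1)}
    (hp : par ι D (cF ptT p).ss = 0) {f : X.Fam (Om (r + 1))} {w : Cc X.ss}
    (hw : IsW ι D f.ss w) : IsW ι D (plusF c f (cF X p)).ss w := by
  have h := (IsW.const (X := X) hd hp).plus hO ho hb hc c hw
  rwa [zero_add] at h

theorem par_plus_self (hO : IsClosed O) (ho : ∞ ∉ O) (hb : Vn (missK O) (Cc.val D.b)) (c : GB.Cut)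
    (q : Om (r + 1)) : par ι D (cF ptT (GB.plus c q q)).ss = 0 := by
  have h1 : (cF ptT (GB.plus c q q)).ss = (plusF c (cF ptT q) (cF ptT q)).ss := rfl
  rw [h1, par_plus hO ho hb]
  exact (Cc.cupC ptT.ss).two _

/-- **Adding the same loop twice does not change `w_d`** (any loop, on the right). -/
theorem IsW.plus_twice (hO : IsClosed O) (ho : ∞ ∉ O) (hb : Vn (missK O) (Cc.val D.b))
    (hc : Vn (missK O) (Cc.val D.c)) (hd : 0 < d) (c c' : GB.Cut) (q : Om (r + 1))
    {f : X.Fam (Om (r + 1))} {w : Cc X.ss} (hw : IsW ι D f.ss w) :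
    IsW ι D (plusF c' (cF X q) (plusF c (cF X q) f)).ss w := by
  have h := hw.plus_const hO ho hb hc hd (GB.cutM c' c) (p := GB.plus (GB.cut2 c' c) q q)
    (par_plus_self hO ho hb _ q)
  have e : (plusF c' (cF X q) (plusF c (cF X q) f)).ss =
      (plusF (GB.cutM c' c) (cF X (GB.plus (GB.cut2 c' c) q q)) f).ss := by
    apply SS.Map.ext
    intro p x
    apply ContinuousMap.ext
    intro t
    exact GB.plus_plus c' c q q (f.app (p := p) x t)
  rw [e]
  exact h

end plusConst

end Vale.Agent.P263.TJ
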