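import Vale.Agent.P263.TJ.JoinAdd
import Vale.Agent.P263.TJ.FHtp
import Vale.Agent.P263.TJ.Univ
import Vale.Agent.P263.TJ.BoxSq

/-!
# P263, block EB: additivity of the functional squares of families of loops (S5)

* `FSqD.join_res` : the additivity lemma when the functional squares live on a restriction
  `ρ : P → U` of the cochain object `P` in which the negligible cochains are acyclic.
* `TSet.Fam X Y` : families of maps to a space `Y` over a set of continuous families `X`.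
* `IsW.join` : `w_d(h) = w_d(f) + w_d(g)` if `h x y` is `f x (κ₁ y)` where this is not the base
  point and `g x (κ₂ y)` otherwise, `κ₁, κ₂ : Sʳ → Sʳ` pointed homotopic to the identity.
-/

open Finset OnePoint Topology

namespace Vale.Agent.P263.TJ

open Vale.Agent.P263.S Vale.Agent.P263.E Vale.Agent.P263.H83 Vale.Agent.P263.G2
  Vale.Agent.P263.T0

namespace CupC

variable {U V P : CupC}

theorem d_cup_of (A : CupC) (j : ℕ) {x y : A.C} (hx : A.d x = 0) :
    A.d (A.cup (j + 1) x y) = A.cup (j + 1) x (A.d y) + A.cup j x y + A.cup j y x := by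
  rw [A.d_cup, hx]
  simp only [map_zero, AddMonoidHom.zero_apply, zero_add]

theorem d_cup_of' (A : CupC) (j : ℕ) {x y : A.C} (hy : A.d y = 0) :
    A.d (A.cup (j + 1) x y) = A.cup (j + 1) (A.d x) y + A.cup j x y + A.cup j y x := by
  rw [A.d_cup, hy]
  simp only [map_zero, add_zero]

/-- the negligible part is closed -/
theorem d_join_rest (i : ℕ) {P : CupC} {x y z η cx cy cz : P.C} (hx : P.d x = 0) (hy : P.d y = 0)
    (hη : z + (x + y) = P.d η) (hcx : P.cup (i + 1) x x = P.d cx)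
    (hcy : P.cup (i + 1) y y = P.d cy) (hcz : P.cup (i + 1) z z = P.d cz) :
    P.d (P.q i η + P.cup (i + 1) (x + y) η + P.cup (i + 1) η (x + y) + P.cup (i + 2) x y +
      (cz + (cx + cy))) = 0 := by
  have hxy : P.d (x + y) = 0 := by rw [map_add, hx, hy, add_zero]
  obtain ⟨s, hs⟩ : ∃ s, s = x + y := ⟨_, rfl⟩
  have hz' : z = P.d η + s := by
    rw [← hη, ← hs, add_assoc, P.two, add_zero]
  have hss : P.cup (i + 1) s s = P.cup (i + 1) x x + P.cup (i + 1) y y +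
      (P.cup (i + 1) x y + P.cup (i + 1) y x) := by
    rw [hs]
    simp only [map_add, AddMonoidHom.add_apply]
    abel
  have hzz : P.cup (i + 1) z z = P.cup (i + 1) (P.d η) (P.d η) + P.cup (i + 1) s s +
      (P.cup (i + 1) (P.d η) s + P.cup (i + 1) s (P.d η)) := by
    rw [hz']
    simp only [map_add, AddMonoidHom.add_apply]
    abel
  rw [← hs] at hxy ⊢
  simp only [map_add P.d]
  rw [← hcx, ← hcy, ← hcz, P.d_q, P.d_cup_of i hxy, P.d_cup_of' i hxy, hzz,
    P.d_cup_of (i + 1) hx, hy, map_zero, zero_add, hss]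
  have e1 := P.two (P.cup (i + 1) (P.d η) (P.d η))
  have e2 := P.two (P.cup (i + 1) s (P.d η))
  have e3 := P.two (P.cup i s η)
  have e4 := P.two (P.cup i η s)
  have e5 := P.two (P.cup (i + 1) (P.d η) s)
  have e6 := P.two (P.cup (i + 1) x y)
  have e7 := P.two (P.cup (i + 1) y x)
  have e8 := P.two (P.cup (i + 1) x x)
  have e9 := P.two (P.cup (i + 1) y y)
  calc _ = (P.cup (i + 1) (P.d η) (P.d η) + P.cup (i + 1) (P.d η) (P.d η)) +
        (P.cup (i + 1) s (P.d η) + P.cup (i + 1) s (P.d η)) +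
        (P.cup i s η + P.cup i s η) + (P.cup i η s + P.cup i η s) +
        (P.cup (i + 1) (P.d η) s + P.cup (i + 1) (P.d η) s) +
        (P.cup (i + 1) x y + P.cup (i + 1) x y) + (P.cup (i + 1) y x + P.cup (i + 1) y x) +
        (P.cup (i + 1) x x + P.cup (i + 1) x x) + (P.cup (i + 1) y y + P.cup (i + 1) y y) := by
        abel
    _ = 0 := by rw [e1, e2, e3, e4, e5, e6, e7, e8, e9]; simp only [add_zero]

namespace FSqD

variable {f g h : Hom V P} {i : ℕ} {N : AddSubgroup P.C}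

/-- **Additivity of the functional squares** on a restriction. -/
theorem join_res_aux (hN : Negl P N) (hmul : ∀ j u v, P.cup j (f.f u) (g.f v) ∈ N)
    (hadd : ∀ v, h.f v + (f.f v + g.f v) ∈ N) (ρ : Hom P U)
    (D : FSqD (ρ.comp f) i) (D' : FSqD (ρ.comp g) i) (hb : D'.b = D.b) (hc : D'.c = D.c)
    {η : P.C} (hη : η ∈ N) (hd : h.f D.b + (f.f D.b + g.f D.b) = P.d η) :
    ∃ E : FSqD (ρ.comp h) i, E.b = D.b ∧ E.c = D.c ∧ E.e = D.e + D'.e + ρ.f η ∧
      U.Coh E.val (D.val + D'.val) := by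
  have hde : U.d (D.e + D'.e + ρ.f η) = ρ.f (h.f D.b) := by
    have h1 : U.d D.e = ρ.f (f.f D.b) := D.d_e
    have h2 : U.d D'.e = ρ.f (g.f D.b) := by rw [← hb]; exact D'.d_e
    rw [map_add, map_add, h1, h2, ← ρ.f_d, ← hd, map_add, map_add]
    have h3 := U.two (ρ.f (f.f D.b) + ρ.f (g.f D.b))
    calc _ = ρ.f (h.f D.b) + ((ρ.f (f.f D.b) + ρ.f (g.f D.b)) +
          (ρ.f (f.f D.b) + ρ.f (g.f D.b))) := by abel
      _ = _ := by rw [h3, add_zero]
  refine ⟨⟨D.b, D.e + D'.e + ρ.f η, D.c, D.d_b, hde, D.d_c⟩, rfl, rfl, rfl, ?_⟩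
  have hf0 : P.d (f.f D.b) = 0 := by rw [← f.f_d, D.d_b, map_zero]
  have hg0 : P.d (g.f D.b) = 0 := by rw [← g.f_d, D.d_b, map_zero]
  -- the negligible part
  obtain ⟨ν, hν⟩ : ∃ ν, ν = P.q i η + P.cup (i + 1) (f.f D.b + g.f D.b) η +
    P.cup (i + 1) η (f.f D.b + g.f D.b) + P.cup (i + 2) (f.f D.b) (g.f D.b) +
    (h.f D.c + (f.f D.c + g.f D.c)) := ⟨_, rfl⟩
  have hνN : ν ∈ N := by
    rw [hν]
    exact N.add_mem (N.add_mem (N.add_mem (N.add_mem (hN.q_mem i hη)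
      (hN.right _ _ _ hη)) (hN.left _ _ hη _)) (hmul _ _ _)) (hadd _)
  have hνd : P.d ν = 0 := by
    rw [hν]
    exact d_join_rest i hf0 hg0 hd (by rw [← f.f_cup, D.d_c, f.f_d])
      (by rw [← g.f_cup, D.d_c, g.f_d]) (by rw [← h.f_cup, D.d_c, h.f_d])
  obtain ⟨w, -, hw⟩ := hN.acyc ν hνN hνd
  -- the deviation
  obtain ⟨ε, hε⟩ : ∃ ε, ε = ρ.f η := ⟨_, rfl⟩
  obtain ⟨x, hx⟩ : ∃ x, x = ρ.f (f.f D.b) := ⟨_, rfl⟩
  obtain ⟨y, hy⟩ : ∃ y, y = ρ.f (g.f D.b) := ⟨_, rfl⟩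
  have hdD : U.d D.e = x := by rw [hx]; exact D.d_e
  have hdD' : U.d D'.e = y := by rw [hy, ← hb]; exact D'.d_e
  have hx0 : U.d x = 0 := by rw [hx, ← ρ.f_d, hf0, map_zero]
  have q1 := U.q_add i (D.e + D'.e) ε
  have q2 := U.q_add i D.e D'.e
  have q3 : U.d (U.cup (i + 2) x D'.e) = U.cup (i + 2) x y +
      U.cup (i + 1) x D'.e + U.cup (i + 1) D'.e x := by
    rw [U.d_cup_of (i + 1) hx0, hdD']
  rw [map_add U.d D.e, hdD, hdD'] at q1
  rw [hdD] at q2
  have hρν : ρ.f ν = U.q i ε + U.cup (i + 1) (x + y) ε + U.cup (i + 1) ε (x + y) +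
      U.cup (i + 2) x y + (ρ.f (h.f D.c) + (ρ.f (f.f D.c) + ρ.f (g.f D.c))) := by
    rw [hν]
    simp only [map_add ρ.f, ρ.f_q, ρ.f_cup]
    rw [← hε, ← hx, ← hy]
  refine ⟨U.cup (i + 1) (D.e + D'.e) ε + U.cup (i + 1) D.e D'.e + U.cup (i + 2) x D'.e +
    ρ.f w, ?_⟩
  have hcD : D'.val = U.q i D'.e + ρ.f (g.f D.c) := by
    rw [← hc]
    rfl
  have hcE : (U.q i (D.e + D'.e + ρ.f η) + ρ.f (h.f D.c)) +
      ((U.q i D.e + ρ.f (f.f D.c)) + (U.q i D'.e + ρ.f (g.f D.c))) =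
      U.d (U.cup (i + 1) (D.e + D'.e) ε + U.cup (i + 1) D.e D'.e + U.cup (i + 2) x D'.e +
        ρ.f w) := by
    have q1' : U.d (U.cup (i + 1) (D.e + D'.e) ε) = U.q i (D.e + D'.e + ε) +
        U.q i (D.e + D'.e) + U.q i ε + U.cup (i + 1) (x + y) ε + U.cup (i + 1) ε (x + y) := by
      rw [q1]
      have e1 := U.two (U.cup (i + 1) (x + y) ε)
      have e2 := U.two (U.cup (i + 1) ε (x + y))
      symm
      calc _ = U.d (U.cup (i + 1) (D.e + D'.e) ε) + (U.cup (i + 1) (x + y) ε +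
            U.cup (i + 1) (x + y) ε) + (U.cup (i + 1) ε (x + y) + U.cup (i + 1) ε (x + y)) := by
            abel
        _ = _ := by rw [e1, e2, add_zero, add_zero]
    have q2' : U.d (U.cup (i + 1) D.e D'.e) = U.q i (D.e + D'.e) + U.q i D.e + U.q i D'.e +
        U.cup (i + 1) x D'.e + U.cup (i + 1) D'.e x := by
      rw [q2]
      have e1 := U.two (U.cup (i + 1) x D'.e)
      have e2 := U.two (U.cup (i + 1) D'.e x)
      symm
      calc _ = U.d (U.cup (i + 1) D.e D'.e) + (U.cup (i + 1) x D'.e + U.cup (i + 1) x D'.e) +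
            (U.cup (i + 1) D'.e x + U.cup (i + 1) D'.e x) := by abel
        _ = _ := by rw [e1, e2, add_zero, add_zero]
    rw [map_add U.d, map_add U.d, map_add U.d, q1', q2', q3, ← ρ.f_d, ← hw, hρν, ← hε]
    have e0 := U.two (U.q i (D.e + D'.e))
    have e1 := U.two (U.q i ε)
    have e2 := U.two (U.cup (i + 1) (x + y) ε)
    have e3 := U.two (U.cup (i + 1) ε (x + y))
    have e4 := U.two (U.cup (i + 1) x D'.e)
    have e5 := U.two (U.cup (i + 1) D'.e x)
    have e6 := U.two (U.cup (i + 2) x y)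
    symm
    calc _ = (U.q i (D.e + D'.e + ε) + ρ.f (h.f D.c)) +
          ((U.q i D.e + ρ.f (f.f D.c)) + (U.q i D'.e + ρ.f (g.f D.c))) +
          (U.q i (D.e + D'.e) + U.q i (D.e + D'.e)) + (U.q i ε + U.q i ε) +
          (U.cup (i + 1) (x + y) ε + U.cup (i + 1) (x + y) ε) +
          (U.cup (i + 1) ε (x + y) + U.cup (i + 1) ε (x + y)) +
          (U.cup (i + 1) x D'.e + U.cup (i + 1) x D'.e) +
          (U.cup (i + 1) D'.e x + U.cup (i + 1) D'.e x) +
          (U.cup (i + 2) x y + U.cup (i + 2) x y) := by abel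
      _ = _ := by
        rw [e0, e1, e2, e3, e4, e5, e6]
        simp only [add_zero]
  rw [← hcE, hcD]
  rfl

theorem join_res (hN : Negl P N) (hmul : ∀ j u v, P.cup j (f.f u) (g.f v) ∈ N)
    (hadd : ∀ v, h.f v + (f.f v + g.f v) ∈ N) (ρ : Hom P U)
    (D : FSqD (ρ.comp f) i) (D' : FSqD (ρ.comp g) i) (hb : D'.b = D.b) (hc : D'.c = D.c) :
    ∃ E : FSqD (ρ.comp h) i, E.b = D.b ∧ E.c = D.c ∧ U.Coh E.val (D.val + D'.val) := by
  obtain ⟨η, hη, hd⟩ := hN.acyc _ (hadd D.b) (by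
    rw [map_add, map_add, ← h.f_d, ← f.f_d, ← g.f_d, D.d_b, map_zero, map_zero, map_zero,
      add_zero, add_zero])
  obtain ⟨E, h1, h2, -, h4⟩ := join_res_aux hN hmul hadd ρ D D' hb hc hη hd
  exact ⟨E, h1, h2, h4⟩

/-- the homogeneous form -/
theorem join_res_homog (hN : Negl P N) (hmul : ∀ j u v, P.cup j (f.f u) (g.f v) ∈ N)
    (hadd : ∀ v, h.f v + (f.f v + g.f v) ∈ N) {GV : Gr V} {GP : Gr P} {GU : Gr U}
    (hpr : ∀ n, ∀ x ∈ N, GP.pr n x ∈ N) {n k : ℕ}
    (hf : ∀ x ∈ GV.deg (n + 1), f.f x ∈ GP.deg (n + 1))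
    (hg : ∀ x ∈ GV.deg (n + 1), g.f x ∈ GP.deg (n + 1))
    (hh : ∀ x ∈ GV.deg (n + 1), h.f x ∈ GP.deg (n + 1)) (ρ : Hom P U)
    (hρ : ∀ x ∈ GP.deg n, ρ.f x ∈ GU.deg n)
    (D : FSqD (ρ.comp f) i) (D' : FSqD (ρ.comp g) i) (hb : D'.b = D.b) (hc : D'.c = D.c)
    (hD : D.Homog GV GU n k) (hD' : D'.Homog GV GU n k) :
    ∃ E : FSqD (ρ.comp h) i, E.b = D.b ∧ E.c = D.c ∧ E.Homog GV GU n k ∧
      U.Coh E.val (D.val + D'.val) := by
  obtain ⟨η, hη, hd⟩ := hN.acyc _ (hadd D.b) (by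
    rw [map_add, map_add, ← h.f_d, ← f.f_d, ← g.f_d, D.d_b, map_zero, map_zero, map_zero,
      add_zero, add_zero])
  have hd' : h.f D.b + (f.f D.b + g.f D.b) = P.d (GP.pr n η) := by
    rw [← GP.pr_d, ← hd, GP.pr_eq]
    exact (GP.deg _).add_mem (hh _ hD.b_mem) ((GP.deg _).add_mem (hf _ hD.b_mem) (hg _ hD.b_mem))
  obtain ⟨E, h1, h2, h3, h4⟩ := join_res_aux hN hmul hadd ρ D D' hb hc (hpr n η hη) hd'
  refine ⟨E, h1, h2, ⟨?_, ?_, ?_, hD.deg_eq⟩, h4⟩
  · rw [h1]; exact hD.b_mem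
  · rw [h3]
    exact (GU.deg n).add_mem ((GU.deg n).add_mem hD.e_mem hD'.e_mem) (hρ _ (GP.pr_mem n η))
  · rw [h2]; exact hD.c_mem

/-- the same data for an equal morphism -/
def congrJ {g g' : Hom V U} {i : ℕ} (D : FSqD g i) (h : ∀ x, g'.f x = g.f x) : FSqD g' i :=
  ⟨D.b, D.e, D.c, D.d_b, by rw [h, D.d_e], D.d_c⟩

theorem val_congrJ {g g' : Hom V U} {i : ℕ} (D : FSqD g i) (h : ∀ x, g'.f x = g.f x) :
    (D.congrJ h).val = D.val := by
  show U.q i D.e + g'.f D.c = U.q i D.e + g.f D.c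
  rw [h]

end FSqD

end CupC

/-! ### families of maps -/

namespace TSet

/-- families of maps to a space -/
structure Fam (X : TSet) (Y : Type) [TopologicalSpace Y] where
  /-- the family -/
  app : ∀ {p : ℕ}, X.obj p → C(G2.Dl p, Y)
  nat : ∀ {p q : ℕ} (f : C(G2.Dl p, G2.Dl q)) (x : X.obj q), app (X.pull f x) = (app x).comp f

variable {X : TSet}

theorem Fam.nat_apply {Y : Type} [TopologicalSpace Y] (F : X.Fam Y) {p q : ℕ}
    (f : C(G2.Dl p, G2.Dl q)) (x : X.obj q) (t : G2.Dl p) :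
    F.app (X.pull f x) t = F.app x (f t) := by rw [F.nat]; rfl

/-- the simplicial map -/
noncomputable def Fam.ss {Y : Type} [TopologicalSpace Y] (F : X.Fam Y) :
    SS.Map X.ss (G2.sing Y) :=
  ⟨fun x => ofC (F.app x), fun f x => F.nat (dmap f) x⟩

theorem Fam.ss_app {Y : Type} [TopologicalSpace Y] (F : X.Fam Y) {p : ℕ} (x : X.ss.obj p)
    (t : G2.Dl p) : toC (F.ss.app x) t = F.app (p := p) x t := rfl

/-- `H` is pointwise `F` or `G`, and the other one is at the base point -/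
def Fam.Or {Y : Type} [TopologicalSpace Y] (F G H : X.Fam (OnePoint Y)) : Prop :=
  ∀ {p : ℕ} (x : X.obj p) (t : G2.Dl p),
    (F.app x t = ∞ ∧ H.app x t = G.app x t) ∨ (G.app x t = ∞ ∧ H.app x t = F.app x t)

namespace Fam

variable {Y : Type} [TopologicalSpace Y] [T1Space (OnePoint Y)] (F G H : X.Fam (OnePoint Y))
  (O : Set (OnePoint Y))

/-- small simplices: one of `F`, `G` misses `O` and `H` is the other one, or all miss `O` -/
def SmU (p : ℕ) : Set (X.obj p) :=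
  {x | (∀ t, G.app x t ∉ O ∧ H.app x t = F.app x t) ∨
    (∀ t, F.app x t ∉ O ∧ H.app x t = G.app x t) ∨
    (∀ t, F.app x t ∉ O ∧ G.app x t ∉ O ∧ H.app x t ∉ O)}

variable {F G H O}

theorem locU (hO : IsClosed O) (ho : ∞ ∉ O) (hor : Fam.Or F G H) : X.Loc (SmU F G H O) where
  pull f x hx := by
    rcases hx with h | h | h
    · exact Or.inl fun t => by rw [F.nat, G.nat, H.nat]; exact h (f t)
    · exact Or.inr (Or.inl fun t => by rw [F.nat, G.nat, H.nat]; exact h (f t))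
    · exact Or.inr (Or.inr fun t => by rw [F.nat, G.nat, H.nat]; exact h (f t))
  nhd {n} x t := by
    by_cases hF : F.app x t = ∞
    · by_cases hG : G.app x t = ∞
      · have hH : H.app x t = ∞ := by
          rcases hor x t with ⟨-, h⟩ | ⟨-, h⟩
          · rw [h, hG]
          · rw [h, hF]
        refine ⟨{s | F.app x s ∉ O} ∩ {s | G.app x s ∉ O} ∩ {s | H.app x s ∉ O},
          ((hO.isOpen_compl.preimage (F.app x).continuous).inter
            (hO.isOpen_compl.preimage (G.app x).continuous)).inter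
            (hO.isOpen_compl.preimage (H.app x).continuous),
          ⟨⟨fun h => ho (hF ▸ h), fun h => ho (hG ▸ h)⟩,
            fun h => ho (hH ▸ h)⟩, fun f hf => ?_⟩
        exact Or.inr (Or.inr fun s => by
          rw [F.nat, G.nat, H.nat]
          exact ⟨(hf s).1.1, (hf s).1.2, (hf s).2⟩)
      · refine ⟨{s | G.app x s ≠ ∞}, isOpen_compl_singleton.preimage (G.app x).continuous, hG,
          fun f hf => ?_⟩
        refine Or.inr (Or.inl fun s => ?_)
        rw [F.nat, G.nat, H.nat]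
        rcases hor x (f s) with ⟨h1, h2⟩ | ⟨h1, -⟩
        · exact ⟨fun h => ho (h1 ▸ h), h2⟩
        · exact absurd h1 (hf s)
    · refine ⟨{s | F.app x s ≠ ∞}, isOpen_compl_singleton.preimage (F.app x).continuous, hF,
        fun f hf => ?_⟩
      refine Or.inl fun s => ?_
      rw [F.nat, G.nat, H.nat]
      rcases hor x (f s) with ⟨h1, -⟩ | ⟨h1, h2⟩
      · exact absurd h1 (hf s)
      · exact ⟨fun h => ho (h1 ▸ h), h2⟩

theorem joinU (hO : IsClosed O) (ho : ∞ ∉ O) (hor : Fam.Or F G H) :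
    Cc.Join (locU hO ho hor) (missK O) F.ss G.ss H.ss where
  small {p} x hx := by
    rcases hx with h | h | h
    · exact Or.inl ⟨fun t => (h t).1, ContinuousMap.ext fun t => (h t).2⟩
    · exact Or.inr (Or.inl ⟨fun t => (h t).1, ContinuousMap.ext fun t => (h t).2⟩)
    · exact Or.inr (Or.inr ⟨fun t => (h t).1, fun t => (h t).2.1, fun t => (h t).2.2⟩)

end Fam

end TSet

/-! ### families of loops -/

section loops

variable {X : TSet} {r : ℕ}

/-- the space of pairs -/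
noncomputable abbrev PX (X : TSet) (r : ℕ) : TSet := X.prod (TSet.sing (Sph r))

/-- the family `(x, y) ↦ f x (κ y)` -/
noncomputable def evF (f : X.Fam (Om r)) (κ : C(Sph r, Sph r)) : (PX X r).Fam (Sph r) where
  app z := evC (f.app z.1) (κ.comp z.2)
  nat g z := by
    apply ContinuousMap.ext
    intro t
    exact congrArg (fun q : Om r => q (κ ((show C(G2.Dl _, Sph r) from z.2) (g t))))
      (f.nat_apply g z.1 t)

theorem evF_app (f : X.Fam (Om r)) (κ : C(Sph r, Sph r)) {p : ℕ} (z : (PX X r).obj p)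
    (t : G2.Dl p) : (evF f κ).app z t = f.app z.1 t (κ ((show C(G2.Dl p, Sph r) from z.2) t)) :=
  rfl

/-- the pairs `(x, ∞)` -/
noncomputable def AP (X : TSet) (r : ℕ) : Sb (PX X r).ss :=
  (bs r).comap (SS.snd X.ss (G2.sing (Sph r)))

theorem mem_AP {p : ℕ} {z : (PX X r).ss.obj p} :
    (AP X r).mem z ↔ ∀ t, (show C(G2.Dl p, Sph r) from z.2) t = ∞ := Iff.rfl

/-- the restriction to the cube -/
noncomputable def rhoM (X : TSet) (r : ℕ) : SS.Map (X.ss.prod (SN r)) (PX X r).ss :=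
  ⟨fun z => (z.1, (cx r).app z.2), fun f z => Prod.ext rfl ((cx r).nat f z.2)⟩

theorem rhoM_ends {p : ℕ} {z : (X.ss.prod (SN r)).obj p} (h : (ends X.ss r).mem z) :
    (AP X r).mem ((rhoM X r).app z) := cx_base h

theorem evF_AP (f : X.Fam (Om r)) {κ : C(Sph r, Sph r)} (hκ : κ ∞ = ∞) {O : Set (Sph r)} (ho : ∞ ∉ O)
    {p : ℕ} (z : (PX X r).ss.obj p) (h : (AP X r).mem z) :
    (missK O).mem ((evF f κ).ss.app z) := by
  intro t hc
  have h1 : (show C(G2.Dl p, Sph r) from z.2) t = ∞ := h t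
  have h2 : (toC ((evF f κ).ss.app z)) t = f.app (p := p) z.1 t (κ
    ((show C(G2.Dl p, Sph r) from z.2) t)) := rfl
  rw [h1, hκ] at h2
  exact ho ((h2.trans (f.app (p := p) z.1 t).2) ▸ hc)

/-- the restriction homomorphism -/
noncomputable def rhoH (X : TSet) (r : ℕ) :
    CupC.Hom (Cc.rel (AP X r)) (Cc.rel (ends X.ss r)) :=
  Cc.relHom (rhoM X r) (ends X.ss r) (AP X r) fun _ h => rhoM_ends h

/-- the homotopy over a simplex -/
noncomputable def htC (f : X.Fam (Om r)) (K : C(unitInterval × Sph r, Sph r)) {p : ℕ}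
    (x : X.obj p) (τ : Fin r → Op p 1) (θ : Op p 1) : C(G2.Dl p, Sph r) :=
  evC (f.app x) (K.comp ((chiI θ).prodMk (cxC τ)))

theorem htC_apply (f : X.Fam (Om r)) (K : C(unitInterval × Sph r, Sph r)) {p : ℕ}
    (x : X.obj p) (τ : Fin r → Op p 1) (θ : Op p 1) (t : G2.Dl p) :
    htC f K x τ θ t = f.app x t (K (chiI θ t, cxC τ t)) := rfl

theorem htC_nat (f : X.Fam (Om r)) (K : C(unitInterval × Sph r, Sph r)) {p q : ℕ} (g : Op p q)
    (x : X.obj q) (τ : Fin r → Op q 1) (θ : Op q 1) :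
    htC f K (X.pull (dmap g) x) (fun i => (τ i).comp g) (θ.comp g) =
      (htC f K x τ θ).comp (dmap g) := by
  apply ContinuousMap.ext
  intro t
  rw [ContinuousMap.comp_apply, htC_apply, htC_apply, f.nat_apply, chiI_comp, cxC_comp]
  rfl

/-- the homotopy `(x, τ, s) ↦ f x (K s (cx τ))` -/
noncomputable def htF (f : X.Fam (Om r)) (K : C(unitInterval × Sph r, Sph r)) :
    SS.Map (cylS (X.ss.prod (SN r))) (G2.sing (Sph r)) :=
  ⟨fun {_} z => ofC (htC f K z.1.1 z.1.2 z.2), fun g z => htC_nat f K g z.1.1 z.1.2 z.2⟩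

theorem htF_ends (f : X.Fam (Om r)) {K : C(unitInterval × Sph r, Sph r)} (hK : ∀ s, K (s, ∞) = ∞)
    {O : Set (Sph r)} (ho : ∞ ∉ O) {p : ℕ} (z : (cylS (X.ss.prod (SN r))).obj p)
    (h : (ends X.ss r).cyl.mem z) : (missK O).mem ((htF f K).app z) := by
  intro t hc
  have h1 : cxC z.1.2 t = ∞ := cxC_base h t
  have h2 : toC ((htF f K).app z) t = f.app (p := p) z.1.1 t (K (chiI z.2 t, cxC z.1.2 t)) := rfl
  rw [h1, hK] at h2
  exact ho ((h2.trans (f.app (p := p) z.1.1 t).2) ▸ hc)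

/-- the beginning of the homotopy -/
theorem htF_end0 (f : X.Fam (Om r)) {K : C(unitInterval × Sph r, Sph r)} (hK : ∀ y, K (0, y) = y) :
    (htF f K).comp (end0 _) = evg f.ss := by
  apply SS.Map.ext
  intro p z
  apply ContinuousMap.ext
  intro t
  have h2 : toC (((htF f K).comp (end0 _)).app z) t =
    f.app (p := p) z.1 t (K (chiI (c0 p) t, cxC z.2 t)) := rfl
  rw [chiI_c0, hK] at h2
  exact h2

/-- the end of the homotopy -/
theorem htF_end1 (f : X.Fam (Om r)) {K : C(unitInterval × Sph r, Sph r)} {κ : C(Sph r, Sph r)}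
    (hK : ∀ y, K (1, y) = κ y) :
    (htF f K).comp (end1 _) = (evF f κ).ss.comp (rhoM X r) := by
  apply SS.Map.ext
  intro p z
  apply ContinuousMap.ext
  intro t
  have h2 : toC (((htF f K).comp (end1 _)).app z) t =
    f.app (p := p) z.1 t (K (chiI (c1 p) t, cxC z.2 t)) := rfl
  rw [chiI_c1, hK] at h2
  exact h2

variable {ι : Intg r} {d i : ℕ} {D : BC d r i}

/-- the functional square of `(x, y) ↦ f x (κ y)` on `X × cube` -/
theorem exists_evF (D : BC d r i) {O : Set (Sph r)} (ho : ∞ ∉ O) (hb : Vn (missK O) (Cc.val D.b))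
    (hc : Vn (missK O) (Cc.val D.c)) (f : X.Fam (Om r)) {κ : C(Sph r, Sph r)} (hκ : κ ∞ = ∞)
    {K : C(unitInterval × Sph r, Sph r)} (hK : ∀ s, K (s, ∞) = ∞) (hK0 : ∀ y, K (0, y) = y)
    (hK1 : ∀ y, K (1, y) = κ y) {e : (Cc.rel (ends X.ss r)).C} (hd : Cc.IsDeg (r - 1) (Cc.val e))
    (he : (Cc.rel (ends X.ss r)).d e = (evRel f.ss).f D.b) :
    ∃ E : CupC.FSqD ((rhoH X r).comp (Cc.relHom (evF f κ).ss (AP X r) (missK O)
        fun z h => evF_AP f hκ ho z h)) i,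
      E.b = Cc.mkRel (missK O) (Cc.val D.b) hb ∧ E.c = Cc.mkRel (missK O) (Cc.val D.c) hc ∧
      E.Homog (Cc.relGr (missK O)) (Cc.relGr (ends X.ss r)) (r - 1) (d + r) ∧
      (Cc.rel (ends X.ss r)).Coh (D.sqv f.ss e) E.val := by
  have hr := D.deg
  have hr' : r - 1 + 1 = r := by omega
  let hH : ∀ {p : ℕ} (x : (cylS (X.ss.prod (SN r))).obj p), (ends X.ss r).cyl.mem x →
    (missK O).mem ((htF f K).app x) := fun z h => htF_ends f hK ho z h
  let D0 : CupC.FSqD (Cc.relHom ((htF f K).comp (end0 _)) (ends X.ss r) (missK O)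
      fun _ hx => hH _ hx) i :=
    { b := Cc.mkRel (missK O) (Cc.val D.b) hb
      e := e
      c := Cc.mkRel (missK O) (Cc.val D.c) hc
      d_b := by
        have h1 : Cc.d (Cc.val D.b) = 0 := congrArg Cc.val D.d_b
        exact Cc.rel_ext h1
      d_e := by
        refine Cc.rel_ext ?_
        have h1 : Cc.d (Cc.val e) = Cc.pull (evg f.ss) (Cc.val D.b) := congrArg Cc.val he
        refine h1.trans ?_
        rw [← htF_end0 f hK0]
        rfl
      d_c := by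
        have h1 : Cc.cup (i + 1) (Cc.val D.b) (Cc.val D.b) = Cc.d (Cc.val D.c) :=
          congrArg Cc.val D.d_c
        exact Cc.rel_ext h1 }
  have hD0 : D0.Homog (Cc.relGr (missK O)) (Cc.relGr (ends X.ss r)) (r - 1) (d + r) :=
    ⟨by rw [hr']; exact D.b_deg, hd, D.c_deg, by omega⟩
  obtain ⟨D1, h1, h2, h3, h4⟩ := CupC.FSqD.htpy_homog (htF f K) hH D0 hD0
  have hcg : ∀ x, ((rhoH X r).comp (Cc.relHom (evF f κ).ss (AP X r) (missK O)
      fun z h => evF_AP f hκ ho z h)).f x = (Cc.relHom ((htF f K).comp (end1 _)) (ends X.ss r)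
      (missK O) fun _ hx => hH _ hx).f x := by
    intro x
    refine Cc.rel_ext ?_
    show Cc.pull (rhoM X r) (Cc.pull (evF f κ).ss (Cc.val x)) =
      Cc.pull ((htF f K).comp (end1 _)) (Cc.val x)
    rw [htF_end1 f hK1]
    rfl
  refine ⟨D1.congrJ hcg, h2, h3, ⟨h1.b_mem, h1.e_mem, h1.c_mem, h1.deg_eq⟩, ?_⟩
  rw [CupC.FSqD.val_congrJ]
  have h5 : D0.val = D.sqv f.ss e := by
    show (Cc.rel (ends X.ss r)).q i e + (Cc.relHom ((htF f K).comp (end0 _)) (ends X.ss r)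
      (missK O) fun _ hx => hH _ hx).f (Cc.mkRel (missK O) (Cc.val D.c) hc) =
      (Cc.rel (ends X.ss r)).q i e + (evRel f.ss).f D.c
    congr 1
    refine Cc.rel_ext ?_
    show Cc.pull ((htF f K).comp (end0 _)) (Cc.val D.c) = Cc.pull (evg f.ss) (Cc.val D.c)
    rw [htF_end0 f hK0]
  rw [← h5]
  exact h4

/-- **(S5)**: the class `w_d` is additive for sums of families of loops. -/
theorem IsW.join {O : Set (Sph r)} (hO : IsClosed O) (ho : ∞ ∉ O) (hb : Vn (missK O) (Cc.val D.b))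
    (hc : Vn (missK O) (Cc.val D.c)) {f g h : X.Fam (Om r)}
    {κ κ' : C(Sph r, Sph r)} {K K' : C(unitInterval × Sph r, Sph r)}
    (hK : ∀ s, K (s, ∞) = ∞) (hK0 : ∀ y, K (0, y) = y) (hK1 : ∀ y, K (1, y) = κ y)
    (hK' : ∀ s, K' (s, ∞) = ∞) (hK0' : ∀ y, K' (0, y) = y) (hK1' : ∀ y, K' (1, y) = κ' y)
    (hor : ∀ {p : ℕ} (x : X.obj p) (t : G2.Dl p) (y : Sph r),
      (f.app x t (κ y) = ∞ ∧ h.app x t y = g.app x t (κ' y)) ∨
        (g.app x t (κ' y) = ∞ ∧ h.app x t y = f.app x t (κ y)))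
    {w w' : Cc X.ss} (hw : IsW ι D f.ss w) (hw' : IsW ι D g.ss w') :
    IsW ι D h.ss (w + w') := by
  obtain ⟨e, hd, he, hwe⟩ := hw
  obtain ⟨e', hd', he', hwe'⟩ := hw'
  have hκ : κ ∞ = ∞ := by rw [← hK1, hK]
  have hκ' : κ' ∞ = ∞ := by rw [← hK1', hK']
  obtain ⟨E, h1, h2, h3, h4⟩ := exists_evF D ho hb hc f hκ hK hK0 hK1 hd he
  obtain ⟨E', h1', h2', h3', h4'⟩ := exists_evF D ho hb hc g hκ' hK' hK0' hK1' hd' he'
  have hor' : TSet.Fam.Or (evF f κ) (evF g κ') (evF h (ContinuousMap.id _)) := by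
    intro p z t
    exact hor z.1 t ((show C(G2.Dl p, Sph r) from z.2) t)
  have hid : (ContinuousMap.id (Sph r)) ∞ = ∞ := rfl
  have hloc := TSet.Fam.locU hO ho hor'
  have hA : ∀ {p : ℕ} (x : (PX X r).obj p), (AP X r).mem (p := p) x →
      x ∈ TSet.Fam.SmU (evF f κ) (evF g κ') (evF h (ContinuousMap.id _)) O p :=
    fun x hx => Or.inr (Or.inr fun t => ⟨evF_AP f hκ ho x hx t, evF_AP g hκ' ho x hx t,
      evF_AP h hid ho x hx t⟩)
  obtain ⟨G, g1, g2, g3, g4⟩ := CupC.FSqD.join_res_homog (Cc.negl hloc hA)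
    ((TSet.Fam.joinU hO ho hor').mul (fun z hz => evF_AP f hκ ho z hz)
      (fun z hz => evF_AP g hκ' ho z hz))
    ((TSet.Fam.joinU hO ho hor').add (fun z hz => evF_AP f hκ ho z hz)
      (fun z hz => evF_AP g hκ' ho z hz) (fun z hz => evF_AP h hid ho z hz))
    (fun n _ hx => Cc.pr_mem_neg hloc n hx)
    (fun x hx => Cc.IsDeg.pull (u := Cc.val x) (Cc.mem_relGr.1 hx) _)
    (fun x hx => Cc.IsDeg.pull (u := Cc.val x) (Cc.mem_relGr.1 hx) _)
    (fun x hx => Cc.IsDeg.pull (u := Cc.val x) (Cc.mem_relGr.1 hx) _)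
    (rhoH X r) (GU := Cc.relGr (ends X.ss r))
    (fun x hx => Cc.mem_relGr.2 (Cc.IsDeg.pull (u := Cc.val x) (Cc.mem_relGr.1 hx) (rhoM X r)))
    E E' (h1'.trans h1.symm) (h2'.trans h2.symm) h3 h3'
  refine ⟨G.e, g3.e_mem, ?_, ?_⟩
  · refine G.d_e.trans ?_
    rw [g1, h1]
    rfl
  · have h5 : D.sqv h.ss G.e = G.val := by
      show (Cc.rel (ends X.ss r)).q i G.e + (evRel h.ss).f D.c =
        (Cc.rel (ends X.ss r)).q i G.e + _
      rw [g2, h2]
      rfl
    rw [h5]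
    have h6 : (Cc.rel (ends X.ss r)).Coh (D.sqv f.ss e + D.sqv g.ss e') G.val :=
      (h4.add h4').trans g4.symm
    have h7 := ι.coh h6
    rw [Cc.val_add, ι.I_add] at h7
    exact (hwe.add hwe').trans h7

end loops

end Vale.Agent.P263.TJ
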