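import Vale.Agent.P263.TJ.SmallExt
import Vale.Agent.P263.TJ.E2
import Vale.Agent.P263.TJ.CubeF

/-!
# P263, block (JT): the literal target `T = (ℝᴷ × P)⁺`

* `sgE K : sing ℝᴷ → EN K` : the signs of the coordinates at the vertices.
* `exists_uE` : a cocycle `u` of degree `K` of `sing ℝᴷ` which vanishes on the simplices which miss
  the origin, `u = sgE^*(eC K) + d v`.
* `exists_SqT` : for a cocycle `x` of degree `q` of `sing P`, `P` compact, there are cochains `b`, `c`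
  of `sing (OnePoint (ℝᴷ × P))` which vanish on the simplices which miss `0 × P`, with
  `b = pr_P^* x ∪ pr_E^* u` on the simplices in `ℝᴷ × P`, `d b = 0`, `b ∪_{K-1} b = d c`.
-/

open Finset OnePoint Topology
open Vale.Agent.P251.G (LC)

namespace Vale.Agent.P263.TJ

open Vale.Agent.P263.S Vale.Agent.P263.E Vale.Agent.P263.H83 Vale.Agent.P263.G2
  Vale.Agent.P263.T0

/-! ### signs -/

/-- the sign -/
noncomputable def sgnv (t : ℝ) : Fin 2 := if 0 ≤ t then 1 else 0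

/-- the signs of the coordinates at the vertices -/
noncomputable def sgE (K : ℕ) : SS.Map (sing (Fin K → ℝ)) (EN K) where
  app {p} σ := fun k i => sgnv (toC σ (stdSimplex.vertex i) k)
  nat {p q} f σ := by
    funext k i
    show sgnv ((toC σ) (dmap f (stdSimplex.vertex i)) k) = sgnv (toC σ (stdSimplex.vertex (f i)) k)
    rw [dmap_apply, stdSimplex.map_vertex]

/-- a function without zeros on a simplex has constant sign -/
theorem sgnv_const {p : ℕ} (f : C(Dl p, ℝ)) (h : ∀ t, f t ≠ 0) (s t : Dl p) :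
    sgnv (f s) = sgnv (f t) := by
  have hpc : PreconnectedSpace (Dl p) :=
    isPreconnected_iff_preconnectedSpace.1 (convex_stdSimplex ℝ (Fin (p + 1))).isPreconnected
  have key : ∀ s t : Dl p, 0 ≤ f s → 0 ≤ f t := by
    intro s t hs
    by_contra ht
    obtain ⟨x, hx⟩ := mem_range_of_exists_le_of_exists_ge f.continuous ⟨t, (not_le.1 ht).le⟩
      ⟨s, hs⟩
    exact h x hx
  unfold sgnv
  by_cases hs : 0 ≤ f s
  · rw [if_pos hs, if_pos (key s t hs)]
  · rw [if_neg hs, if_neg fun ht => hs (key t s ht)]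

/-- the simplices on which the coordinate `k` has no zero -/
abbrev noz (K : ℕ) (k : Fin K) : Set (Fin K → ℝ) := {z | z k ≠ 0}

theorem isOpen_noz (K : ℕ) (k : Fin K) : IsOpen (noz K k) :=
  isOpen_ne_fun (continuous_apply k) continuous_const

theorem sgE_base {K : ℕ} (k : Fin K) {p : ℕ} {σ : (sing (Fin K → ℝ)).obj p}
    (h : (inU (noz K k)).mem σ) : (EN.base K).mem ((sgE K).app σ) := by
  have h1 : ∀ i, sgnv (toC σ (stdSimplex.vertex i) k) =
      sgnv (toC σ (stdSimplex.vertex 0) k) := fun i =>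
    sgnv_const ((ContinuousMap.eval k).comp (toC σ)) h _ _
  rcases fin2_cases (sgnv (toC σ (stdSimplex.vertex 0) k)) with h0 | h0
  · exact ⟨k, Or.inl fun i => (h1 i).trans h0⟩
  · exact ⟨k, Or.inr fun i => (h1 i).trans h0⟩

/-- the simplices which miss the origin -/
abbrev nz (K : ℕ) : Set (Fin K → ℝ) := {z | z ≠ 0}

theorem nz_eq (K : ℕ) : nz K = ⋃ k, noz K k := by
  ext z
  simp only [Set.mem_iUnion, Set.mem_ofPred_eq, ne_eq, funext_iff, Pi.zero_apply, not_forall]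

/-! ### the cocycle of Euclidean space -/

/-- the product of the sign cochains -/
noncomputable def u0 (K : ℕ) : Cc (sing (Fin K → ℝ)) := Cc.pull (sgE K) (eC K)

theorem d_u0 (K : ℕ) : Cc.d (u0 K) = 0 := by rw [u0, ← pull_d, d_eC, pull_zero]

theorem isDeg_u0 (K : ℕ) : Cc.IsDeg K (u0 K) := (isDeg_eC K).pull _

theorem Vn_u0 (K : ℕ) (k : Fin K) : Vn (inU (noz K k)) (u0 K) := fun _ _ h =>
  Vn_eC K _ _ (sgE_base k h)

/-- the generator `u` of `H^K(ℝᴷ, ℝᴷ - 0)`, with the correction `v` -/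
theorem exists_uE (K : ℕ) (hK : 0 < K) : ∃ v : Cc (sing (Fin K → ℝ)),
    Cc.IsDeg (K - 1) v ∧ (∀ k, Vn (inU (noz K k)) v) ∧ Vn (inU (nz K)) (u0 K + Cc.d v) := by
  obtain ⟨w, h1, h2⟩ := vanish_more (S := nz K) (isOpen_noz K) (nz_eq K).le (c := u0 K)
    (by rw [d_u0]; exact Vn.zero) (Vn_u0 K)
  obtain ⟨m, rfl⟩ : ∃ m, K = m + 1 := ⟨K - 1, by omega⟩
  refine ⟨Cc.hom m w, isDeg_hom _ _, fun k => (h1 k).hom m, ?_⟩
  have h3 := h2.hom (m + 1)
  have h4 : Cc.hom (m + 1) (u0 (m + 1) + Cc.d w) = u0 (m + 1) + Cc.d (Cc.hom m w) := by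
    rw [d_hom]
    funext p σ
    by_cases hp : p = m + 1
    · subst hp
      rw [hom_self]
      show _ = u0 (m + 1) (m + 1) σ + Cc.hom (m + 1) (Cc.d w) (m + 1) σ
      rw [hom_self]
      rfl
    · rw [hom_of_ne hp]
      show _ = u0 (m + 1) p σ + Cc.hom (m + 1) (Cc.d w) p σ
      rw [hom_of_ne hp, isDeg_u0 (m + 1) p hp]
      rfl
  rwa [h4] at h3

/-- the correction -/
noncomputable def vE (K : ℕ) : Cc (sing (Fin K → ℝ)) :=
  if h : 0 < K then (exists_uE K h).choose else 0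

theorem vE_spec {K : ℕ} (hK : 0 < K) : Cc.IsDeg (K - 1) (vE K) ∧
    (∀ k, Vn (inU (noz K k)) (vE K)) ∧ Vn (inU (nz K)) (u0 K + Cc.d (vE K)) := by
  rw [vE, dif_pos hK]
  exact (exists_uE K hK).choose_spec

/-- **the generator of `H^K(ℝᴷ, ℝᴷ - 0)`** -/
noncomputable def uE (K : ℕ) : Cc (sing (Fin K → ℝ)) := u0 K + Cc.d (vE K)

theorem d_uE (K : ℕ) : Cc.d (uE K) = 0 := by rw [uE, d_add, d_u0, d_d, add_zero]

theorem isDeg_uE {K : ℕ} (hK : 0 < K) : Cc.IsDeg K (uE K) := by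
  obtain ⟨m, rfl⟩ : ∃ m, K = m + 1 := ⟨K - 1, by omega⟩
  exact (isDeg_u0 _).add (vE_spec hK).1.d

theorem Vn_uE {K : ℕ} (hK : 0 < K) : Vn (inU (nz K)) (uE K) := (vE_spec hK).2.2

/-! ### the cube in Euclidean space -/

/-- `[0,1]ᴷ → ℝᴷ`, `x ↦ 2x - 1` -/
noncomputable def linC {K p : ℕ} (τ : Fin K → Op p 1) : C(Dl p, Fin K → ℝ) :=
  ⟨fun t k => 2 * (chiI (τ k) t : ℝ) - 1, by
    refine continuous_pi fun k => ?_
    exact (continuous_const.mul (continuous_subtype_val.comp (chiI (τ k)).continuous)).sub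
      continuous_const⟩

/-- the cube -/
noncomputable def lin (K : ℕ) : SS.Map (SN K) (sing (Fin K → ℝ)) :=
  ⟨fun τ => ofC (linC τ), fun f τ => by
    apply ContinuousMap.ext
    intro t
    funext k
    show 2 * (chiI ((τ k).comp f) t : ℝ) - 1 = 2 * (chiI (τ k) (dmap f t) : ℝ) - 1
    rw [chiI_comp]
    rfl⟩

theorem chiI_vertex_val {p : ℕ} (χ : Op p 1) (i : Fin (p + 1)) :
    (chiI χ (stdSimplex.vertex i) : ℝ) = if χ i = 1 then 1 else 0 := by
  show (stdSimplex.map χ (stdSimplex.vertex (S := ℝ) i) : Fin 2 → ℝ) 1 = _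
  rw [stdSimplex.map_vertex, stdSimplex.vertex_coe, Pi.single_apply]
  simp only [eq_comm]

theorem sgE_lin (K : ℕ) : (sgE K).comp (lin K) = iN K := by
  apply SS.Map.ext
  intro p τ
  funext k i
  show sgnv (2 * (chiI (τ k) (stdSimplex.vertex i) : ℝ) - 1) = (show Op p 1 from τ k) i
  rw [chiI_vertex_val]
  rcases fin2_cases ((show Op p 1 from τ k) i) with h | h
  · have h' : (τ k) i = 0 := h
    rw [h', if_neg (by decide), sgnv, if_neg (by norm_num)]
  · have h' : (τ k) i = 1 := h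
    rw [h', if_pos rfl, sgnv, if_pos (by norm_num)]

theorem lin_noz {K p : ℕ} {τ : (SN K).obj p} {k : Fin K} (h : τ k = c0 p ∨ τ k = c1 p) :
    (inU (noz K k)).mem ((lin K).app τ) := by
  intro t
  show 2 * (chiI (τ k) t : ℝ) - 1 ≠ 0
  rcases h with h | h
  · rw [h, chiI_c0]
    norm_num
  · rw [h, chiI_c1]
    norm_num

theorem lin_uE (K : ℕ) : Cc.pull (lin K) (uE K) = sC K + Cc.d (Cc.pull (lin K) (vE K)) := by
  rw [uE, pull_add, pull_d]
  congr 1
  show Cc.pull ((sgE K).comp (lin K)) (eC K) = sC K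
  rw [sgE_lin, pull_eC]

theorem Vn_lin_vE {K : ℕ} (hK : 0 < K) : Vn (SN.base K) (Cc.pull (lin K) (vE K)) := by
  rintro p τ ⟨k, h⟩
  exact (vE_spec hK).2.1 k p _ (lin_noz h)

/-! ### the variation of the square -/

section var

variable {X : SS}

/-- the correction term of the square, for a change of `B` by `d a` -/
def qQ (j : ℕ) (B a : Cc X) : Cc X :=
  Cc.cup j a a + Cc.cup (j + 1) a (Cc.d a) + Cc.cup (j + 1) B a + Cc.cup (j + 1) a B

theorem pull_qQ {Z : SS} (f : SS.Map Z X) (j : ℕ) (B a : Cc X) :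
    Cc.pull f (qQ j B a) = qQ j (Cc.pull f B) (Cc.pull f a) := by
  simp only [qQ, pull_add, pull_cup, pull_d]

theorem Vn.qQ {A : Sb X} {a : Cc X} (ha : Vn A a) (j : ℕ) (B : Cc X) : Vn A (qQ j B a) :=
  (((ha.cup_left _ _).add (ha.cup_left _ _)).add (ha.cup_right _ _)).add (ha.cup_left _ _)

theorem d_qQ (j : ℕ) {B : Cc X} (a : Cc X) (hB : Cc.d B = 0) :
    Cc.d (qQ j B a) =
      Cc.cup (j + 1) (B + Cc.d a) (B + Cc.d a) + Cc.cup (j + 1) B B := by
  have h1 : Cc.d (Cc.cup j a a) = Cc.cup j (Cc.d a) a + Cc.cup j a (Cc.d a) := by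
    cases j with
    | zero => simp only [cup_zero, d_zero, add_zero]
    | succ j =>
      rw [d_cup]
      funext p x
      show _ + _ + Cc.cup j a a p x + Cc.cup j a a p x = _
      rw [add_assoc, CharTwo.add_self_eq_zero (Cc.cup j a a p x), add_zero]
      rfl
  rw [qQ, d_add, d_add, d_add, h1, d_cup, d_cup, d_cup, d_d, hB]
  simp only [cup_zero_left, cup_zero_right, cup_add_left, cup_add_right]
  funext p x
  simp only [Pi.add_apply, Pi.zero_apply]
  have e1 := CharTwo.add_self_eq_zero (Cc.cup j (Cc.d a) a p x)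
  have e2 := CharTwo.add_self_eq_zero (Cc.cup j a (Cc.d a) p x)
  have e3 := CharTwo.add_self_eq_zero (Cc.cup j B a p x)
  have e4 := CharTwo.add_self_eq_zero (Cc.cup j a B p x)
  have e5 := CharTwo.add_self_eq_zero (Cc.cup (j + 1) B B p x)
  linear_combination e1 + e2 + e3 + e4 - e5

theorem Cc.IsDeg.qQ {j m : ℕ} {B a : Cc X} (hB : Cc.IsDeg (m + j + 1) B)
    (ha : Cc.IsDeg (m + j) a) : Cc.IsDeg (m + m + j + 1) (qQ j B a) := by
  refine ((Cc.IsDeg.add (Cc.IsDeg.add ?_ ?_) ?_)).add ?_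
  · exact ha.cup ha (by omega)
  · exact ha.cup ha.d (by omega)
  · exact hB.cup ha (by omega)
  · exact ha.cup hB (by omega)

end var

/-! ### `ℝᴷ × P` -/

section EP

variable {P : Type} [TopologicalSpace P]

/-- the projection to `P` -/
noncomputable def prPK (K : ℕ) (P : Type) [TopologicalSpace P] :
    SS.Map (sing ((Fin K → ℝ) × P)) (sing P) := singMap ContinuousMap.snd

/-- the projection to `ℝᴷ` -/
noncomputable def prEK (K : ℕ) (P : Type) [TopologicalSpace P] :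
    SS.Map (sing ((Fin K → ℝ) × P)) (sing (Fin K → ℝ)) := singMap ContinuousMap.fst

/-- the signs -/
noncomputable def sgP (K : ℕ) (P : Type) [TopologicalSpace P] :
    SS.Map (sing ((Fin K → ℝ) × P)) ((sing P).prod (EN K)) :=
  SS.pair (prPK K P) ((sgE K).comp (prEK K P))

/-- the class `x.u` on `ℝᴷ × P` -/
noncomputable def bEP (K : ℕ) (x : Cc (sing P)) : Cc (sing ((Fin K → ℝ) × P)) :=
  Cc.cup 1 (Cc.pull (prPK K P) x) (Cc.pull (prEK K P) (uE K))

/-- the same with the strict sign cochain -/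
noncomputable def b0P (K : ℕ) (x : Cc (sing P)) : Cc (sing ((Fin K → ℝ) × P)) :=
  Cc.cup 1 (Cc.pull (prPK K P) x) (Cc.pull (prEK K P) (u0 K))

/-- the correction -/
noncomputable def a1P (K : ℕ) (x : Cc (sing P)) : Cc (sing ((Fin K → ℝ) × P)) :=
  Cc.cup 1 (Cc.pull (prPK K P) x) (Cc.pull (prEK K P) (vE K))

theorem b0P_eq (K : ℕ) (x : Cc (sing P)) : b0P K x = Cc.pull (sgP K P) (enN K x) := by
  rw [enN, pull_cup]
  rfl

theorem d_b0P (K : ℕ) {x : Cc (sing P)} (hx : Cc.d x = 0) : Cc.d (b0P K x) = 0 := by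
  rw [b0P, d_cup_one, ← pull_d, ← pull_d, hx, d_u0, pull_zero, pull_zero, cup_zero_left,
    cup_zero_right, add_zero]

theorem bEP_eq (K : ℕ) {x : Cc (sing P)} (hx : Cc.d x = 0) :
    bEP K x = b0P K x + Cc.d (a1P K x) := by
  rw [a1P, d_cup_one, ← pull_d, ← pull_d, hx, pull_zero, cup_zero_left, zero_add, b0P,
    ← cup_add_right, ← pull_add]
  rfl

theorem d_bEP (K : ℕ) {x : Cc (sing P)} (hx : Cc.d x = 0) : Cc.d (bEP K x) = 0 := by
  rw [bEP_eq K hx, d_add, d_b0P K hx, d_d, add_zero]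

theorem isDeg_bEP {K q : ℕ} (hK : 0 < K) {x : Cc (sing P)} (hq : Cc.IsDeg q x) :
    Cc.IsDeg (q + K) (bEP K x) := (hq.pull _).cup ((isDeg_uE hK).pull _) rfl

theorem isDeg_b0P {K q : ℕ} {x : Cc (sing P)} (hq : Cc.IsDeg q x) :
    Cc.IsDeg (q + K) (b0P K x) := (hq.pull _).cup ((isDeg_u0 K).pull _) rfl

/-- the points of `ℝᴷ × P` with non-zero coordinate `k` -/
abbrev nozP (K : ℕ) (P : Type) (k : Fin K) : Set ((Fin K → ℝ) × P) := {z | z.1 k ≠ 0}

/-- the points of `ℝᴷ × P` outside of `0 × P` -/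
abbrev nzP (K : ℕ) (P : Type) : Set ((Fin K → ℝ) × P) := {z | z.1 ≠ 0}

theorem isOpen_nozP (K : ℕ) (k : Fin K) : IsOpen (nozP K P k) :=
  isOpen_ne_fun ((continuous_apply k).comp continuous_fst) continuous_const

omit [TopologicalSpace P] in
theorem nzP_eq (K : ℕ) : nzP K P = ⋃ k, nozP K P k := by
  ext z
  simp only [Set.mem_iUnion, Set.mem_ofPred_eq, ne_eq, funext_iff, Pi.zero_apply, not_forall]

theorem Vn_bEP {K : ℕ} (hK : 0 < K) (x : Cc (sing P)) : Vn (inU (nzP K P)) (bEP K x) :=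
  Vn.cup_right 1 _ fun p _ h => Vn_uE hK p _ h

theorem Vn_a1P {K : ℕ} (hK : 0 < K) (x : Cc (sing P)) (k : Fin K) :
    Vn (inU (nozP K P k)) (a1P K x) :=
  Vn.cup_right 1 _ fun p _ h => (vE_spec hK).2.1 k p _ h

theorem sgP_base {K : ℕ} (k : Fin K) {p : ℕ} {σ : (sing ((Fin K → ℝ) × P)).obj p}
    (h : (inU (nozP K P k)).mem σ) : (bdE (sing P) K).mem ((sgP K P).app σ) :=
  sgE_base (σ := (prEK K P).app σ) k h

/-- the cube in `ℝᴷ`, times `P` -/
noncomputable def linP (K : ℕ) (P : Type) [TopologicalSpace P] :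
    SS.Map ((sing P).prod (SN K)) (sing ((Fin K → ℝ) × P)) :=
  ⟨fun z => ofC ((linC z.2).prodMk (toC z.1)), fun f z => by
    apply ContinuousMap.ext
    intro t
    exact Prod.ext (DFunLike.congr_fun (show linC ((SN K).map f z.2) =
      (linC z.2).comp (dmap f) from (lin K).nat f z.2) t) rfl⟩

theorem prPK_linP (K : ℕ) : (prPK K P).comp (linP K P) = SS.fst (sing P) (SN K) := rfl

theorem prEK_linP (K : ℕ) : (prEK K P).comp (linP K P) =
    (lin K).comp (SS.snd (sing P) (SN K)) := rfl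

theorem sgP_linP (K : ℕ) : (sgP K P).comp (linP K P) = iX (sing P) K := by
  show SS.pair ((prPK K P).comp (linP K P)) ((sgE K).comp ((prEK K P).comp (linP K P))) = _
  rw [prPK_linP, prEK_linP]
  show SS.pair _ (((sgE K).comp (lin K)).comp _) = _
  rw [sgE_lin]
  rfl

theorem linP_nozP {K p : ℕ} {z : ((sing P).prod (SN K)).obj p} {k : Fin K}
    (h : z.2 k = c0 p ∨ z.2 k = c1 p) : (inU (nozP K P k)).mem ((linP K P).app z) :=
  lin_noz (τ := z.2) h

theorem Vn_linP {K : ℕ} {w : Cc (sing ((Fin K → ℝ) × P))} (hw : ∀ k, Vn (inU (nozP K P k)) w) :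
    Vn (bdX (sing P) K) (Cc.pull (linP K P) w) := by
  rintro p z ⟨k, h⟩
  exact hw k p _ (linP_nozP h)

theorem linP_b0P (K : ℕ) (x : Cc (sing P)) : Cc.pull (linP K P) (b0P K x) = sn K x := by
  rw [b0P_eq]
  show Cc.pull ((sgP K P).comp (linP K P)) (enN K x) = sn K x
  rw [sgP_linP, pull_enN]

/-- **the null homotopy of the square of `x.u`** -/
theorem exists_cEP {K q : ℕ} (hK : 0 < K) {x : Cc (sing P)} (hq : Cc.IsDeg q x)
    (hx : Cc.d x = 0) :
    ∃ c : Cc (sing ((Fin K → ℝ) × P)), Vn (inU (nzP K P)) c ∧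
      Cc.d c = Cc.cup K (bEP K x) (bEP K x) ∧
      ∃ γ : Cc ((sing P).prod (SN K)), Vn (bdX (sing P) K) γ ∧
        Cc.pull (linP K P) c =
          qQ (K - 1) (sn K x) (Cc.pull (linP K P) (a1P K x)) + Cc.d γ := by
  obtain ⟨c1, h1, _, h2, γ, h3, _, h4⟩ := exists_sqE_homog hK hq hx
  obtain ⟨j, rfl⟩ : ∃ j, K = j + 1 := ⟨K - 1, by omega⟩
  set c2 := Cc.pull (sgP (j + 1) P) c1 + qQ j (b0P (j + 1) x) (a1P (j + 1) x) with hc2
  have h5 : ∀ k, Vn (inU (nozP (j + 1) P k)) c2 := fun k =>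
    Vn.add (fun p σ h => h1 p _ (sgP_base k h)) ((Vn_a1P hK x k).qQ j _)
  have h6 : Cc.d c2 = Cc.cup (j + 1) (bEP (j + 1) x) (bEP (j + 1) x) := by
    rw [hc2, d_add, ← pull_d, h2, pull_cup, ← b0P_eq, d_qQ j _ (d_b0P _ hx), ← bEP_eq _ hx]
    funext p σ
    show Cc.cup (j + 1) (b0P (j + 1) x) (b0P (j + 1) x) p σ +
      (Cc.cup (j + 1) (bEP (j + 1) x) (bEP (j + 1) x) p σ +
        Cc.cup (j + 1) (b0P (j + 1) x) (b0P (j + 1) x) p σ) = _
    have e := CharTwo.add_self_eq_zero (Cc.cup (j + 1) (b0P (j + 1) x) (b0P (j + 1) x) p σ)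
    linear_combination e
  obtain ⟨w, h7, h8⟩ := vanish_more (isOpen_nozP (P := P) (j + 1)) (nzP_eq (P := P) (j + 1)).le
    (c := c2) (by rw [h6]; exact (Vn_bEP hK x).cup_left _ _) h5
  refine ⟨c2 + Cc.d w, h8, by rw [d_add, h6, d_d, add_zero],
    γ + Cc.pull (linP (j + 1) P) w, h3.add (Vn_linP h7), ?_⟩
  rw [pull_add, hc2, pull_add, pull_d, pull_qQ, linP_b0P]
  have h9 : Cc.pull (linP (j + 1) P) (Cc.pull (sgP (j + 1) P) c1) = Cc.d γ := by
    rw [← h4, ← sgP_linP]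
    rfl
  rw [h9, d_add]
  show _ = qQ j _ _ + _
  abel

end EP

/-! ### the literal target -/

section T

variable (K : ℕ) (P : Type) [TopologicalSpace P]

/-- `ℝᴷ × P` in its one-point compactification -/
def coeT : C((Fin K → ℝ) × P, OnePoint ((Fin K → ℝ) × P)) :=
  ⟨fun z => (z : OnePoint ((Fin K → ℝ) × P)), OnePoint.continuous_coe⟩

/-- the complement of `0 × P` -/
def misT : Set (OnePoint ((Fin K → ℝ) × P)) :=
  {z | ∀ p : P, z ≠ (((0 : Fin K → ℝ), p) : (Fin K → ℝ) × P)}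

theorem isOpen_misT [CompactSpace P] [T2Space P] : IsOpen (misT K P) := by
  have h : misT K P = (((fun p : P => ((((0 : Fin K → ℝ), p) : (Fin K → ℝ) × P) :
      OnePoint ((Fin K → ℝ) × P))) '' Set.univ))ᶜ := by
    ext z
    simp only [misT, Set.mem_ofPred_eq, Set.image_univ, Set.mem_compl_iff, Set.mem_range, not_exists]
    exact forall_congr' fun p => ⟨fun h h' => h h'.symm, fun h h' => h h'.symm⟩
  rw [h]
  refine (IsCompact.isClosed (isCompact_univ.image ?_)).isOpen_compl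
  exact OnePoint.continuous_coe.comp (continuous_const.prodMk continuous_id)

variable {K P}

theorem coeT_misT {z : (Fin K → ℝ) × P} : coeT K P z ∈ misT K P ↔ z ∈ nzP K P := by
  constructor
  · intro h h0
    refine h z.2 ?_
    show ((z : (Fin K → ℝ) × P) : OnePoint ((Fin K → ℝ) × P)) = _
    rw [← show z.1 = 0 from h0]
  · intro h p h0
    have h1 : z = ((0 : Fin K → ℝ), p) := OnePoint.coe_injective h0
    exact h (by rw [h1])

theorem comap_misT {p : ℕ} {σ : (sing ((Fin K → ℝ) × P)).obj p} :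
    ((inU (misT K P)).comap (singMap (coeT K P))).mem σ ↔ (inU (nzP K P)).mem σ :=
  forall_congr' fun _ => coeT_misT

variable [CompactSpace P] [T2Space P]

/-- a cochain of `ℝᴷ × P` which vanishes on the simplices which miss `0 × P` extends to the one
point compactification, with prescribed coboundary -/
theorem exists_extT {B : Cc (sing ((Fin K → ℝ) × P))} (hB : Vn (inU (nzP K P)) B)
    {G : Cc (sing (OnePoint ((Fin K → ℝ) × P)))} (hG : Cc.d G = 0)
    (hG1 : Vn (inU (misT K P)) G) (hGB : Cc.pull (singMap (coeT K P)) G = Cc.d B) :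
    ∃ b : Cc (sing (OnePoint ((Fin K → ℝ) × P))), Cc.pull (singMap (coeT K P)) b = B ∧
      Vn (inU (misT K P)) b ∧ Cc.d b = G := by
  refine ext_over (j := coeT K P) OnePoint.isOpenEmbedding_coe (isOpen_misT K P) ?_
    (fun p σ h => hB p σ (comap_misT.1 h)) hG hG1 hGB
  intro y
  induction y using OnePoint.rec with
  | infty => exact Or.inr fun p => OnePoint.infty_ne_coe _
  | coe z => exact Or.inl ⟨z, rfl⟩

/-- **(JT)** the literal data on `T = (ℝᴷ × P)⁺`. -/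
theorem exists_SqT {q : ℕ} (hK : 0 < K) {x : Cc (sing P)} (hq : Cc.IsDeg q x)
    (hx : Cc.d x = 0) :
    ∃ b c : Cc (sing (OnePoint ((Fin K → ℝ) × P))),
      Cc.IsDeg (q + K) b ∧ Cc.IsDeg (q + q + K) c ∧ Cc.d b = 0 ∧ Cc.cup K b b = Cc.d c ∧
      Vn (inU (misT K P)) b ∧ Vn (inU (misT K P)) c ∧
      Cc.pull (singMap (coeT K P)) b = bEP K x ∧
      ∃ γ : Cc ((sing P).prod (SN K)), Vn (bdX (sing P) K) γ ∧
        Cc.pull ((singMap (coeT K P)).comp (linP K P)) c =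
          qQ (K - 1) (sn K x) (Cc.pull (linP K P) (a1P K x)) + Cc.d γ := by
  obtain ⟨b', h1, h2, h3⟩ := exists_extT (Vn_bEP hK x) d_zero (G := 0)
    (Vn.zero) (by rw [pull_zero, d_bEP K hx])
  set b := Cc.hom (q + K) b' with hb
  have hbq : Cc.IsDeg (q + K) b := isDeg_hom _ _
  have hb1 : Cc.pull (singMap (coeT K P)) b = bEP K x := by
    rw [hb, pull_hom, h1, hom_of_isDeg (isDeg_bEP hK hq)]
  have hb2 : Vn (inU (misT K P)) b := h2.hom _
  have hb3 : Cc.d b = 0 := by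
    rw [hb, d_hom, h3]
    funext p σ
    rw [Cc.hom]
    split_ifs <;> rfl
  obtain ⟨c3, h4, h5, γ, h6, h7⟩ := exists_cEP hK hq hx
  obtain ⟨c', h8, h9, h10⟩ := exists_extT h4 (d_cup_self_zero K hb3) (hb2.cup_left K b)
    (by rw [pull_cup, hb1, h5])
  obtain ⟨m, rfl⟩ : ∃ m, K = m + 1 := ⟨K - 1, by omega⟩
  refine ⟨b, Cc.hom (q + q + (m + 1)) c', hbq, isDeg_hom _ _, hb3, ?_, hb2, h9.hom _, hb1,
    Cc.hom (q + q + m) γ, h6.hom _, ?_⟩
  · rw [d_hom, h10]
    exact (hom_of_isDeg (hbq.cup hbq (by omega))).symm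
  · rw [pull_hom]
    have h11 : Cc.pull ((singMap (coeT (m + 1) P)).comp (linP (m + 1) P)) c' =
        Cc.pull (linP (m + 1) P) c3 := by
      rw [← h8]
      rfl
    rw [h11, h7, d_hom]
    have hsn : Cc.IsDeg (q + m + 1) (sn (m + 1) x) := isDeg_sn (m + 1) hq
    have ha : Cc.IsDeg (q + m) (Cc.pull (linP (m + 1) P) (a1P (m + 1) x)) := by
      refine Cc.IsDeg.pull ?_ _
      exact (hq.pull _).cup ((vE_spec hK).1.pull _) rfl
    have hQ : Cc.IsDeg (q + q + m + 1)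
        (qQ m (sn (m + 1) x) (Cc.pull (linP (m + 1) P) (a1P (m + 1) x))) := hsn.qQ ha
    funext p z
    by_cases hp : p = q + q + (m + 1)
    · subst hp
      rw [hom_self]
      show _ = qQ m _ _ (q + q + (m + 1)) z + Cc.hom (q + q + m + 1) (Cc.d γ) (q + q + m + 1) z
      rw [hom_self]
      rfl
    · rw [hom_of_ne hp]
      show (0 : ZMod 2) = qQ m _ _ p z + Cc.hom (q + q + m + 1) (Cc.d γ) p z
      have e : Cc.hom (q + q + m + 1) (Cc.d γ) p = 0 := hom_of_ne hp _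
      rw [e, hQ p hp z]
      rfl

end T

end Vale.Agent.P263.TJ
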